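import Vale.Agent.P218N.C5.White

/-! One sheet, and the charts of block C. -/

open MeasureTheory Set Filter Topology Metric Real
open scoped RealInnerProductSpace ContDiff

noncomputable section

namespace Vale.Agent.P218N.C5

open Vale.Agent.P218.H313 Vale.Agent.P218N.H Vale.Agent.P218N.C

variable {V : Set E3} {f : Frame 2 E3} {x₁ : E3} {a b t : ℝ} {u : Sp 2 → ℝ}

theorem loc_unique (hV : Surf V) {z : E3} (hz : z ∈ V) (h0 : mu V f z ≠ 0) :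
    ∃ N ∈ 𝓝 z, ∀ x ∈ N, ∀ x' ∈ N, x ∈ V → x' ∈ V → f.π x = f.π x' → x = x' := by
  obtain ⟨U, N, B, h1, c⟩ := exists_ch hV hz h0
  exact ⟨N, c.openN.mem_nhds h1, fun x hx x' hx' h2 h3 h4 => by
    rw [← c.eq x hx h2, h4, c.eq x' hx' h3]⟩

theorem norm_gr_sub_le (f : Frame 2 E3) (p : E3) (U : E2 → ℝ) (y : E2) :
    ‖f.gr p U y - p‖ ≤ ‖y‖ + |U y| := by
  rw [Frame.gr, add_sub_cancel_left]
  refine (norm_add_le _ _).trans_eq ?_
  rw [f.norm_ι, norm_smul, f.norm_n, mul_one, norm_eq_abs]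

theorem FG.lipt (h : FG V f x₁ a b u) {y : E2} (hy : ‖y‖ < 1 / 32) {t t' : ℝ} (ht : t ∈ Ioo a b)
    (ht' : t' ∈ Ioo a b) : |u (y, t) - u (y, t')| ≤ 6 * |t - t'| := by
  have hz : ∀ s ∈ Ioo a b, ((y, s) : Sp 2) ∈ Om a b := fun s hs => ⟨mem_ball_zero_iff.2 hy, hs⟩
  exact (convex_Ioo a b).norm_image_sub_le_of_norm_hasDerivWithin_le (f := fun s => u (y, s))
    (f' := fun s => D TT u (y, s)) (C := 6) (fun s hs => (((h.smooth.contDiffAt
      ((isOpen_Om a b).mem_nhds (hz s hs))).differentiableAt (by simp)).hasFDerivAt.comp_hasDerivAt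
        s ((hasDerivAt_const s y).prodMk (hasDerivAt_id s))).hasDerivWithinAt)
    (fun s hs => h.bdt _ (hz s hs)) ht' ht

/-- **One sheet.** -/
theorem one_sheet (hV : SV V) (hb : b ≤ 0) (hab : b - a ≤ 1 / 90000)
    (hc : ∀ t ∈ Ioo a b, ∀ z ∈ V, ‖lam t • z - x₁‖ ≤ 2 → ‖sff V z‖ ≤ lam t) (hu : FG V f x₁ a b u)
    (ht : t ∈ Ioo a b) {x : E3} (hx : x ∈ f.cyl x₁ (1 / 10000) (1 / 10000))
    (hxV : (lam t)⁻¹ • x ∈ V) (hR : Th V x t (1 / 1024 ^ 2) < 6 / 5) :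
    f.gw x₁ (fun y => u (y, t)) x = 0 := by
  by_contra hne
  have ht0 := ht.2.trans_le hb
  have h0 := lam_pos ht0
  have e0 : lam t • (lam t)⁻¹ • x = x := smul_inv_smul₀ h0.ne' x
  have n0 : ‖x - x₁‖ < 1 / 10000 + 1 / 10000 := mem_ball_iff_norm.1 (f.cyl_subset_ball _ _ _ hx)
  obtain ⟨f', hf'⟩ := exists_frame (m := 2) (E := E3) (by simp) (hV.shr.surf.norm_nu hxV)
  obtain ⟨u', hu', u0, -⟩ := Su.exists_fg (V := V) ⟨hV.shr, hV.closed, hxV, hf', ht, hb, hab,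
    fun t' ht' z hz hd => hc t' ht' z hz (by
      rw [e0] at hd
      linarith [norm_sub_le_norm_sub_add_norm_sub (lam t' • z) x x₁])⟩
  rw [e0] at hu'
  obtain ⟨U, hU, he⟩ := hu.exists_ext ht (r := 7 / 256) (by norm_num)
  obtain ⟨U', hU', he'⟩ := hu'.exists_ext ht (r := 1 / 64) (by norm_num)
  have b1 : ∀ y ∈ ball (0 : E2) (1 / 64), |U' y| ≤ ‖y‖ / 2 := fun y hy => by
    have hy' := mem_ball_zero_iff.1 hy
    simpa [(he' y hy'.le).self_of_nhds, u0] using hu'.lip ht (y := y) (y' := 0) (by linarith)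
      (by simp)
  have b2 : ∀ y ∈ ball (0 : E2) (1 / 64), ‖f.π (f'.gr x U' y - x₁)‖ < 7 / 256 := fun y hy => by
    linarith [f.norm_π_le (f'.gr x U' y - x₁), norm_gr_sub_le f' x U' y, b1 y hy,
      norm_sub_le_norm_sub_add_norm_sub (f'.gr x U' y) x x₁, mem_ball_zero_iff.1 hy]
  have s1 : sh f x₁ U (lam t) (ball 0 (7 / 256)) ⊆ V :=
    hu.sh_subset ht (by norm_num) he fun y hy => (mem_ball_zero_iff.1 hy).le
  have s2 : sh f' x U' (lam t) (ball 0 (1 / 64)) ⊆ V :=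
    hu'.sh_subset ht (by norm_num) he' fun y hy => (mem_ball_zero_iff.1 hy).le
  have c1 : Continuous (f.gr x₁ U) := (f.contDiff_gr _ hU).continuous
  have c2 : Continuous (f'.gr x U') := (f'.contDiff_gr _ hU').continuous
  have c3 : Continuous fun y => f.π (f'.gr x U' y - x₁) := by fun_prop
  have g0 : f'.gr x U' 0 = x := by simp [Frame.gr, (he' 0 (by simp)).self_of_nhds, u0]
  have hd : ball (0 : E2) (1 / 64) ⊆ {y | f.gw x₁ U (f'.gr x U' y) ≠ 0} := by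
    refine (convex_ball _ _).isPreconnected.subset_of_closure_inter_subset
      (isOpen_ne_fun ((f.contDiff_gw _ hU).continuous.comp c2) continuous_const)
      ⟨0, mem_ball_self (by norm_num), ?_⟩ fun y hy h1 => ?_
    · rw [mem_ofPred_eq, g0, Frame.gw, (he _ (hx.1.le.trans (by norm_num))).self_of_nhds]
      exact hne
    have h2 := f.gr_π h1
    have h3 : ((f.π (f'.gr x U' y - x₁), t) : Sp 2) ∈ Om a b :=
      ⟨mem_ball_zero_iff.2 ((b2 y hy.2).trans (by norm_num)), ht⟩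
    have h4 : pt f x₁ u (f.π (f'.gr x U' y - x₁), t) = (lam t)⁻¹ • f'.gr x U' y := by
      conv_rhs => rw [← h2, Frame.gr, (he _ (b2 y hy.2).le).self_of_nhds]
      rfl
    obtain ⟨N, hN, h5⟩ := loc_unique hV.shr.surf (hu.mem _ h3) (hu.ne _ h3)
    rw [h4] at hN
    have h6 : ∀ᶠ y' in 𝓝 y, (lam t)⁻¹ • f'.gr x U' y' ∈ N :=
      (c2.fun_const_smul _).continuousAt.eventually hN
    have h7 : ∀ᶠ y' in 𝓝 y, (lam t)⁻¹ • f.gr x₁ U (f.π (f'.gr x U' y' - x₁)) ∈ N :=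
      ((c1.comp c3).fun_const_smul _).continuousAt.eventually 
        (by simp only [Function.comp_apply, h2]; exact hN)
    obtain ⟨y', h8, h9, h10, h11⟩ := (mem_closure_iff_frequently.1 hy.1).and_eventually
      (h6.and (h7.and (isOpen_ball.eventually_mem hy.2))) |>.exists
    have h12 := h5 _ h9 _ h10 (s2 ⟨y', h11, rfl⟩) (s1 ⟨_, mem_ball_zero_iff.2 (b2 y' h11), rfl⟩) (by
      rw [map_smul, map_smul]
      congr 1
      have := f.π_gr x₁ U (f.π (f'.gr x U' y' - x₁))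
      rw [map_sub, sub_eq_iff_eq_add] at this
      rw [this, map_sub, sub_add_cancel])
    exact h8 (by rw [smul_right_injective _ (inv_pos.2 h0).ne' h12, f.gw_gr])
  have b3 : ball (f.π (x - x₁)) (1 / 64) ⊆ ball 0 (7 / 256) := fun y hy => mem_ball_zero_iff.2 (by
    linarith [mem_ball_iff_norm.1 hy, norm_le_insert' y (f.π (x - x₁)), hx.1])
  have k := hV.two_sheets ht0 (s := 1 / 1024 ^ 2) (by norm_num) x hU measurableSet_ball
    ((image_mono b3).trans s1) hU' measurableSet_ball s2 (by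
      rw [Set.disjoint_left]
      rintro _ ⟨y, -, rfl⟩ ⟨y', hy', h1⟩
      exact hd hy' (by rw [smul_right_injective _ (inv_pos.2 h0).ne' h1, f.gw_gr]))
  have k1 := sheet_ge hU (y₀ := f.π (x - x₁)) (a := ⟪f.n, x - x₁⟫) (e := 3 / 10000) (r := 1 / 64)
    (s := 1 / 1024 ^ 2) (by norm_num) (by norm_num) (by norm_num) (fun y hy => by
      have h1 := mem_ball_zero_iff.1 (b3 hy)
      have h2 := hu.lip ht (y := y) (y' := f.π (x - x₁)) (by linarith) (by linarith [hx.1])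
      have h3 := hu.bd0 (f.π (x - x₁), t) ⟨mem_ball_zero_iff.2 (by linarith [hx.1]), ht⟩
      rw [(he y h1.le).self_of_nhds]
      linarith [hx.1, hx.2, abs_sub_le (u (y, t)) (u (f.π (x - x₁), t)) ⟪f.n, x - x₁⟫,
        abs_sub (u (f.π (x - x₁), t)) ⟪f.n, x - x₁⟫]) (by norm_num)
  have k2 := sheet_ge hU' (y₀ := 0) (a := 0) (e := 0) (r := 1 / 64) (s := 1 / 1024 ^ 2)
    (by norm_num) (by norm_num) (by norm_num) (fun y hy => by simpa using b1 y hy) (by norm_num)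
  rw [sub_self, map_zero, inner_zero_right] at k
  rw [← le_inv_mul_iff₀ (by positivity)] at k1 k2
  linarith

/-- in the cylinder of size `η` about `x₁` the surface `√(-t) V` is the graph of `U` -/
structure NC (V : Set E3) (f : Frame 2 E3) (x₁ : E3) (t η : ℝ) (B : ℕ → ℝ) (U : E2 → ℝ) : Prop where
  smooth : Sm U
  iff : ∀ x ∈ f.cyl x₁ η η, (lam t)⁻¹ • x ∈ V ↔ f.gw x₁ U x = 0
  bd : ∀ (k : ℕ) (y : E2), ‖y‖ < η → ‖iteratedFDeriv ℝ k U y‖ ≤ B k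

theorem NC.scale {η σ : ℝ} {B : ℕ → ℝ} {U : E2 → ℝ} (h : NC V f x₁ t η B U) (hσ : 0 < σ) :
    NC V f (σ • x₁) (σ ^ 2 * t) (σ * η) (fun k => σ * (B k * σ⁻¹ ^ k)) fun y => σ * U (σ⁻¹ • y) := by
  have h1 : ContDiff ℝ ∞ fun y => U (σ⁻¹ • y) := h.smooth.comp (contDiff_id.const_smul _)
  have hn : ∀ y : E2, ‖y‖ < σ * η → ‖σ⁻¹ • y‖ < η := fun y hy => by
    rwa [norm_smul, norm_of_nonneg (inv_pos.2 hσ).le, inv_mul_lt_iff₀ hσ]
  refine ⟨contDiff_const.mul h1, fun x hx => ?_, fun k y hy => ?_⟩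
  · have e : σ⁻¹ • x - x₁ = σ⁻¹ • (x - σ • x₁) := by rw [smul_sub, inv_smul_smul₀ hσ.ne']
    have h2 := h.iff (σ⁻¹ • x) ⟨by rw [e, map_smul]; exact hn _ hx.1, by
      rw [e, real_inner_smul_right, abs_mul, abs_of_pos (inv_pos.2 hσ), inv_mul_lt_iff₀ hσ]
      exact hx.2⟩
    rw [lam_mul hσ.le, mul_inv_rev, mul_smul, h2, Frame.gw, Frame.gw, e, map_smul,
      real_inner_smul_right, sub_eq_zero, sub_eq_zero, inv_mul_eq_iff_eq_mul₀ hσ.ne']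
  · have h2 := iteratedFDeriv_const_smul_apply' (a := σ) (i := k) (x := y)
      (h1.contDiffAt.of_le (by exact_mod_cast le_top))
    have h3 := (σ⁻¹ • ContinuousLinearMap.id ℝ E2).iteratedFDeriv_comp_right h.smooth y (i := k)
      (by exact_mod_cast le_top)
    have h4 : ‖iteratedFDeriv ℝ k (fun y => U (σ⁻¹ • y)) y‖ ≤ B k * σ⁻¹ ^ k := by
      refine (congrArg norm h3).trans_le ((ContinuousMultilinearMap.norm_compContinuousLinearMap_le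
        _ _).trans (mul_le_mul (h.bd k _ (hn y hy)) ?_ (by positivity)
          ((norm_nonneg _).trans (h.bd k _ (hn y hy)))))
      rw [Finset.prod_const, Finset.card_univ, Fintype.card_fin, norm_smul,
        ContinuousLinearMap.norm_id, mul_one, norm_of_nonneg (inv_pos.2 hσ).le]
    refine (congrArg norm h2).trans_le ?_
    rw [norm_smul, norm_of_nonneg hσ.le]
    exact mul_le_mul_of_nonneg_left h4 hσ.le

theorem chart₀ : ∃ (ε : ℝ) (B : ℕ → ℝ), 0 < ε ∧ ∀ (V : Set E3) (z₁ : E3) (b t₁ : ℝ), SV V →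
    z₁ ∈ V → b ≤ 0 → t₁ ∈ Ioo (b - 1 / 120000) b → RB V ε (lam t₁ • z₁) (b - 5) b 4 →
      ∃ (f : Frame 2 E3) (U : ℝ → E2 → ℝ),
        (∀ t ∈ Ioo (b - 1 / 120000) b, NC V f (lam t₁ • z₁) t (1 / 10000) B (U t)) ∧
        (∀ t ∈ Ioo (b - 1 / 120000) b, ∀ t' ∈ Ioo (b - 1 / 120000) b, ∀ y, ‖y‖ < 1 / 10000 →
          |U t y - U t' y| ≤ 6 * |t - t'|) ∧
        fderiv ℝ (U t₁) 0 = 0 ∧ ∀ y, ‖y‖ < 1 / 10000 → |U t₁ y| ≤ ‖y‖ / 2 := by
  obtain ⟨ε, hε, hε1, hW⟩ := white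
  choose B _ hB using fun k => fg_est k (θ := 1 / 600) (by norm_num) (by norm_num)
  refine ⟨ε, B, hε, fun V z₁ b t₁ hV hz hb ht₁ hR => ?_⟩
  have sub : ∀ t ∈ Ioo (b - 1 / 120000) b, t ∈ Ioo (b - 1 / 90000) b := fun t ht =>
    ⟨by linarith [ht.1], ht.2⟩
  have hc : ∀ t ∈ Ioo (b - 1 / 90000) b, ∀ z ∈ V, ‖lam t • z - lam t₁ • z₁‖ ≤ 2 →
      ‖sff V z‖ ≤ lam t := fun t ht z hz hd => by
    linarith [hW V z t 2 hV hz (ht.2.trans_le hb) two_pos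
      (hR.mono (by linarith [ht.1]) ht.2.le zero_le_two (by linarith))]
  obtain ⟨f, hf⟩ := exists_frame (m := 2) (E := E3) (by simp) (hV.shr.surf.norm_nu hz)
  obtain ⟨u, hu, u0, u1⟩ := Su.exists_fg (V := V) ⟨hV.shr, hV.closed, hz, hf, sub _ ht₁, hb,
    by linarith, fun t ht z hz hd => hc t ht z hz (by linarith)⟩
  choose! U hU he using fun t (ht : t ∈ Ioo (b - 1 / 90000) b) =>
    hu.exists_ext ht (r := 1 / 64) (by norm_num)
  have e : ∀ t ∈ Ioo (b - 1 / 120000) b, ∀ y : E2, ‖y‖ < 1 / 10000 → U t y = u (y, t) :=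
    fun t ht y hy => (he t (sub t ht) y (by linarith)).self_of_nhds
  refine ⟨f, U, fun t ht => ⟨hU t (sub t ht), fun x hx => ⟨fun h => ?_, fun h => ?_⟩,
    fun k y hy => ?_⟩, fun t ht t' ht' y hy => ?_, ?_, fun y hy => ?_⟩
  · rw [Frame.gw, e t ht _ hx.1]
    exact one_sheet hV hb (by linarith) hc hu (sub t ht) hx h ((hR t x _ (by linarith [ht.1]) ht.2
      (by linarith [mem_ball_iff_norm.1 (f.cyl_subset_ball _ _ _ hx)]) (by norm_num)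
      (by norm_num)).trans_lt (by linarith))
  · rw [← f.gr_π h]
    exact hu.sh_subset (sub t ht) (by norm_num) (he t (sub t ht)) (A := closedBall 0 (1 / 64))
      (fun y hy => mem_closedBall_zero_iff.1 hy)
      ⟨_, mem_closedBall_zero_iff.2 (by linarith [hx.1]), rfl⟩
  · rw [((he t (sub t ht) y (by linarith)).iteratedFDeriv ℝ k).self_of_nhds]
    exact (hB k V f _ _ b u hu y t (by linarith) (by linarith [ht.1]) ht.2).1
  · rw [e t ht y hy, e t' ht' y hy]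
    exact hu.lipt (by linarith) (sub t ht) (sub t' ht')
  · rw [← norm_eq_zero, (he t₁ (sub _ ht₁) 0 (by simp)).fderiv_eq, ← norm_grad,
      hu.grad_slice ⟨mem_ball_self (by norm_num), sub _ ht₁⟩, u1,
      (sl_of_eq hV.shr.surf hz hf).2, norm_zero]
  · simpa [e t₁ ht₁ y hy, u0] using hu.lip (sub _ ht₁) (y := y) (y' := 0) (by linarith) (by simp)

theorem chart₁ : ∃ (ε : ℝ) (B : ℝ → ℕ → ℝ), 0 < ε ∧ ∀ (V : Set E3) (z₁ : E3) (σ b t₁ : ℝ), SV V →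
    z₁ ∈ V → 0 < σ → b ≤ 0 → t₁ ∈ Ioo (b - σ ^ 2 / 120000) b →
    RB V ε (lam t₁ • z₁) (b - 5 * σ ^ 2) b (4 * σ) → ∃ (f : Frame 2 E3) (U : ℝ → E2 → ℝ),
      (∀ t ∈ Ioo (b - σ ^ 2 / 120000) b, NC V f (lam t₁ • z₁) t (σ / 10000) (B σ) (U t)) ∧
      (∀ t ∈ Ioo (b - σ ^ 2 / 120000) b, ∀ t' ∈ Ioo (b - σ ^ 2 / 120000) b, ∀ y, ‖y‖ < σ / 10000 →
        |U t y - U t' y| ≤ 6 / σ * |t - t'|) ∧
      fderiv ℝ (U t₁) 0 = 0 ∧ ∀ y, ‖y‖ < σ / 10000 → |U t₁ y| ≤ ‖y‖ / 2 := by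
  obtain ⟨ε, B, hε, h⟩ := chart₀
  refine ⟨ε, fun σ k => σ * (B k * σ⁻¹ ^ k), hε, fun V z₁ σ b t₁ hV hz hσ hb ht₁ hR => ?_⟩
  have hτ : 0 < σ ^ 2 := by positivity
  have e0 : ∀ t, σ ^ 2 * (t / σ ^ 2) = t := fun t => by field_simp
  have e1 : σ • lam (t₁ / σ ^ 2) • z₁ = lam t₁ • z₁ := by rw [smul_smul, ← lam_mul hσ.le, e0]
  have sub : ∀ t ∈ Ioo (b - σ ^ 2 / 120000) b,
      t / σ ^ 2 ∈ Ioo (b / σ ^ 2 - 1 / 120000) (b / σ ^ 2) := fun t ht =>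
    ⟨by rw [lt_div_iff₀ hτ, sub_mul, div_mul_cancel₀ _ hτ.ne']; linarith [ht.1],
      div_lt_div_of_pos_right ht.2 hτ⟩
  have hn : ∀ y : E2, ‖y‖ < σ / 10000 → ‖σ⁻¹ • y‖ < 1 / 10000 := fun y hy => by
    rw [norm_smul, norm_of_nonneg (inv_pos.2 hσ).le, inv_mul_lt_iff₀ hσ]
    linarith
  obtain ⟨f, U, h1, h2, h3, h4⟩ := h V z₁ (b / σ ^ 2) (t₁ / σ ^ 2) hV hz
    (div_nonpos_of_nonpos_of_nonneg hb hτ.le) (sub _ ht₁) (RB.scale hσ (by
      rw [e1, mul_sub, e0, mul_comm _ (5 : ℝ), mul_comm _ (4 : ℝ)]; exact hR))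
  refine ⟨f, fun t y => σ * U (t / σ ^ 2) (σ⁻¹ • y), fun t ht => ?_, fun t ht t' ht' y hy => ?_, ?_,
    fun y hy => ?_⟩
  · have := (h1 _ (sub t ht)).scale hσ
    rwa [e1, e0, mul_one_div] at this
  · rw [← mul_sub, abs_mul, abs_of_pos hσ]
    refine (mul_le_mul_of_nonneg_left (h2 _ (sub t ht) _ (sub t' ht') _ (hn y hy)) hσ.le).trans_eq ?_
    rw [← sub_div, abs_div, abs_of_pos hτ]
    field_simp
  · have h5 : HasFDerivAt (U (t₁ / σ ^ 2)) (0 : E2 →L[ℝ] ℝ) (σ⁻¹ • (0 : E2)) := by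
      rw [smul_zero, ← h3]
      exact ((h1 _ (sub _ ht₁)).smooth.diff 0).hasFDerivAt
    simpa using ((h5.comp (0 : E2) ((hasFDerivAt_id (0 : E2)).const_smul σ⁻¹)).const_mul σ).fderiv
  · rw [abs_mul, abs_of_pos hσ]
    refine (mul_le_mul_of_nonneg_left (h4 _ (hn y hy)) hσ.le).trans_eq ?_
    rw [norm_smul, norm_of_nonneg (inv_pos.2 hσ).le]
    field_simp

theorem norm_dir_sub_le {c y : E3} (hy : ‖y‖ = 1) (hc : c ≠ 0) : ‖dir c - y‖ ≤ 2 * ‖c - y‖ := by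
  have h0 := norm_pos_iff.2 hc
  have h1 : ‖dir c - c‖ = |‖y‖ - ‖c‖| := by
    rw [dir, show ‖c‖⁻¹ • c - c = (‖c‖⁻¹ - 1) • c by rw [sub_smul, one_smul], norm_smul,
      norm_eq_abs, hy, ← abs_of_pos h0, ← abs_mul, abs_of_pos h0, sub_mul, inv_mul_cancel₀ h0.ne',
      one_mul]
  linarith [norm_sub_le_norm_sub_add_norm_sub (dir c) c y, abs_norm_sub_norm_le y c,
    norm_sub_rev y c]

theorem dir_smul {k : ℝ} (hk : 0 < k) (c : E3) : dir (k • c) = dir c := by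
  rw [dir, dir, norm_smul, norm_of_nonneg hk.le, smul_smul, mul_inv, mul_right_comm,
    inv_mul_cancel₀ hk.ne', one_mul]

theorem lam_neg_sq {l : ℝ} (hl : 0 ≤ l) : lam (-l ^ 2) = l := by rw [lam, neg_neg, sqrt_sq hl]

theorem rb_cone {w : E3 → ℝ} {y : E3} {ε : ℝ} (hy : ‖y‖ = 1) (h : RatCone w y ε) :
    ∃ σ, 0 < σ ∧ RB (zs w) ε y (0 - 5 * σ ^ 2) 0 (5 * σ) := by
  obtain ⟨δ, R, hδ, h⟩ := h
  obtain ⟨σ, hσ, h1, h2, h3⟩ : ∃ σ : ℝ, 0 < σ ∧ σ ≤ 1 / 10 ∧ σ ≤ δ / 10 ∧ σ * (|R| + 1) ≤ 1 / 6 :=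
    ⟨min (1 / 10) (min (δ / 10) (1 / 6 / (|R| + 1))), by positivity, min_le_left _ _,
      (min_le_right _ _).trans (min_le_left _ _), by
        rw [← le_div_iff₀ (by positivity)]; exact (min_le_right _ _).trans (min_le_right _ _)⟩
  refine ⟨σ, hσ, fun t c s t1 t2 hc s1 s2 => ?_⟩
  have h0 := lam_pos t2
  have c1 : 1 / 2 ≤ ‖c‖ := by linarith [norm_le_insert c y]
  have l1 : lam t ≤ 3 * σ := sqrt_le_iff.2 ⟨by positivity, by linarith [sq_nonneg σ]⟩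
  have n1 : ‖(lam t)⁻¹ • c‖ = ‖c‖ / lam t := by
    rw [norm_smul, norm_of_nonneg (inv_pos.2 h0).le, div_eq_inv_mul]
  refine h _ _ ?_ ?_ (by positivity) ?_
  · rw [n1, le_div_iff₀ h0]
    nlinarith [mul_le_mul (le_abs_self R) l1 h0.le (abs_nonneg R)]
  · rw [dir_smul (inv_pos.2 h0)]
    linarith [norm_dir_sub_le hy (norm_pos_iff.1 (show 0 < ‖c‖ by linarith))]
  · rw [n1, div_pow, ← mul_div_assoc]
    gcongr
    nlinarith [mul_le_mul h1 h2 hσ.le (by norm_num), pow_le_pow_left₀ (by norm_num) c1 2]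

theorem rb_tube {w : E3 → ℝ} {y : E3} {ε : ℝ} (hy : ‖y‖ = 1) (h : RatTube w y ε) :
    ∃ σ z₀, 0 < σ ∧ σ ≤ 1 / 20 ∧ ∀ x₁, z₀ ≤ ⟪y, x₁⟫ → ‖perp y x₁‖ ≤ 3 →
      RB (zs w) ε x₁ (-1 + σ ^ 2 / 240000 - 5 * σ ^ 2) (-1 + σ ^ 2 / 240000) (4 * σ) := by
  obtain ⟨s₀, z₀, hs, h⟩ := h
  obtain ⟨σ, hσ, h1, h2⟩ : ∃ σ : ℝ, 0 < σ ∧ σ ≤ 1 / 20 ∧ σ ≤ s₀ :=
    ⟨min (1 / 20) s₀, by positivity, min_le_left _ _, min_le_right _ _⟩
  refine ⟨σ, 2 * |z₀| + 1, hσ, h1, fun x₁ x1 x2 t c s t1 t2 hc s1 s2 => ?_⟩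
  have h3 : σ ^ 2 ≤ 1 / 400 := by nlinarith
  have l1 : 9 / 10 ≤ lam t := le_sqrt_of_sq_le (by linarith)
  have l2 : lam t ≤ 2 := sqrt_le_iff.2 ⟨by norm_num, by linarith [sq_nonneg σ]⟩
  have h0 : 0 < lam t := by linarith
  refine h _ _ ?_ ?_ (by positivity) ?_
  · have h4 := abs_real_inner_le_norm y (c - x₁)
    rw [hy, inner_sub_right] at h4
    rw [real_inner_smul_right, le_inv_mul_iff₀ h0]
    linarith [neg_abs_le (⟪y, c⟫ - ⟪y, x₁⟫),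
      mul_le_mul_of_nonneg_left (le_abs_self z₀) h0.le,
      mul_le_mul_of_nonneg_right l2 (abs_nonneg z₀)]
  · have h4 := norm_perp_apply_le hy (c - x₁)
    rw [map_sub] at h4
    rw [map_smul, norm_smul, norm_of_nonneg (inv_pos.2 h0).le, inv_mul_le_iff₀ h0]
    linarith [norm_le_insert' (perp y c) (perp y x₁)]
  · rw [div_le_iff₀ (by positivity)]
    nlinarith [mul_le_mul h1 h2 hσ.le (by norm_num), pow_le_pow_left₀ (by norm_num) l1 2]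

/-- **C5: the charts.** -/
theorem chartStmt (hG : GBdStmt) : ChartStmt := by
  obtain ⟨ε, B, hε, h⟩ := chart₁
  obtain ⟨C, -, hG⟩ := hG
  refine ⟨ε, hε, fun Λ w hw y hy => ?_⟩
  have hV : SV (zs w) := ⟨hw.shr.isShr, hw.shr.isClosed, fun c s hs => by
    simpa using (hG Λ _ c s hw.pos hw.ratio hs).1 0⟩
  refine ⟨fun hR => ?_, fun hR => ?_⟩
  · obtain ⟨σ, hσ, hR⟩ := rb_cone hy hR
    refine or_iff_not_imp_left.2 fun hE => ?_
    obtain ⟨x, x1, x2, x3⟩ : ∃ x, w x = 0 ∧ 400 / σ ≤ ‖x‖ ∧ ‖dir x - y‖ ≤ σ / 20000 := by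
      by_contra hn
      exact hE ⟨σ / 20000, 400 / σ, by positivity, fun x x1 x2 =>
        lt_of_not_ge fun x3 => hn ⟨x, x1, x2, x3⟩⟩
    have x0 : 0 < ‖x‖ := lt_of_lt_of_le (by positivity) x2
    have sub : ∀ l : ℝ, 0 < l → l ≤ σ / 400 → -l ^ 2 ∈ Ioo (0 - σ ^ 2 / 120000) 0 := fun l l1 l2 =>
      ⟨by nlinarith [pow_le_pow_left₀ l1.le l2 2], neg_lt_zero.2 (by positivity)⟩
    have e : lam (-‖x‖⁻¹ ^ 2) • x = dir x := by rw [lam_neg_sq (by positivity), dir]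
    obtain ⟨f, U, h1, h2, -⟩ := h (zs w) x σ 0 (-‖x‖⁻¹ ^ 2) hV x1 hσ le_rfl
      (sub _ (by positivity) (by rw [← inv_div]; exact inv_anti₀ (by positivity) x2))
      (hR.mono le_rfl le_rfl (by positivity) (by rw [e]; linarith))
    rw [e] at h1
    refine ⟨f, dir x, σ / 10000, σ / 10000, σ / 400, fun l => U (-l ^ 2), by positivity,
      f.ball_subset_cyl _ le_rfl le_rfl (mem_ball_iff_norm'.2 (by linarith)), fun l hl =>
        ⟨(h1 _ (sub l hl.1 hl.2.le)).smooth.contDiffOn, fun z hz => ?_⟩,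
      fun k => ⟨B σ k, fun l hl z hz => (h1 _ (sub l hl.1 hl.2.le)).bd k z (mem_ball_zero_iff.1 hz)⟩,
      1, fun l hl l' hl' z hz => (h2 _ (sub l hl.1 hl.2.le) _ (sub l' hl'.1 hl'.2.le) z
        (mem_ball_zero_iff.1 hz)).trans ?_⟩
    · have := (h1 _ (sub l hl.1 hl.2.le)).iff z hz
      rwa [lam_neg_sq hl.1.le] at this
    · have h3 : |l' - l| ≤ σ / 6 := abs_le.2 ⟨by linarith [hl.2, hl'.1], by linarith [hl.1, hl'.2]⟩
      have h4 : 0 < l + l' := add_pos hl.1 hl'.1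
      rw [show -l ^ 2 - -l' ^ 2 = (l' - l) * (l + l') by ring, abs_mul, abs_of_pos h4, ← mul_assoc]
      gcongr
      rw [div_mul_eq_mul_div, div_le_one hσ]
      linarith
  · obtain ⟨σ, z₀, hσ, hσ1, hR⟩ := rb_tube hy hR
    have e : lam (-1) = 1 := by simp [lam]
    have hτ : 0 < σ ^ 2 := by positivity
    have ht : (-1 : ℝ) ∈ Ioo (-1 + σ ^ 2 / 240000 - σ ^ 2 / 120000) (-1 + σ ^ 2 / 240000) :=
      ⟨by linarith, by linarith⟩
    refine ⟨σ / 10000, σ / 10000, z₀, B σ, by positivity, by positivity, fun x₁ x1 x2 x3 => ?_⟩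
    obtain ⟨f, U, h1, -, h3, h4⟩ := h (zs w) x₁ σ _ (-1) hV x1 hσ (by nlinarith) ht
      (by rw [e, one_smul]; exact hR x₁ x2 x3)
    have h5 := h1 _ ht
    rw [e, one_smul] at h5
    refine ⟨f, U (-1), h5.smooth.contDiffOn, by simpa using h4 0 (by simpa using hσ), h3,
      fun z hz => ?_, fun x hx => ?_, fun k z hz => h5.bd k z (mem_ball_zero_iff.1 hz)⟩
    · have := mem_ball_zero_iff.1 hz
      linarith [h4 z this, norm_nonneg z]
    · have := h5.iff x hx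
      rwa [e, inv_one, one_smul] at this

end Vale.Agent.P218N.C5
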