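import Vale.Agent.P218N.C5.Calc

/-! Bernstein's method: the abstract estimate, and differential polynomials. -/

open Set Filter Topology Metric
open scoped RealInnerProductSpace ContDiff

noncomputable section

namespace Vale.Agent.P218N.C5

variable {m : ℕ}

theorem abs_le_sqrt_sum {ι : Type*} [Fintype ι] (q : ι → ℝ) (n : ι) : |q n| ≤ √(∑ n, q n ^ 2) :=
  Real.abs_le_sqrt (Finset.single_le_sum (f := fun n => q n ^ 2) (fun _ _ => sq_nonneg _)
    (Finset.mem_univ n))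

theorem bern_alg {θ c₁ c₂ R R₀ s y G Gp LS LR Γ : ℝ} (hθ : 0 < θ) (hc₁ : 0 ≤ c₁) (hc₂ : 0 ≤ c₂)
    (hR : 0 ≤ R) (hR₀ : R ≤ R₀) (hs : 0 ≤ s) (hG : θ * y ^ 2 ≤ G) (hGp : θ * s ^ 2 ≤ Gp)
    (hLS : LS ≤ 2 * (c₂ * s * (1 + s ^ 2 + y)) - 2 * G) (hLR : LR ≤ 2 * (c₁ * (1 + s)) - 2 * Gp)
    (hΓ : Γ ^ 2 ≤ 4 * R * Gp * (4 * s ^ 2 * G)) :
    (16 * R₀ + 1 + R) * LS + s ^ 2 * LR - 2 * Γ ≤
      ((17 * R₀ + 1) * (4 * c₂ + c₂ ^ 2 / θ) + 4 * c₁) * (1 + s ^ 3) - θ * s ^ 4 := by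
  have hG0 : 0 ≤ G := le_trans (by positivity) hG
  have hGp0 : 0 ≤ Gp := le_trans (by positivity) hGp
  obtain ⟨Λ, hΛ⟩ : ∃ Λ, Λ = 16 * R₀ + 1 + R := ⟨_, rfl⟩
  have hΛ0 : 0 ≤ Λ := by linarith
  have hΛ1 : Λ ≤ 17 * R₀ + 1 := by linarith
  have h1 : |2 * Γ| ≤ Λ * G + s ^ 2 * Gp := by
    refine abs_le_of_sq_le_sq' ?_ (by positivity) |> abs_le.2
    have h2 : 16 * R * (G * (s ^ 2 * Gp)) ≤ Λ * (G * (s ^ 2 * Gp)) :=
      mul_le_mul_of_nonneg_right (by linarith) (by positivity)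
    nlinarith [sq_nonneg (Λ * G - s ^ 2 * Gp)]
  have h2 : 2 * c₂ * s * y - G ≤ c₂ ^ 2 / θ * s ^ 2 := by
    have h3 : c₂ ^ 2 / θ * s ^ 2 + θ * y ^ 2 - 2 * c₂ * s * y = (c₂ * s - θ * y) ^ 2 / θ := by
      field_simp; ring
    have h4 : 0 ≤ (c₂ * s - θ * y) ^ 2 / θ := by positivity
    linarith
  have h3 : s ≤ 1 + s ^ 3 := by nlinarith [sq_nonneg (s - 1), mul_nonneg hs (sq_nonneg (s - 1))]
  have h4 : s ^ 2 ≤ 1 + s ^ 3 := by
    nlinarith [sq_nonneg (s - 1), mul_nonneg hs (sq_nonneg (s - 1))]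
  have h5 : LS + G ≤ (4 * c₂ + c₂ ^ 2 / θ) * (1 + s ^ 3) := by
    have h6 : c₂ ^ 2 / θ * s ^ 2 ≤ c₂ ^ 2 / θ * (1 + s ^ 3) := by gcongr
    have h7 : c₂ * s ≤ c₂ * (1 + s ^ 3) := by gcongr
    nlinarith
  have h6 : Λ * (LS + G) ≤ (17 * R₀ + 1) * ((4 * c₂ + c₂ ^ 2 / θ) * (1 + s ^ 3)) :=
    (mul_le_mul_of_nonneg_left h5 hΛ0).trans (mul_le_mul_of_nonneg_right hΛ1 (by positivity))
  have h7 : s ^ 2 * (LR + Gp) ≤ s ^ 2 * (2 * (c₁ * (1 + s)) - θ * s ^ 2) :=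
    mul_le_mul_of_nonneg_left (by linarith) (sq_nonneg s)
  have h8 : c₁ * s ^ 2 ≤ c₁ * (1 + s ^ 3) := by gcongr
  rw [← hΛ]
  nlinarith [(abs_le.1 h1).1]

theorem bern_alg2 {θ A Λ s f : ℝ} (hθ : 0 < θ) (hA : 0 ≤ A) (hΛ : 0 < Λ) (hs : 0 ≤ s) (hf0 : 0 ≤ f)
    (hf : f ≤ Λ * s ^ 2) :
    A * (1 + s ^ 3) - θ * s ^ 4 ≤ -(θ / 2 / Λ ^ 2) * f ^ 2 + (A + A * (2 * A / θ) ^ 3) := by
  have h1 : θ / 2 / Λ ^ 2 * f ^ 2 ≤ θ / 2 * s ^ 4 := by
    calc θ / 2 / Λ ^ 2 * f ^ 2 ≤ θ / 2 / Λ ^ 2 * (Λ * s ^ 2) ^ 2 := by gcongr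
      _ = θ / 2 * s ^ 4 := by field_simp
  have h2 : A * s ^ 3 ≤ θ / 2 * s ^ 4 + A * (2 * A / θ) ^ 3 := by
    rcases le_total s (2 * A / θ) with h | h
    · have : A * s ^ 3 ≤ A * (2 * A / θ) ^ 3 := by gcongr
      have : 0 ≤ θ / 2 * s ^ 4 := by positivity
      linarith
    · rw [div_le_iff₀ hθ] at h
      have : 0 ≤ A * (2 * A / θ) ^ 3 := by positivity
      nlinarith [mul_le_mul_of_nonneg_right h (pow_nonneg hs 3)]
  linarith

theorem Lop_sq_sum {ι : Type*} [Fintype ι] {θ : ℝ} {a : Fin m → Fin m → ℝ} (h : Ell θ a)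
    {P : ι → Sp m → ℝ} (hP : ∀ n, Sm (P n)) (z : Sp m) :
    Lop a (fun x => ∑ n, P n x * P n x) z =
      2 * ∑ n, P n z * Lop a (P n) z - 2 * ∑ n, qf a (gd (P n) z) (gd (P n) z) := by
  rw [Lop_sum _ fun n => (hP n).mul (hP n)]
  simp only [Lop_mul h (hP _) (hP _), Finset.sum_sub_distrib, Finset.sum_add_distrib,
    Finset.mul_sum, two_mul]

theorem qf_sq_sum {ι : Type*} [Fintype ι] {θ : ℝ} {a : Fin m → Fin m → ℝ} (h : Ell θ a)
    {P : ι → Sp m → ℝ} (hP : ∀ n, Sm (P n)) (z : Sp m) :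
    qf a (gd (fun x => ∑ n, P n x * P n x) z) (gd (fun x => ∑ n, P n x * P n x) z) ≤
      4 * (∑ n, P n z ^ 2) * ∑ n, qf a (gd (P n) z) (gd (P n) z) := by
  have h1 : gd (fun x => ∑ n, P n x * P n x) z = fun i => ∑ n, 2 * P n z * gd (P n) z i := by
    ext i
    simp only [gd, D_sum _ fun n => (hP n).mul (hP n), D_mul (hP _) (hP _)]
    exact Finset.sum_congr rfl fun n _ => by ring
  rw [h1]
  refine (h.sum_le _ _).trans_eq ?_
  simp only [mul_pow, ← Finset.mul_sum]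
  norm_num

theorem sum_mul_le {ι : Type*} [Fintype ι] {p q : ι → ℝ} {a b : ℝ} (hp : ∀ n, |p n| ≤ a)
    (hq : ∀ n, |q n| ≤ b) : ∑ n, p n * q n ≤ Fintype.card ι * (a * b) := by
  rw [← Finset.card_univ, ← nsmul_eq_mul]
  refine Finset.sum_le_card_nsmul _ _ _ fun n _ => (le_abs_self _).trans ?_
  rw [abs_mul]
  exact mul_le_mul (hp n) (hq n) (abs_nonneg _) ((abs_nonneg _).trans (hp n))

/-- **The Bernstein estimate.** -/
theorem bern (m : ℕ) (ι : Type*) [Fintype ι] {θ K C r : ℝ} (hθ : 0 < θ) (hK : 0 ≤ K) (hC : 0 ≤ C)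
    (hr : 0 < r) : ∃ B : ℝ, ∀ (a : Sp m → Fin m → Fin m → ℝ) (P : ι → Sp m → ℝ) (z₀ : Sp m),
      (∀ n, Sm (P n)) → (∀ z ∈ Cyl z₀ r, Ell θ (a z)) → (∀ z ∈ Cyl z₀ r, ∀ n, |P n z| ≤ K) →
      (∀ z ∈ Cyl z₀ r, ∀ s y : ℝ, 0 ≤ s → 0 ≤ y → (∀ n i, |D (ee i) (P n) z| ≤ s) →
        (∀ n i j, |D (ee j) (D (ee i) (P n)) z| ≤ y) →
        (∀ n, |Lop (a z) (P n) z| ≤ C * (1 + s)) ∧
          ∀ n i, |Lop (a z) (D (ee i) (P n)) z| ≤ C * (1 + s ^ 2 + y)) →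
      ∀ n i, |D (ee i) (P n) z₀| ≤ B := by
  obtain ⟨R₀, hR₀⟩ : ∃ R₀ : ℝ, R₀ = Fintype.card ι * (K * K) := ⟨_, rfl⟩
  obtain ⟨c₁, hc₁⟩ : ∃ c : ℝ, c = Fintype.card ι * K * C := ⟨_, rfl⟩
  obtain ⟨c₂, hc₂⟩ : ∃ c : ℝ, c = Fintype.card (ι × Fin m) * C := ⟨_, rfl⟩
  obtain ⟨A, hA⟩ : ∃ A, A = (17 * R₀ + 1) * (4 * c₂ + c₂ ^ 2 / θ) + 4 * c₁ := ⟨_, rfl⟩
  have p0 : 0 ≤ R₀ := by rw [hR₀]; positivity
  have p1 : 0 ≤ c₁ := by rw [hc₁]; positivity
  have p2 : 0 ≤ c₂ := by rw [hc₂]; positivity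
  have p3 : 0 ≤ A := by rw [hA]; positivity
  refine ⟨√((1 + ((A + A * (2 * A / θ) ^ 3) * r ^ 12 + r ^ 4 * (4 * m + 33)) /
    (θ / 2 / (17 * R₀ + 1) ^ 2)) / r ^ 6), fun a P z₀ hP hE hK' hL n i => ?_⟩
  set q : ι × Fin m → Sp m → ℝ := fun n => D (ee n.2) (P n.1) with hq
  have sq : ∀ n, Sm (q n) := fun n => (hP n.1).D _
  set R : Sp m → ℝ := fun x => ∑ n, P n x * P n x with hR
  set S : Sp m → ℝ := fun x => ∑ n, q n x * q n x with hS
  have sR : Sm R := ContDiff.sum fun n _ => (hP n).mul (hP n)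
  have sS : Sm S := ContDiff.sum fun n _ => (sq n).mul (sq n)
  have sΛ : Sm fun x => 16 * R₀ + 1 + R x := contDiff_const.add sR
  have R0 : ∀ z, 0 ≤ R z := fun z => Finset.sum_nonneg fun _ _ => mul_self_nonneg _
  have S0 : ∀ z, 0 ≤ S z := fun z => Finset.sum_nonneg fun _ _ => mul_self_nonneg _
  have R1 : ∀ z ∈ Cyl z₀ r, R z ≤ R₀ := fun z hz => hR₀ ▸ sum_mul_le (hK' z hz) (hK' z hz)
  have eS : ∀ z, S z = ∑ n, q n z ^ 2 := fun z => by simp only [hS, pow_two]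
  have key := maxp (f := fun x => (16 * R₀ + 1 + R x) * S x) (a := a) (z₀ := z₀)
    (c := θ / 2 / (17 * R₀ + 1) ^ 2) (A := A + A * (2 * A / θ) ^ 3) (by positivity) (by positivity)
    hr (sΛ.mul sS) hE (fun z _ => mul_nonneg (by linarith [R0 z]) (S0 z)) fun z hz => by
      have hEz := hE z hz
      set s := √(S z) with hs
      set y := √(∑ n : (ι × Fin m) × Fin m, D (ee n.2) (q n.1) z ^ 2) with hy
      have hs0 : 0 ≤ s := Real.sqrt_nonneg _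
      have hs2 : S z = s ^ 2 := (Real.sq_sqrt (S0 z)).symm
      have hqs : ∀ n, |q n z| ≤ s := fun n => by
        rw [hs, eS]; exact abs_le_sqrt_sum (fun n => q n z) n
      obtain ⟨l1, l2⟩ := hL z hz s y hs0 (Real.sqrt_nonneg _) (fun n i => hqs (n, i))
        fun n i j => abs_le_sqrt_sum
          (fun n : (ι × Fin m) × Fin m => D (ee n.2) (q n.1) z) ((n, i), j)
      have g1 : θ * y ^ 2 ≤ ∑ n, qf (a z) (gd (q n) z) (gd (q n) z) := by
        rw [hy, Real.sq_sqrt (Finset.sum_nonneg fun _ _ => sq_nonneg _), Fintype.sum_prod_type,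
          Finset.mul_sum]
        exact Finset.sum_le_sum fun n _ => hEz.lo _
      have g2 : θ * s ^ 2 ≤ ∑ n, qf (a z) (gd (P n) z) (gd (P n) z) := by
        rw [← hs2, eS, Fintype.sum_prod_type, Finset.mul_sum]
        exact Finset.sum_le_sum fun n _ => hEz.lo _
      have g3 := sum_mul_le hqs fun n : ι × Fin m => l2 n.1 n.2
      have g4 := sum_mul_le (hK' z hz) l1
      have g5 := hEz.cs (gd R z) (gd S z)
      have g6 := qf_sq_sum hEz hP z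
      have g7 := qf_sq_sum hEz sq z
      rw [← eS, hs2] at g7
      have g8 : ∑ n, P n z ^ 2 = R z := by simp only [hR, pow_two]
      rw [g8] at g6
      have g9 : gd (fun x => 16 * R₀ + 1 + R x) z = gd R z := by
        ext i
        simp only [gd, D_add contDiff_const sR, D_const, zero_add]
      rw [Lop_mul hEz sΛ sS, Lop_add contDiff_const sR, Lop_const, zero_add, g9, hs2]
      refine le_trans ?_ (bern_alg2 hθ p3 (by positivity : 0 < 17 * R₀ + 1) hs0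
        (mul_nonneg (by linarith [R0 z]) (sq_nonneg s))
        (mul_le_mul_of_nonneg_right (by linarith [R1 z hz]) (sq_nonneg s)))
      rw [hA]
      refine bern_alg hθ p1 p2 (R0 z) (R1 z hz) hs0 g1 g2 ?_ ?_
        (g5.trans (mul_le_mul g6 g7 (hEz.nonneg _) ((hEz.nonneg _).trans g6)))
      · rw [hS, Lop_sq_sum hEz sq, hc₂]; linarith
      · rw [hR, Lop_sq_sum hEz hP, hc₁]; linarith
  refine (abs_le_sqrt_sum (fun n => q n z₀) (n, i)).trans (Real.sqrt_le_sqrt ?_)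
  rw [← eS]
  refine le_trans ?_ key
  exact le_mul_of_one_le_left (S0 z₀) (by linarith [R0 z₀])

/-! ### differential polynomials -/

/-- iterated spatial derivatives -/
def pd : List (Fin m) → (Sp m → ℝ) → Sp m → ℝ
  | [], u => u
  | i :: α, u => D (ee i) (pd α u)

theorem Sm.pd {u : Sp m → ℝ} (hu : Sm u) : ∀ α, Sm (pd α u)
  | [] => hu
  | _ :: α => (hu.pd α).D _

/-- the spatial jet -/
def jet (u : Sp m → ℝ) (z : Sp m) (α : List (Fin m)) : ℝ := pd α u z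

/-- sums of terms `G(Du) ∏ ∂^α u` with `∑ (|α| - 1) = n` and `2 ≤ |α| ≤ M` -/
inductive DP (M : ℕ) : ℕ → ((List (Fin m) → ℝ) → ℝ) → Prop
  | coef (G : (Fin m → ℝ) → ℝ) (hG : Sm G) : DP M 0 fun j => G fun i => j [i]
  | mul {n : ℕ} {F : (List (Fin m) → ℝ) → ℝ} (α : List (Fin m)) (h2 : 2 ≤ α.length)
      (hM : α.length ≤ M) (hF : DP M n F) (n' : ℕ) (hn : n' + 1 = n + α.length) :
      DP M n' fun j => F j * j α
  | zero (n : ℕ) : DP M n fun _ => 0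
  | add {n : ℕ} {F F' : (List (Fin m) → ℝ) → ℝ} (hF : DP M n F) (hF' : DP M n F') :
      DP M n fun j => F j + F' j

namespace DP
variable {n M M' : ℕ} {F : (List (Fin m) → ℝ) → ℝ}

theorem mono (h : DP M n F) (hM : M ≤ M') : DP M' n F := by
  induction h with
  | coef G hG => exact coef G hG
  | mul α h2 h3 _ n' hn ih => exact mul α h2 (h3.trans hM) ih n' hn
  | zero n => exact zero _
  | add _ _ ih ih' => exact add ih ih'

theorem sum {ι : Type*} (s : Finset ι) {F : ι → (List (Fin m) → ℝ) → ℝ}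
    (h : ∀ i, DP M n (F i)) : DP M n fun j => ∑ i ∈ s, F i j := by
  classical
  induction s using Finset.induction_on with
  | empty => simpa using zero n
  | insert a s ha ih => simpa [Finset.sum_insert ha] using add (h a) ih

theorem sm (h : DP M n F) {u : Sp m → ℝ} (hu : Sm u) : Sm fun z => F (jet u z) := by
  induction h with
  | coef G hG => exact hG.comp (contDiff_pi.2 fun i => hu.pd [i])
  | mul α _ _ _ _ _ ih => exact ih.mul (hu.pd α)
  | zero n => exact contDiff_const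
  | add _ _ ih ih' => exact ih.add ih'

theorem deriv (h : DP M n F) (hM : 1 ≤ M) (l : Fin m) : ∃ F', DP (M + 1) (n + 1) F' ∧
    ∀ u : Sp m → ℝ, Sm u → D (ee l) (fun z => F (jet u z)) = fun z => F' (jet u z) := by
  induction h with
  | coef G hG =>
    refine ⟨fun j => ∑ i, D (Pi.single i 1) G (fun i => j [i]) * j [l, i],
      sum _ fun i => mul [l, i] le_rfl (by simpa using hM) (coef _ (hG.D _)) _ rfl,
      fun u hu => ?_⟩
    ext z
    have h1 : HasFDerivAt (fun z i => jet u z [i])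
        (ContinuousLinearMap.pi fun i => fderiv ℝ (pd [i] u) z) z :=
      hasFDerivAt_pi.2 fun i => ((hu.pd [i]).diff z).hasFDerivAt
    have h2 : HasFDerivAt (fun z => G fun i => jet u z [i]) _ z :=
      (hG.diff _).hasFDerivAt.comp z h1
    rw [D, h2.fderiv, ContinuousLinearMap.comp_apply,
      pi_eq_sum_univ' ((ContinuousLinearMap.pi fun i => fderiv ℝ (pd [i] u) z) (ee l)), map_sum]
    refine Finset.sum_congr rfl fun i _ => ?_
    rw [map_smul, smul_eq_mul, mul_comm]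
    rfl
  | mul α h2 h3 hF n' hn ih =>
    obtain ⟨F', h4, h5⟩ := ih
    refine ⟨_, add (mul (l :: α) (by simp; omega) (by simpa using h3) (hF.mono (Nat.le_succ _))
      (n' + 1) (by simp; omega)) (mul α h2 (h3.trans (Nat.le_succ _)) h4 (n' + 1) (by omega)),
      fun u hu => ?_⟩
    have := D_mul (hF.sm hu) (hu.pd α) (ee l)
    rw [h5 u hu] at this
    refine this.trans ?_
    ext z
    rw [mul_comm (pd α u z)]
    rfl
  | zero n => exact ⟨_, zero _, fun u _ => D_const 0 _⟩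
  | add hF hF' ih ih' =>
    obtain ⟨G, h1, h2⟩ := ih
    obtain ⟨G', h1', h2'⟩ := ih'
    exact ⟨_, add h1 h1', fun u hu => by rw [D_add (hF.sm hu) (hF'.sm hu), h2 u hu, h2' u hu]⟩

/-- the size of a differential polynomial of weight `n` -/
def bb (k n : ℕ) (X Y : ℝ) : ℝ :=
  if n < k then 1 else if n = k then 1 + X else if n = k + 1 then 1 + X + Y else 1 + X ^ 2 + Y

theorem one_le_bb (k n : ℕ) {X Y : ℝ} (hX : 0 ≤ X) (hY : 0 ≤ Y) : 1 ≤ bb k n X Y := by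
  unfold bb; split_ifs <;> nlinarith

theorem bb_mono {k n n' : ℕ} (h : n ≤ n') {X Y : ℝ} (hX : 0 ≤ X) (hY : 0 ≤ Y) :
    bb k n X Y ≤ 2 * bb k n' X Y := by
  unfold bb
  split_ifs <;> first | omega | nlinarith [sq_nonneg (X - 1)]

theorem bb_mul_X {k n n' : ℕ} (hk : 2 ≤ k) (h : n' = n + k) (h' : n' ≤ k + 2) {X Y : ℝ}
    (hX : 0 ≤ X) (hY : 0 ≤ Y) : bb k n X Y * X ≤ 2 * bb k n' X Y := by
  unfold bb
  split_ifs <;> first | omega | nlinarith [sq_nonneg (X - 1)]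

theorem bb_mul_Y {k n n' : ℕ} (hk : 2 ≤ k) (h : n' = n + k + 1) (h' : n' ≤ k + 2) {X Y : ℝ}
    (hX : 0 ≤ X) (hY : 0 ≤ Y) : bb k n X Y * Y ≤ 2 * bb k n' X Y := by
  unfold bb
  split_ifs <;> first | omega | nlinarith [sq_nonneg (X - 1)]

theorem bound (h : DP M n F) {k : ℕ} (hk : 2 ≤ k) (hn : n ≤ k + 2) (hM : M ≤ k + 2) {K : ℝ}
    (hK : 0 ≤ K) : ∃ C, 0 ≤ C ∧ ∀ (j : List (Fin m) → ℝ) (X Y : ℝ), 0 ≤ X → 0 ≤ Y →
      (∀ α : List (Fin m), 1 ≤ α.length → α.length ≤ k → |j α| ≤ K) →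
      (∀ α : List (Fin m), α.length = k + 1 → α.length ≤ M → |j α| ≤ X) →
      (∀ α : List (Fin m), α.length = k + 2 → α.length ≤ M → |j α| ≤ Y) →
      |F j| ≤ C * bb k n X Y := by
  induction h with
  | coef G hG =>
    obtain ⟨C, hC⟩ := (isCompact_closedBall (0 : Fin m → ℝ) K).exists_bound_of_continuousOn
      hG.continuous.continuousOn
    refine ⟨C, (norm_nonneg _).trans (hC 0 (mem_closedBall_self hK)), fun j X Y _ _ h1 _ _ => ?_⟩
    rw [bb, if_pos (by omega), mul_one]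
    exact hC _ (mem_closedBall_zero_iff.2 ((pi_norm_le_iff_of_nonneg hK).2
      fun i => h1 [i] le_rfl (by simp; omega)))
  | @mul n F α h2 h3 hF n' hn' ih =>
    obtain ⟨C, hC0, hC⟩ := ih (by omega)
    refine ⟨C * (2 * (K + 1)), by positivity, fun j X Y hX hY h4 h5 h6 => ?_⟩
    have h7 := hC j X Y hX hY h4 h5 h6
    have h8 := one_le_bb k n hX hY
    have h9 := one_le_bb k n' hX hY
    have h10 : bb k n X Y * |j α| ≤ 2 * (K + 1) * bb k n' X Y := by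
      rcases Nat.lt_or_ge k α.length with h | h
      · rcases (by omega : α.length = k + 1 ∨ α.length = k + 2) with h | h
        · have := bb_mul_X (n := n) (n' := n') hk (by omega) hn hX hY
          nlinarith [mul_le_mul_of_nonneg_left (h5 α h h3) (zero_le_one.trans h8)]
        · have := bb_mul_Y (n := n) (n' := n') hk (by omega) hn hX hY
          nlinarith [mul_le_mul_of_nonneg_left (h6 α h h3) (zero_le_one.trans h8)]
      · have := bb_mono (k := k) (by omega : n ≤ n') hX hY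
        have h11 := h4 α (by omega) h
        nlinarith [mul_le_mul this h11 (abs_nonneg _) (by linarith)]
    rw [abs_mul]
    calc |F j| * |j α| ≤ C * bb k n X Y * |j α| := by gcongr
      _ = C * (bb k n X Y * |j α|) := mul_assoc _ _ _
      _ ≤ C * (2 * (K + 1) * bb k n' X Y) := by gcongr
      _ = _ := by ring
  | zero n => exact ⟨0, le_rfl, fun _ _ _ _ _ _ _ _ => by simp⟩
  | add _ _ ih ih' =>
    obtain ⟨C, hC0, hC⟩ := ih hn
    obtain ⟨C', hC0', hC'⟩ := ih' hn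
    refine ⟨C + C', by positivity, fun j X Y hX hY h4 h5 h6 => (abs_add_le _ _).trans ?_⟩
    rw [add_mul]
    exact add_le_add (hC j X Y hX hY h4 h5 h6) (hC' j X Y hX hY h4 h5 h6)

end DP

end Vale.Agent.P218N.C5
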