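import Mathlib

/-! Parabolic operators on space-time: product rules and a localised maximum principle. -/

open Set Filter Topology Metric
open scoped RealInnerProductSpace ContDiff

noncomputable section

namespace Vale.Agent.P218N.C5

/-! ### directional derivatives of smooth functions -/

section D
variable {X : Type*} [NormedAddCommGroup X] [NormedSpace ℝ X]

/-- smooth functions -/
abbrev Sm (f : X → ℝ) : Prop := ContDiff ℝ ∞ f

/-- the derivative in the direction `v` -/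
def D (v : X) (f : X → ℝ) (x : X) : ℝ := fderiv ℝ f x v

variable {f g : X → ℝ} {v w x : X}

theorem Sm.diff (hf : Sm f) (x : X) : DifferentiableAt ℝ f x := hf.differentiable (by simp) x

theorem Sm.fd (hf : Sm f) : ContDiff ℝ ∞ (fderiv ℝ f) := hf.fderiv_right (m := ∞) (by simp)

theorem Sm.D (hf : Sm f) (v : X) : Sm (D v f) := hf.fd.clm_apply contDiff_const

theorem D_const (c : ℝ) (v : X) : D v (fun _ => c) = fun _ => 0 := by
  ext x; simp [D]

theorem D_add (hf : Sm f) (hg : Sm g) (v : X) :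
    D v (fun x => f x + g x) = fun x => D v f x + D v g x := by
  ext x
  rw [D, ((hf.diff x).hasFDerivAt.fun_add (hg.diff x).hasFDerivAt).fderiv]
  rfl

theorem D_sub (hf : Sm f) (hg : Sm g) (v : X) :
    D v (fun x => f x - g x) = fun x => D v f x - D v g x := by
  ext x
  rw [D, ((hf.diff x).hasFDerivAt.fun_sub (hg.diff x).hasFDerivAt).fderiv]
  rfl

theorem D_mul (hf : Sm f) (hg : Sm g) (v : X) :
    D v (fun x => f x * g x) = fun x => f x * D v g x + g x * D v f x := by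
  ext x
  rw [D, ((hf.diff x).hasFDerivAt.fun_mul (hg.diff x).hasFDerivAt).fderiv]
  rfl

theorem D_sum {ι : Type*} (s : Finset ι) {F : ι → X → ℝ} (hF : ∀ i, Sm (F i)) (v : X) :
    D v (fun x => ∑ i ∈ s, F i x) = fun x => ∑ i ∈ s, D v (F i) x := by
  ext x
  rw [D, (HasFDerivAt.fun_sum fun i _ => ((hF i).diff x).hasFDerivAt).fderiv, _root_.sum_apply]
  rfl

theorem D_D (hf : Sm f) (v w x : X) : D v (D w f) x = fderiv ℝ (fderiv ℝ f) x v w := by
  have h := (hf.fd.differentiable (by simp) x).hasFDerivAt.clm_apply (hasFDerivAt_const w x)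
  unfold D
  rw [h.fderiv]
  simp

theorem D_comm (hf : Sm f) (v w : X) : D v (D w f) = D w (D v f) := by
  ext x
  rw [D_D hf, D_D hf]
  have h2 : ContDiff ℝ 2 f := hf.of_le (show ((2 : ℕ∞) : WithTop ℕ∞) ≤ ((⊤ : ℕ∞) : WithTop ℕ∞) from
    WithTop.coe_le_coe.2 le_top)
  exact (h2.contDiffAt.isSymmSndFDerivAt (by simp)).eq v w

theorem D_congr (h : f =ᶠ[𝓝 x] g) (v : X) : D v f =ᶠ[𝓝 x] D v g :=
  h.fderiv.mono fun y hy => by rw [D, D, hy]

theorem hasDerivAt_line (hf : Sm f) (x v : X) (s : ℝ) :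
    HasDerivAt (fun s : ℝ => f (x + s • v)) (D v f (x + s • v)) s := by
  have h : HasDerivAt (fun s : ℝ => x + s • v) v s := by
    simpa using ((hasDerivAt_id s).smul_const v).const_add x
  exact (hf.diff _).hasFDerivAt.comp_hasDerivAt s h

/-- first and second order conditions at a maximum along a line -/
theorem line_max (hf : Sm f) (h : ∀ᶠ s : ℝ in 𝓝 0, f (x + s • v) ≤ f x) :
    D v f x = 0 ∧ D v (D v f) x ≤ 0 := by
  set φ : ℝ → ℝ := fun s => f (x + s • v) with hφ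
  have h0 : IsLocalMax φ 0 := by simpa [IsLocalMax, IsMaxFilter, hφ] using h
  have h1 : deriv φ = fun s => D v f (x + s • v) := funext fun s => (hasDerivAt_line hf x v s).deriv
  have h2 : deriv (deriv φ) 0 = D v (D v f) x := by
    rw [h1, (hasDerivAt_line (hf.D v) x v 0).deriv]; simp
  have h3 := h0.deriv_eq_zero
  refine ⟨by simpa [h1] using h3, not_lt.1 fun h4 => ?_⟩
  have h5 := isLocalMin_of_deriv_deriv_pos (h2 ▸ h4) h3 (hasDerivAt_line hf x v 0).continuousAt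
  have h6 : φ =ᶠ[𝓝 0] fun _ => φ 0 := (h0.and h5).mono fun s hs => le_antisymm hs.1 hs.2
  have h7 := h6.deriv.deriv_eq
  rw [h2] at h7
  simp [h7] at h4

/-- the one-sided first order condition -/
theorem line_max_left (hf : Sm f) (h : ∀ᶠ s : ℝ in 𝓝[<] 0, f (x + s • v) ≤ f x) :
    0 ≤ D v f x := by
  have h1 := hasDerivAt_iff_tendsto_slope.1 (hasDerivAt_line hf x v 0)
  simp only [zero_smul, add_zero] at h1
  refine ge_of_tendsto (h1.mono_left (nhdsLT_le_nhdsNE 0)) ?_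
  filter_upwards [h, self_mem_nhdsWithin] with s hs hs0
  rw [slope_def_field, zero_smul, add_zero, sub_zero]
  exact div_nonneg_of_nonpos (sub_nonpos.2 hs) (le_of_lt hs0)

end D

/-! ### elliptic coefficients -/

section Ell
variable {κ : Type*} [Fintype κ]

/-- the bilinear form of a matrix -/
def qf (a : κ → κ → ℝ) (ξ ζ : κ → ℝ) : ℝ := ∑ i, ∑ j, a i j * (ξ i * ζ j)

/-- `a = bᵀ b` and `θ ≤ a ≤ 1` -/
structure Ell (θ : ℝ) (a : κ → κ → ℝ) : Prop where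
  sq : ∃ b : κ → κ → ℝ, ∀ i j, a i j = ∑ k, b k i * b k j
  lo : ∀ ξ : κ → ℝ, θ * ∑ i, ξ i ^ 2 ≤ qf a ξ ξ
  hi : ∀ ξ : κ → ℝ, qf a ξ ξ ≤ ∑ i, ξ i ^ 2

variable {θ : ℝ} {a b : κ → κ → ℝ}

theorem qf_eq (h : ∀ i j, a i j = ∑ k, b k i * b k j) (ξ ζ : κ → ℝ) :
    qf a ξ ζ = ∑ k, (∑ i, b k i * ξ i) * ∑ j, b k j * ζ j := by
  simp only [qf, h, Finset.sum_mul, Finset.mul_sum]
  rw [Finset.sum_comm]
  conv_rhs => rw [Finset.sum_comm]
  refine Finset.sum_congr rfl fun j _ => ?_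
  rw [Finset.sum_comm]
  exact Finset.sum_congr rfl fun k _ => Finset.sum_congr rfl fun i _ => by ring

theorem Ell.symm (h : Ell θ a) (ξ ζ : κ → ℝ) : qf a ξ ζ = qf a ζ ξ := by
  obtain ⟨b, hb⟩ := h.sq
  simp only [qf_eq hb, mul_comm]

theorem Ell.nonneg (h : Ell θ a) (ξ : κ → ℝ) : 0 ≤ qf a ξ ξ := by
  obtain ⟨b, hb⟩ := h.sq
  rw [qf_eq hb]
  exact Finset.sum_nonneg fun _ _ => mul_self_nonneg _

theorem Ell.cs (h : Ell θ a) (ξ ζ : κ → ℝ) : qf a ξ ζ ^ 2 ≤ qf a ξ ξ * qf a ζ ζ := by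
  obtain ⟨b, hb⟩ := h.sq
  simp only [qf_eq hb, ← pow_two]
  exact Finset.sum_mul_sq_le_sq_mul_sq _ _ _

theorem Ell.sum_le (h : Ell θ a) {ι : Type*} [Fintype ι] (c : ι → ℝ) (ξ : ι → κ → ℝ) :
    qf a (fun i => ∑ n, c n * ξ n i) (fun i => ∑ n, c n * ξ n i) ≤
      (∑ n, c n ^ 2) * ∑ n, qf a (ξ n) (ξ n) := by
  obtain ⟨b, hb⟩ := h.sq
  simp only [qf_eq hb, ← pow_two]
  rw [Finset.sum_comm (s := Finset.univ) (t := Finset.univ)
    (f := fun n k => (∑ i, b k i * ξ n i) ^ 2), Finset.mul_sum]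
  refine Finset.sum_le_sum fun k _ => ?_
  refine le_of_eq_of_le ?_ (Finset.sum_mul_sq_le_sq_mul_sq _ c fun n => ∑ i, b k i * ξ n i)
  congr 1
  simp only [Finset.mul_sum]
  rw [Finset.sum_comm]
  exact Finset.sum_congr rfl fun n _ => Finset.sum_congr rfl fun i _ => by ring

theorem Ell.diag_le [DecidableEq κ] (h : Ell θ a) (i : κ) : a i i ≤ 1 := by
  simpa [qf, Pi.single_apply] using h.hi (Pi.single i 1)

theorem qf_smul (a : κ → κ → ℝ) (s t : ℝ) (ξ ζ : κ → ℝ) :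
    qf a (fun i => s * ξ i) (fun i => t * ζ i) = s * t * qf a ξ ζ := by
  simp only [qf, Finset.mul_sum]
  exact Finset.sum_congr rfl fun i _ => Finset.sum_congr rfl fun j _ => by ring

end Ell

/-! ### the operator -/

/-- space-time -/
abbrev Sp (m : ℕ) : Type := EuclideanSpace ℝ (Fin m) × ℝ

variable {m : ℕ}

/-- the spatial coordinate directions -/
def ee (i : Fin m) : Sp m := (EuclideanSpace.single i 1, 0)

/-- the time direction -/
def TT : Sp m := (0, 1)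

/-- the spatial gradient -/
def gd (f : Sp m → ℝ) (z : Sp m) (i : Fin m) : ℝ := D (ee i) f z

/-- `∂_t - a^{ij} ∂_i ∂_j` -/
def Lop (a : Fin m → Fin m → ℝ) (f : Sp m → ℝ) (z : Sp m) : ℝ :=
  D TT f z - ∑ i, ∑ j, a i j * D (ee i) (D (ee j) f) z

variable {θ : ℝ} {a : Fin m → Fin m → ℝ} {f g : Sp m → ℝ} {z : Sp m}

theorem Lop_mul (h : Ell θ a) (hf : Sm f) (hg : Sm g) (z : Sp m) :
    Lop a (fun x => f x * g x) z =
      f z * Lop a g z + g z * Lop a f z - 2 * qf a (gd f z) (gd g z) := by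
  have h1 := h.symm (gd f z) (gd g z)
  rw [two_mul]
  nth_rw 2 [h1]
  simp only [Lop, D_mul hf hg, D_add (hf.mul (hg.D _)) (hg.mul (hf.D _)), D_mul hf (hg.D _),
    D_mul hg (hf.D _), qf, gd, mul_sub, Finset.mul_sum, mul_add, Finset.sum_add_distrib]
  simp only [mul_left_comm (f z), mul_left_comm (g z), mul_comm (D (ee _) g z) (D (ee _) f z)]
  ring

theorem Lop_add (hf : Sm f) (hg : Sm g) (z : Sp m) :
    Lop a (fun x => f x + g x) z = Lop a f z + Lop a g z := by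
  simp only [Lop, D_add hf hg, D_add (hf.D _) (hg.D _), mul_add, Finset.sum_add_distrib]
  ring

theorem Lop_const (c : ℝ) (z : Sp m) : Lop a (fun _ => c) z = 0 := by simp [Lop, D_const]

theorem Lop_sum {ι : Type*} (s : Finset ι) {F : ι → Sp m → ℝ} (hF : ∀ i, Sm (F i)) (z : Sp m) :
    Lop a (fun x => ∑ i ∈ s, F i x) z = ∑ i ∈ s, Lop a (F i) z := by
  simp only [Lop, D_sum s hF, D_sum s fun i => (hF i).D _, Finset.sum_sub_distrib, Finset.mul_sum]
  congr 1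
  rw [Finset.sum_comm (s := s)]
  exact Finset.sum_congr rfl fun i _ => Finset.sum_comm

theorem gd_mul (hf : Sm f) (hg : Sm g) (z : Sp m) :
    gd (fun x => f x * g x) z = fun i => f z * gd g z i + g z * gd f z i := by
  ext i; simp only [gd, D_mul hf hg]

/-- the parabolic cylinder -/
def Cyl (z : Sp m) (r : ℝ) : Set (Sp m) := closedBall z.1 r ×ˢ Icc (z.2 - r ^ 2) z.2

theorem isCompact_Cyl (z : Sp m) (r : ℝ) : IsCompact (Cyl z r) :=
  (isCompact_closedBall _ _).prod isCompact_Icc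

theorem self_mem_Cyl (z : Sp m) {r : ℝ} (hr : 0 ≤ r) : z ∈ Cyl z r :=
  ⟨mem_closedBall_self hr, sub_le_self _ (sq_nonneg r), le_rfl⟩

theorem Cyl_subset {z z' : Sp m} {r s : ℝ} (h : z' ∈ Cyl z r) (hr : 0 ≤ r) (hs : 0 ≤ s) :
    Cyl z' s ⊆ Cyl z (r + s) := by
  rintro x ⟨h1, h2, h3⟩
  refine ⟨?_, ?_, h3.trans h.2.2⟩
  · have := dist_triangle x.1 z'.1 z.1
    have h4 := h.1
    rw [mem_closedBall] at h1 h4 ⊢
    linarith
  · nlinarith [h.2.1, mul_nonneg hr hs]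

theorem Cyl_mono (z : Sp m) {r s : ℝ} (hr : 0 ≤ r) (h : r ≤ s) : Cyl z r ⊆ Cyl z s := by
  have := Cyl_subset (self_mem_Cyl z (sub_nonneg.2 h)) (sub_nonneg.2 h) hr
  rwa [sub_add_cancel] at this

/-- the conditions at a maximum in the parabolic interior -/
theorem max_cond (h : Ell θ a) (hg : Sm g) {z₀ : Sp m} {r : ℝ} (hz : z ∈ Cyl z₀ r)
    (hmax : ∀ x ∈ Cyl z₀ r, g x ≤ g z) (h1 : ‖z.1 - z₀.1‖ < r) (h2 : z₀.2 - r ^ 2 < z.2) :
    0 ≤ Lop a g z ∧ ∀ i, gd g z i = 0 := by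
  have hs : ∀ v : Sp m, v.2 = 0 → D v g z = 0 ∧ D v (D v g) z ≤ 0 := fun v hv => by
    refine line_max hg ?_
    have h3 : Continuous fun s : ℝ => ‖(z + s • v).1 - z₀.1‖ := by fun_prop
    filter_upwards [h3.continuousAt.eventually (gt_mem_nhds (by simpa using h1))] with s hs
    refine hmax _ ⟨mem_closedBall_iff_norm.2 hs.le, ?_⟩
    simpa [hv] using hz.2
  have ht : 0 ≤ D TT g z := by
    refine line_max_left hg ?_
    filter_upwards [Ioo_mem_nhdsLT (sub_neg.2 h2)] with s hs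
    refine hmax _ ⟨by simpa [TT] using hz.1, ?_⟩
    simp only [TT, Prod.snd_add, Prod.smul_snd, smul_eq_mul, mul_one]
    exact ⟨by linarith [hs.1], by linarith [hs.2, hz.2.2]⟩
  refine ⟨?_, fun i => (hs (ee i) rfl).1⟩
  obtain ⟨b, hb⟩ := h.sq
  have h4 : ∑ i, ∑ j, a i j * D (ee i) (D (ee j) g) z =
      ∑ k, D (∑ i, b k i • ee i) (D (∑ i, b k i • ee i) g) z := by
    simp only [hb, D_D hg, map_sum, map_smul, _root_.sum_apply, _root_.smul_apply, smul_eq_mul,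
      Finset.sum_mul, Finset.mul_sum]
    rw [Finset.sum_comm]
    conv_rhs => rw [Finset.sum_comm]
    refine Finset.sum_congr rfl fun j _ => ?_
    rw [Finset.sum_comm]
    exact Finset.sum_congr rfl fun k _ => Finset.sum_congr rfl fun i _ => by ring
  rw [Lop, h4]
  have h5 : ∑ k, D (∑ i, b k i • ee i) (D (∑ i, b k i • ee i) g) z ≤ 0 :=
    Finset.sum_nonpos fun k _ => (hs _ (by simp [Prod.snd_sum, ee])).2
  linarith

/-- the spatial cutoff -/
def ph (z₀ : Sp m) (r : ℝ) (z : Sp m) : ℝ := r ^ 2 - ‖z.1 - z₀.1‖ ^ 2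

theorem sm_ph (z₀ : Sp m) (r : ℝ) : Sm (ph z₀ r) :=
  contDiff_const.sub ((contDiff_fst.sub contDiff_const).norm_sq ℝ)

theorem D_ph (z₀ : Sp m) (r : ℝ) (v : Sp m) : D v (ph z₀ r) = fun z => -2 * ⟪z.1 - z₀.1, v.1⟫ := by
  ext z
  have h : HasFDerivAt (ph z₀ r) _ z :=
    ((hasFDerivAt_fst (p := z)).sub_const z₀.1).norm_sq.const_sub (r ^ 2)
  rw [D, h.fderiv]
  simp only [_root_.neg_apply, _root_.smul_apply, ContinuousLinearMap.comp_apply,
    innerSL_apply_apply, ContinuousLinearMap.coe_fst', nsmul_eq_mul, Nat.cast_ofNat]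
  ring

theorem D_D_ph (z₀ : Sp m) (r : ℝ) (v w z : Sp m) :
    D w (D v (ph z₀ r)) z = -2 * ⟪w.1, v.1⟫ := by
  have h : HasFDerivAt (fun z : Sp m => -2 * ⟪z.1 - z₀.1, v.1⟫) _ z :=
    (((hasFDerivAt_fst (p := z)).sub_const z₀.1).inner ℝ (hasFDerivAt_const v.1 z)).const_mul (-2)
  rw [D_ph, D, h.fderiv]
  simp

theorem Lop_ph_le (h : Ell θ a) (z₀ : Sp m) (r : ℝ) (z : Sp m) : Lop a (ph z₀ r) z ≤ 2 * m := by
  simp only [Lop, D_D_ph]
  simp only [D_ph, TT, ee, inner_zero_right, EuclideanSpace.inner_single_left, PiLp.single_apply,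
    map_one, mul_ite, mul_one, mul_zero, Finset.sum_ite_eq, Finset.mem_univ, if_true]
  have : ∑ i : Fin m, -(2 : ℝ) ≤ ∑ i, a i i * -2 :=
    Finset.sum_le_sum fun i _ => by linarith [h.diag_le i]
  simp only [Finset.sum_const, Finset.card_univ, Fintype.card_fin, nsmul_eq_mul] at this
  linarith

theorem qf_ph_le (h : Ell θ a) (z₀ : Sp m) (r : ℝ) (z : Sp m) :
    qf a (gd (ph z₀ r) z) (gd (ph z₀ r) z) ≤ 4 * ‖z.1 - z₀.1‖ ^ 2 := by
  refine (h.hi _).trans_eq ?_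
  simp only [gd, D_ph, ee, EuclideanSpace.inner_single_right, EuclideanSpace.real_norm_sq_eq,
    Finset.mul_sum]
  exact Finset.sum_congr rfl fun i _ => by simp; ring

/-- the time cutoff -/
def sg (z₀ : Sp m) (r : ℝ) (z : Sp m) : ℝ := z.2 - (z₀.2 - r ^ 2)

theorem sm_sg (z₀ : Sp m) (r : ℝ) : Sm (sg z₀ r) := contDiff_snd.sub contDiff_const

theorem D_sg (z₀ : Sp m) (r : ℝ) (v : Sp m) : D v (sg z₀ r) = fun _ => v.2 := by
  ext z
  have h : HasFDerivAt (sg z₀ r) _ z := (hasFDerivAt_snd (𝕜 := ℝ) (p := z)).sub_const _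
  rw [D, h.fderiv]
  rfl

theorem Lop_sg (z₀ : Sp m) (r : ℝ) (z : Sp m) : Lop a (sg z₀ r) z = 1 := by
  simp [Lop, D_sg, D_const, TT]

theorem gd_sg (z₀ : Sp m) (r : ℝ) (z : Sp m) : gd (sg z₀ r) z = fun _ => 0 := by
  ext i; simp [gd, D_sg, ee]

theorem maxp_alg {c A r M σ φ f q Lφ Lf : ℝ} (hc : 0 < c) (hA : 0 ≤ A) (hr : 0 < r) (hM : 0 ≤ M)
    (hσ : 0 < σ) (hφ : 0 < φ) (hσ1 : σ ≤ r ^ 2) (hφ1 : φ ≤ r ^ 2) (hf : 0 ≤ f) (hq0 : 0 ≤ q)
    (hq : q ≤ 4 * r ^ 2) (hl : Lφ ≤ 2 * M) (hL : Lf ≤ -c * f ^ 2 + A)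
    (h1 : 0 ≤ σ * (φ * φ) * Lf + f * (σ * (φ * Lφ + φ * Lφ - 2 * q) + φ * φ * 1 - 2 * 0) -
      2 * (-4 * σ * f * q)) (hG : 1 < σ * (φ * φ) * f) :
    σ * (φ * φ) * f ≤ (A * r ^ 12 + r ^ 4 * (4 * M + 33)) / c := by
  obtain ⟨η, hη⟩ : ∃ η, η = σ * (φ * φ) := ⟨_, rfl⟩
  have hη0 : 0 < η := by rw [hη]; positivity
  have hη1 : η ≤ r ^ 6 := by
    calc η ≤ r ^ 2 * (r ^ 2 * r ^ 2) := by rw [hη]; gcongr
      _ = r ^ 6 := by ring
  have h7 : σ * (φ * Lφ) ≤ r ^ 2 * (r ^ 2 * (2 * M)) := by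
    calc σ * (φ * Lφ) ≤ σ * (φ * (2 * M)) := by gcongr
      _ ≤ _ := by gcongr
  have h8 : φ * φ ≤ r ^ 2 * r ^ 2 := by gcongr
  have h9 : σ * q ≤ r ^ 2 * (4 * r ^ 2) := by gcongr
  have h10 : 0 ≤ σ * q := by positivity
  have h11 : η * Lf ≤ η * (-c * f ^ 2 + A) := by gcongr
  have h12 : σ * (φ * Lφ + φ * Lφ - 2 * q) + φ * φ + 8 * (σ * q) ≤ r ^ 4 * (4 * M + 33) := by
    linarith
  have h13 := mul_le_mul_of_nonneg_left h12 hf
  rw [← hη] at h1 hG ⊢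
  have h14 : 0 ≤ η * (-c * f ^ 2 + A) + f * (r ^ 4 * (4 * M + 33)) := by linarith
  have h15 := mul_nonneg hη0.le h14
  have h16 : A * η ^ 2 ≤ A * (r ^ 6) ^ 2 := by gcongr
  have h17 : A * r ^ 12 ≤ η * f * (A * r ^ 12) := le_mul_of_one_le_left (by positivity) hG.le
  rw [le_div_iff₀ hc]
  refine le_of_mul_le_mul_left ?_ (zero_lt_one.trans hG)
  linarith

/-- **Localised maximum principle** for `L f ≤ - c f² + A`. -/
theorem maxp {a : Sp m → Fin m → Fin m → ℝ} {c A r : ℝ} (hc : 0 < c) (hA : 0 ≤ A) (hr : 0 < r)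
    (hf : Sm f) {z₀ : Sp m} (ha : ∀ z ∈ Cyl z₀ r, Ell θ (a z)) (h0 : ∀ z ∈ Cyl z₀ r, 0 ≤ f z)
    (hL : ∀ z ∈ Cyl z₀ r, Lop (a z) f z ≤ -c * f z ^ 2 + A) :
    f z₀ ≤ (1 + (A * r ^ 12 + r ^ 4 * (4 * m + 33)) / c) / r ^ 6 := by
  set φ := ph z₀ r with hφ
  set σ := sg z₀ r with hσ
  have s1 : Sm φ := sm_ph z₀ r
  have s2 : Sm σ := sm_sg z₀ r
  have s3 : Sm fun x => φ x * φ x := s1.mul s1
  have s4 : Sm fun x => σ x * (φ x * φ x) := s2.mul s3
  have s5 : Sm fun x => σ x * (φ x * φ x) * f x := s4.mul hf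
  obtain ⟨z, hz, hmax⟩ := (isCompact_Cyl z₀ r).exists_isMaxOn ⟨z₀, self_mem_Cyl z₀ hr.le⟩
    s5.continuous.continuousOn
  have hB : 0 ≤ (A * r ^ 12 + r ^ 4 * (4 * m + 33)) / c := by positivity
  have key : σ z * (φ z * φ z) * f z ≤ 1 + (A * r ^ 12 + r ^ 4 * (4 * m + 33)) / c := by
    by_contra hcon
    push Not at hcon
    have hn : ‖z.1 - z₀.1‖ ≤ r := mem_closedBall_iff_norm.1 hz.1
    have hφ0 : 0 ≤ φ z := sub_nonneg.2 (by gcongr)
    have hσ0 : 0 ≤ σ z := sub_nonneg.2 hz.2.1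
    have hφ1 : φ z ≤ r ^ 2 := sub_le_self _ (sq_nonneg _)
    have hσ1 : σ z ≤ r ^ 2 := by
      have := hz.2.2
      simp only [hσ, sg]
      linarith
    have hG1 : 1 < σ z * (φ z * φ z) * f z := by linarith
    have hφp : 0 < φ z := hφ0.lt_of_ne fun h => by
      rw [← h] at hG1
      norm_num at hG1
    have hσp : 0 < σ z := hσ0.lt_of_ne fun h => by
      rw [← h] at hG1
      norm_num at hG1
    have hlt : ‖z.1 - z₀.1‖ < r := hn.lt_of_ne fun h => by simp [hφ, ph, h] at hφp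
    have hE := ha z hz
    obtain ⟨h1, h2⟩ := max_cond hE s5 hz hmax hlt (sub_pos.1 hσp)
    have h3 : gd (fun x => σ x * (φ x * φ x)) z = fun i => 2 * σ z * φ z * gd φ z i := by
      rw [gd_mul s2 s3, gd_mul s1 s1, hσ, gd_sg]
      ext i; ring
    have h4 : gd f z = fun i => -2 * f z / φ z * gd φ z i := by
      ext i
      have := h2 i
      rw [gd_mul s4 hf, h3] at this
      have h5 : σ z * φ z * (φ z * gd f z i + 2 * f z * gd φ z i) = 0 := by linarith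
      have h6 := (mul_eq_zero.1 h5).resolve_left (mul_pos hσp hφp).ne'
      field_simp
      linarith
    have hq := qf_ph_le hE z₀ r z
    have hq0 := hE.nonneg (gd φ z)
    have hq1 : qf (a z) (gd φ z) (gd φ z) ≤ 4 * r ^ 2 := hq.trans (by gcongr)
    have hl := Lop_ph_le hE z₀ r z
    have hz0 : qf (a z) (fun _ => 0) (gd (fun x => φ x * φ x) z) = 0 := by simp [qf]
    rw [Lop_mul hE s4 hf, Lop_mul hE s2 s3, Lop_mul hE s1 s1, h3, h4, qf_smul, hσ, Lop_sg, gd_sg,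
      ← hσ, hz0] at h1
    have e1 : 2 * σ z * φ z * (-2 * f z / φ z) = -4 * σ z * f z := by field_simp; ring
    rw [e1] at h1
    have := maxp_alg hc hA hr (Nat.cast_nonneg m) hσp hφp hσ1 hφ1 (h0 z hz) hq0 hq1 hl (hL z hz)
      h1 hG1
    linarith
  rw [le_div_iff₀ (by positivity)]
  have h := hmax (self_mem_Cyl z₀ hr.le)
  have e : σ z₀ * (φ z₀ * φ z₀) * f z₀ = f z₀ * r ^ 6 := by
    simp only [hσ, hφ, sg, ph, sub_self, norm_zero]
    ring
  exact e.symm.trans_le (le_trans h key)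

end Vale.Agent.P218N.C5
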