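import Vale.Agent.P218N.C5.Graph

/-! Gaussian integrals in the plane and the expansion of the Gaussian area of a graph. -/

open MeasureTheory Set Filter Topology Metric Real
open scoped RealInnerProductSpace ContDiff

noncomputable section

namespace Vale.Agent.P218N.C5

open Vale.Agent.P218.H313 Vale.Agent.P218N.H

/-! ### moments -/

/-- the moments of a Gaussian on the line -/
def mo (b : ℝ) (n : ℕ) : ℝ := ∫ x : ℝ, x ^ n * exp (-b * x ^ 2)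

variable {b : ℝ}

theorem int_mo (hb : 0 < b) (n : ℕ) : Integrable fun x : ℝ => x ^ n * exp (-b * x ^ 2) := by
  simpa only [rpow_natCast] using integrable_rpow_mul_exp_neg_mul_sq hb (s := n)
    (neg_one_lt_zero.trans_le (Nat.cast_nonneg n))

theorem hasDerivAt_gauss (b x : ℝ) :
    HasDerivAt (fun x : ℝ => exp (-b * x ^ 2)) (exp (-b * x ^ 2) * (-b * (2 * x))) x := by
  simpa using ((hasDerivAt_pow 2 x).const_mul (-b)).exp

theorem mo_one (hb : 0 < b) : mo b 1 = 0 := by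
  have h := integral_eq_zero_of_hasDerivAt_of_integrable (hasDerivAt_gauss b)
    (((int_mo hb 1).const_mul (-2 * b)).congr (ae_of_all _ fun x => by ring))
    (integrable_exp_neg_mul_sq hb)
  have h2 : ∫ x : ℝ, exp (-b * x ^ 2) * (-b * (2 * x)) = -2 * b * mo b 1 := by
    rw [mo, ← integral_const_mul]
    exact integral_congr_ae (ae_of_all _ fun x => by ring)
  rw [h2] at h
  exact (mul_eq_zero.1 h).resolve_left (by linarith)

theorem mo_succ (hb : 0 < b) (n : ℕ) : 2 * b * mo b (n + 2) = (n + 1) * mo b n := by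
  have i1 := (int_mo hb n).const_mul ((n : ℝ) + 1)
  have i2 := (int_mo hb (n + 2)).const_mul (2 * b)
  have h := integral_eq_zero_of_hasDerivAt_of_integrable
    (f := fun x : ℝ => x ^ (n + 1) * exp (-b * x ^ 2))
    (f' := fun x => ((n : ℝ) + 1) * (x ^ n * exp (-b * x ^ 2)) -
      2 * b * (x ^ (n + 2) * exp (-b * x ^ 2))) (fun x => by
        refine ((hasDerivAt_pow (n + 1) x).mul (hasDerivAt_gauss b x)).congr_deriv ?_
        simp only [Nat.add_sub_cancel, Nat.cast_add, Nat.cast_one]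
        ring) (i1.sub i2) (int_mo hb (n + 1))
  rw [integral_sub i1 i2, integral_const_mul, integral_const_mul] at h
  unfold mo
  linarith

theorem mo_zero_sq (hb : 0 < b) : mo b 0 * mo b 0 = π / b := by
  simp only [mo, pow_zero, one_mul, integral_gaussian]
  exact mul_self_sqrt (by positivity)

/-- `F` has the Gaussian integral `v` -/
def HI (b : ℝ) (F : E2 → ℝ) (v : ℝ) : Prop :=
  Integrable (fun y => F y * exp (-b * ‖y‖ ^ 2)) ∧ ∫ y, F y * exp (-b * ‖y‖ ^ 2) = v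

theorem norm_sq_two (y : E2) : ‖y‖ ^ 2 = y 0 ^ 2 + y 1 ^ 2 := by
  simp [EuclideanSpace.real_norm_sq_eq, Fin.sum_univ_two]

theorem hi_mono (hb : 0 < b) (c : ℝ) (i j : ℕ) :
    HI b (fun y => c * (y 0 ^ i * y 1 ^ j)) (c * (mo b i * mo b j)) := by
  have hm := PiLp.volume_preserving_toLp (Fin 2)
  have he := (MeasurableEquiv.toLp 2 (Fin 2 → ℝ)).measurableEmbedding
  let g : Fin 2 → ℝ → ℝ := ![fun x => x ^ i * exp (-b * x ^ 2), fun x => x ^ j * exp (-b * x ^ 2)]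
  have e : ∀ x : Fin 2 → ℝ, c * ((WithLp.toLp 2 x : E2) 0 ^ i * (WithLp.toLp 2 x : E2) 1 ^ j) *
      exp (-b * ‖(WithLp.toLp 2 x : E2)‖ ^ 2) = c * ∏ k, g k (x k) := fun x => by
    rw [norm_sq_two, mul_add, exp_add]
    simp only [Fin.prod_univ_two, g, Matrix.cons_val_zero, Matrix.cons_val_one]
    ring
  constructor
  · rw [← hm.integrable_comp_emb he]
    refine ((Integrable.fintype_prod (f := g) (μ := fun _ => volume) fun k => ?_).const_mul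
      c).congr (ae_of_all _ fun x => (e x).symm)
    fin_cases k
    · exact int_mo hb i
    · exact int_mo hb j
  · rw [← hm.integral_comp he]
    simp only [e]
    rw [integral_const_mul, integral_fintype_prod_volume_eq_prod]
    simp [g, mo]

theorem HI.add {F G : E2 → ℝ} {v w : ℝ} (h : HI b F v) (h' : HI b G w) :
    HI b (fun y => F y + G y) (v + w) := by
  simp only [HI, add_mul]
  exact ⟨h.1.add h'.1, by rw [integral_add h.1 h'.1, h.2, h'.2]⟩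

theorem hi_const (hb : 0 < b) (c : ℝ) : HI b (fun _ => c) (c * (π / b)) := by
  simpa only [pow_zero, mul_one, mo_zero_sq hb] using hi_mono hb c 0 0

/-- the main term of the expansion -/
def qq (τ p q r : ℝ) (y : E2) : ℝ :=
  1 + ((p * y 0 + q * y 1) ^ 2 + (q * y 0 + r * y 1) ^ 2) / 2 -
    ((p * y 0 ^ 2 + 2 * q * y 0 * y 1 + r * y 1 ^ 2) / 2 - τ * (p + r)) ^ 2 / (4 * τ)

theorem hi_qq {τ : ℝ} (hτ : 0 < τ) (p q r : ℝ) :
    HI (4 * τ)⁻¹ (qq τ p q r) (4 * π * τ * (1 + τ * (p ^ 2 + 2 * q ^ 2 + r ^ 2) / 2)) := by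
  have hb : 0 < (4 * τ)⁻¹ := by positivity
  have h := (((((((((hi_mono hb (1 - τ * (p + r) ^ 2 / 4) 0 0).add
    (hi_mono hb ((p ^ 2 + q ^ 2) / 2 + (p + r) * p / 4) 2 0)).add
    (hi_mono hb (p * q + q * r + (p + r) * q / 2) 1 1)).add
    (hi_mono hb ((q ^ 2 + r ^ 2) / 2 + (p + r) * r / 4) 0 2)).add
    (hi_mono hb (-p ^ 2 / (16 * τ)) 4 0)).add (hi_mono hb (-(p * q) / (4 * τ)) 3 1)).add
    (hi_mono hb (-(q ^ 2 + p * r / 2) / (4 * τ)) 2 2)).add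
    (hi_mono hb (-(q * r) / (4 * τ)) 1 3)).add (hi_mono hb (-r ^ 2 / (16 * τ)) 0 4))
  have m2 : mo (4 * τ)⁻¹ 2 = 2 * τ * mo (4 * τ)⁻¹ 0 := by
    have := mo_succ hb 0
    generalize mo (4 * τ)⁻¹ = M at this ⊢
    field_simp at this
    simp only [Nat.cast_zero, zero_add] at this
    linarith
  have m4 : mo (4 * τ)⁻¹ 4 = 12 * τ ^ 2 * mo (4 * τ)⁻¹ 0 := by
    have := mo_succ hb 2
    rw [m2] at this
    generalize mo (4 * τ)⁻¹ = M at this ⊢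
    field_simp at this
    simp only [Nat.cast_ofNat, Nat.reduceAdd] at this
    linarith
  have m0 : mo (4 * τ)⁻¹ 0 ^ 2 = 4 * π * τ := by
    rw [sq, mo_zero_sq hb]
    field_simp
  convert h using 1
  · funext y
    unfold qq
    field_simp
    ring
  · rw [mo_one hb, m4, m2, ← m0]
    generalize mo (4 * τ)⁻¹ = M
    field_simp
    ring

/-! ### the pointwise bound -/

theorem sqrt_one_add_ge {p : ℝ} (hp : 0 ≤ p) : 1 + p / 2 - p ^ 2 / 8 ≤ √(1 + p) := by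
  have h1 : 1 ≤ √(1 + p) := le_sqrt_of_sq_le (by linarith)
  have h2 : p = √(1 + p) ^ 2 - 1 := by rw [sq_sqrt (by linarith)]; ring
  generalize √(1 + p) = W at h1 h2
  subst h2
  nlinarith [mul_nonneg (sq_nonneg (W - 1)) (show 0 ≤ (W + 1) ^ 2 - 4 by nlinarith)]

theorem sq_ge_of_close {K n β p : ℝ} (h0 : |β| ≤ 2 * n) (e0 : |p - β| ≤ K * n ^ 2) :
    β ^ 2 - 4 * K * n ^ 3 ≤ p ^ 2 := by
  have h1 : |β * (p - β)| ≤ 2 * n * (K * n ^ 2) := by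
    rw [abs_mul]
    exact mul_le_mul h0 e0 (abs_nonneg _) ((abs_nonneg _).trans h0)
  nlinarith [neg_abs_le (β * (p - β)), sq_nonneg (p - β)]

theorem sq_le_of_close {K n β p : ℝ} (hK : 0 ≤ K) (hn : 0 ≤ n) (hn1 : n ≤ 1) (h0 : |β| ≤ 2 * n)
    (e0 : |p - β| ≤ K * n ^ 2) : p ^ 2 ≤ (K + 4) ^ 2 * n ^ 2 := by
  have h1 : K * n ^ 2 ≤ K * n := mul_le_mul_of_nonneg_left (by nlinarith) hK
  have h2 : |p| ≤ (K + 4) * n := by linarith [abs_sub_abs_le_abs_sub p β]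
  rw [← mul_pow, ← sq_abs]
  exact pow_le_pow_left₀ (abs_nonneg _) h2 2

theorem x_alg {K δ m g η : ℝ} (hK : 0 ≤ K) (hδ : 0 < δ) (m0 : 0 ≤ m) (g1 : |g| ≤ 4 * (δ ^ 2 * m))
    (η1 : |η| ≤ K * (δ ^ 3 * m ^ 2)) (η2 : |η| ≤ K * (δ ^ 2 * m)) :
    (g + η) ^ 2 / (4 * δ ^ 2) ≤ (K + 4) ^ 2 * (δ ^ 2 * m ^ 2) / 4 ∧ (g + η) ^ 2 / (4 * δ ^ 2) ≤
      g ^ 2 / (4 * δ ^ 2) + (K + 4) ^ 2 * (δ ^ 3 * m ^ 3) / 4 := by
  constructor
  · have h2 : |g + η| ≤ (K + 4) * (δ ^ 2 * m) := by linarith [abs_add_le g η]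
    have h3 := pow_le_pow_left₀ (abs_nonneg _) h2 2
    rw [sq_abs] at h3
    rw [div_le_iff₀ (by positivity)]
    exact h3.trans_eq (by ring)
  · have h2 : |2 * g + η| ≤ (K + 8) * (δ ^ 2 * m) := by
      linarith [abs_add_le (2 * g) η, show |2 * g| = 2 * |g| by rw [abs_mul, abs_two]]
    have h3 : |η * (2 * g + η)| ≤ K * (δ ^ 3 * m ^ 2) * ((K + 8) * (δ ^ 2 * m)) := by
      rw [abs_mul]
      exact mul_le_mul η1 h2 (abs_nonneg _) (by positivity)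
    rw [← sub_le_iff_le_add', ← sub_div, div_le_iff₀ (by positivity)]
    linarith [le_abs_self (η * (2 * g + η)), show 0 ≤ δ ^ 5 * m ^ 3 by positivity]

theorem w_alg {K δ m P x A B : ℝ} (hK : 0 ≤ K) (hδ : 0 < δ) (hδ1 : δ ≤ 1) (m1 : 1 ≤ m) (P0 : 0 ≤ P)
    (P1 : B - 8 * K * (δ ^ 3 * m ^ 3) ≤ P) (P2 : P ≤ 2 * (K + 4) ^ 2 * (δ ^ 2 * m)) (x0 : 0 ≤ x)
    (x1 : x ≤ (K + 4) ^ 2 * (δ ^ 2 * m ^ 2) / 4) (x2 : x ≤ A + (K + 4) ^ 2 * (δ ^ 3 * m ^ 3) / 4) :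
    1 + B / 2 - A - 2 * (K + 4) ^ 4 * (δ ^ 3 * m ^ 3) ≤ √(1 + P) * exp (-x) := by
  have m0 : 0 ≤ m := by linarith
  have E2 : δ ^ 4 * m ^ 3 ≤ δ ^ 3 * m ^ 3 :=
    mul_le_mul_of_nonneg_right (pow_le_pow_of_le_one hδ.le hδ1 (by norm_num)) (by positivity)
  have E3 : δ ^ 4 * m ^ 2 ≤ δ ^ 4 * m ^ 3 := by gcongr; norm_num
  have w1 := sqrt_one_add_ge P0
  have w3 := mul_le_mul_of_nonneg_left (add_one_le_exp (-x)) (sqrt_nonneg (1 + P))
  have w4 := mul_le_mul_of_nonneg_left (sqrt_one_add_le (show -1 ≤ P by linarith)) x0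
  have w5 := mul_le_mul x1 P2 P0 (by positivity)
  have w6 := pow_le_pow_left₀ P0 P2 2
  have L4 : 0 ≤ (K + 4) ^ 4 := by positivity
  have E0 : 0 ≤ δ ^ 3 * m ^ 3 := by positivity
  have w7 := mul_le_mul_of_nonneg_left E2 L4
  have w8 := mul_le_mul_of_nonneg_left E3 L4
  have w10 := mul_le_mul_of_nonneg_right (show 4 * K + (K + 4) ^ 2 / 4 ≤ (K + 4) ^ 4 by
    linarith [sq_nonneg K, pow_nonneg hK 3, pow_nonneg hK 4]) E0
  linarith [mul_nonneg L4 E0]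

theorem pt_alg {K δ n m β₀ β₁ g p₀ p₁ η : ℝ} (hK : 0 ≤ K) (hδ : 0 < δ) (hδ1 : δ ≤ 1) (hn : 0 ≤ n)
    (hn1 : n ≤ 1) (hm : n ^ 2 = δ ^ 2 * (m - 1)) (h0 : |β₀| ≤ 2 * n) (h1 : |β₁| ≤ 2 * n)
    (hg : |g| ≤ n ^ 2 + 4 * δ ^ 2) (e0 : |p₀ - β₀| ≤ K * n ^ 2) (e1 : |p₁ - β₁| ≤ K * n ^ 2)
    (e2 : |η| ≤ K * n ^ 3) :
    1 + (β₀ ^ 2 + β₁ ^ 2) / 2 - g ^ 2 / (4 * δ ^ 2) - 2 * (K + 4) ^ 4 * (δ ^ 3 * m ^ 3) ≤
      √(1 + (p₀ ^ 2 + p₁ ^ 2)) * exp (-((g + η) ^ 2 / (4 * δ ^ 2))) := by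
  have hτ : 0 < δ ^ 2 := by positivity
  have m1 : 1 ≤ m := by
    have := nonneg_of_mul_nonneg_right (hm ▸ sq_nonneg n) hτ
    linarith
  have m0 : 0 ≤ m := by linarith
  have n2 : n ^ 2 ≤ δ ^ 2 * m := by linarith
  have n1 : n ≤ δ * m := by
    refine (pow_le_pow_iff_left₀ hn (by positivity) two_ne_zero).1 ?_
    linarith [mul_le_mul_of_nonneg_left (show m ≤ m ^ 2 by nlinarith) hτ.le]
  have n3 : n ^ 3 ≤ δ ^ 3 * m ^ 2 := by
    calc n ^ 3 = n ^ 2 * n := by ring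
      _ ≤ δ ^ 2 * m * (δ * m) := mul_le_mul n2 n1 hn (by positivity)
      _ = _ := by ring
  have E1 : δ ^ 3 * m ^ 2 ≤ δ ^ 3 * m ^ 3 := by gcongr; norm_num
  have g1 : |g| ≤ 4 * (δ ^ 2 * m) := by linarith [mul_le_mul_of_nonneg_left m1 hτ.le]
  obtain ⟨x1, x2⟩ := x_alg hK hδ m0 g1 (e2.trans (mul_le_mul_of_nonneg_left n3 hK))
    (e2.trans (mul_le_mul_of_nonneg_left
      ((pow_le_pow_of_le_one hn hn1 (by norm_num)).trans n2) hK))
  refine w_alg hK hδ hδ1 m1 (by positivity) ?_ ?_ (by positivity) x1 x2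
  · linarith [sq_ge_of_close h0 e0, sq_ge_of_close h1 e1,
      mul_le_mul_of_nonneg_left (n3.trans E1) hK]
  · linarith [sq_le_of_close hK hn hn1 h0 e0, sq_le_of_close hK hn hn1 h1 e1,
      mul_le_mul_of_nonneg_left n2 (sq_nonneg (K + 4))]

/-! ### Taylor's formula -/

theorem mvt_one {X F : Type*} [NormedAddCommGroup X] [NormedSpace ℝ X] [NormedAddCommGroup F]
    [NormedSpace ℝ F] {G : X → F} (hG : ContDiff ℝ ∞ G) {K : ℝ} {z : X}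
    (h : ∀ x, ‖x‖ ≤ ‖z‖ → ‖iteratedFDeriv ℝ 1 G x‖ ≤ K) : ‖G z - G 0‖ ≤ K * ‖z‖ := by
  simpa using (convex_closedBall (0 : X) ‖z‖).norm_image_sub_le_of_norm_fderiv_le (f := G) (C := K)
    (fun x _ => hG.differentiable (by simp) x) (fun x hx => by
      rw [← norm_iteratedFDeriv_zero (𝕜 := ℝ) (f := fderiv ℝ G), norm_iteratedFDeriv_fderiv]
      exact h x (mem_closedBall_zero_iff.1 hx)) (mem_closedBall_self (norm_nonneg _))
    (mem_closedBall_zero_iff.2 le_rfl)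

theorem taylor {U : E2 → ℝ} (hU : Sm U) (h0 : U 0 = 0) (h1 : fderiv ℝ U 0 = 0) {K r : ℝ}
    (hK : 0 ≤ K) (h3 : ∀ y : E2, ‖y‖ ≤ r → ‖iteratedFDeriv ℝ 3 U y‖ ≤ K) {y : E2} (hy : ‖y‖ ≤ r) :
    ‖fderiv ℝ U y - fderiv ℝ (fderiv ℝ U) 0 y‖ ≤ K * ‖y‖ ^ 2 ∧
      |U y - fderiv ℝ (fderiv ℝ U) 0 y y / 2| ≤ K * ‖y‖ ^ 3 := by
  have d1 : Differentiable ℝ (fderiv ℝ U) := hU.fd.differentiable (by simp)
  have c0 : ∀ y : E2, (0 : E2) ∈ closedBall (0 : E2) ‖y‖ := fun y => mem_closedBall_self (norm_nonneg _)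
  have c1 : ∀ y : E2, y ∈ closedBall (0 : E2) ‖y‖ := fun y => mem_closedBall_zero_iff.2 le_rfl
  have a2 : ∀ z : E2, ‖z‖ ≤ r →
      ‖fderiv ℝ (fderiv ℝ U) z - fderiv ℝ (fderiv ℝ U) 0‖ ≤ K * ‖z‖ := fun z hz => by
    refine mvt_one (hU.fd.fderiv_right (m := ∞) (by simp)) fun x hx => ?_
    rw [norm_iteratedFDeriv_fderiv, norm_iteratedFDeriv_fderiv]
    exact h3 x (hx.trans hz)
  have a1 : ∀ z : E2, ‖z‖ ≤ r →
      ‖fderiv ℝ U z - fderiv ℝ (fderiv ℝ U) 0 z‖ ≤ K * ‖z‖ ^ 2 := fun z hz => by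
    have := (convex_closedBall (0 : E2) ‖z‖).norm_image_sub_le_of_norm_hasFDerivWithin_le
      (f := fun x => fderiv ℝ U x - fderiv ℝ (fderiv ℝ U) 0 x) (C := K * ‖z‖)
      (fun x _ => ((d1 x).hasFDerivAt.sub (fderiv ℝ (fderiv ℝ U) 0).hasFDerivAt).hasFDerivWithinAt)
      (fun x hx => (a2 x ((mem_closedBall_zero_iff.1 hx).trans hz)).trans
        (mul_le_mul_of_nonneg_left (mem_closedBall_zero_iff.1 hx) hK)) (c0 z) (c1 z)
    simp only [h1, map_zero, sub_zero] at this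
    exact this.trans_eq (by ring)
  refine ⟨a1 y hy, ?_⟩
  have := (convex_closedBall (0 : E2) ‖y‖).norm_image_sub_le_of_norm_hasFDerivWithin_le
    (f := fun x => U x - fderiv ℝ (fderiv ℝ U) 0 x x / 2) (C := K * ‖y‖ ^ 2)
    (f' := fun x => fderiv ℝ U x - fderiv ℝ (fderiv ℝ U) 0 x) (fun x _ => by
      have e := (((fderiv ℝ (fderiv ℝ U) 0).hasFDerivAt (x := x)).clm_apply
        (hasFDerivAt_id x)).mul_const 2⁻¹
      refine ((hU.diff x).hasFDerivAt.sub (e.congr_fderiv ?_)).hasFDerivWithinAt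
      ext v
      have := congrFun (D_comm hU v x) 0
      rw [D_D hU, D_D hU] at this
      simp [this]
      ring)
    (fun x hx => (a1 x ((mem_closedBall_zero_iff.1 hx).trans hy)).trans (by
      gcongr
      exact mem_closedBall_zero_iff.1 hx)) (c0 y) (c1 y)
  simp only [h0, map_zero, sub_zero, zero_div, norm_eq_abs] at this
  exact this.trans_eq (by ring)

/-- the entries of the Hessian at the origin -/
def hs (U : E2 → ℝ) (i j : Fin 2) : ℝ :=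
  fderiv ℝ (fderiv ℝ U) 0 (EuclideanSpace.single i 1) (EuclideanSpace.single j 1)

theorem decomp_two (y : E2) :
    y = y 0 • EuclideanSpace.single 0 1 + y 1 • EuclideanSpace.single 1 1 := by
  ext i
  fin_cases i <;> simp

theorem hs_symm {U : E2 → ℝ} (hU : Sm U) : hs U 1 0 = hs U 0 1 := by
  have := congrFun (D_comm hU (EuclideanSpace.single 1 1) (EuclideanSpace.single 0 1)) 0
  rwa [D_D hU, D_D hU] at this

theorem hess_apply (U : E2 → ℝ) (y : E2) (j : Fin 2) :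
    fderiv ℝ (fderiv ℝ U) 0 y (EuclideanSpace.single j 1) = hs U 0 j * y 0 + hs U 1 j * y 1 := by
  conv_lhs => rw [decomp_two y]
  simp [hs, mul_comm]

theorem hess_apply_two (U : E2 → ℝ) (v y : E2) : fderiv ℝ (fderiv ℝ U) 0 v y =
    (hs U 0 0 * v 0 + hs U 1 0 * v 1) * y 0 + (hs U 0 1 * v 0 + hs U 1 1 * v 1) * y 1 := by
  rw [← hess_apply, ← hess_apply]
  conv_lhs => rw [decomp_two y]
  simp [mul_comm]

theorem norm_grad_sq (U : E2 → ℝ) (y : E2) : ‖grad U y‖ ^ 2 =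
    fderiv ℝ U y (EuclideanSpace.single 0 1) ^ 2 + fderiv ℝ U y (EuclideanSpace.single 1 1) ^ 2 := by
  simp [norm_sq_two, ← inner_grad, EuclideanSpace.inner_single_right]

/-- the integrand of the Gaussian area of a graph -/
def ga (U : E2 → ℝ) (y₀ : E2) (a s : ℝ) (y : E2) : ℝ :=
  √(1 + ‖grad U y‖ ^ 2) * exp (-(‖y - y₀‖ ^ 2 + (U y - a) ^ 2) / (4 * s))

theorem integrableOn_ga {U : E2 → ℝ} (hU : Sm U) (y₀ : E2) (a s : ℝ) (y₁ : E2) (r : ℝ) :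
    IntegrableOn (ga U y₀ a s) (ball y₁ r) := by
  have h1 := continuous_grad (contDiff_one' hU)
  have h2 := hU.continuous
  have : Continuous (ga U y₀ a s) := by unfold ga; fun_prop
  exact (this.continuousOn.integrableOn_compact (isCompact_closedBall y₁ r)).mono_set
    ball_subset_closedBall

theorem cube_le {x : ℝ} (hx : 0 ≤ x) : (1 + x) ^ 3 ≤ 3072 * exp (1 / 8) * exp (x / 8) := by
  have h := pow_div_factorial_le_exp ((1 + x) / 8) (by positivity) 3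
  rw [add_div, exp_add] at h
  norm_num [Nat.factorial] at h ⊢
  linarith

theorem out_alg {C r δ n ρ β₀ β₁ : ℝ} (hC0 : 0 < C) (hr : 0 < r) (hr1 : r ≤ 1) (hC : 5 ≤ C * r ^ 3)
    (hδ : 0 < δ) (hn : r ≤ n) (hρ : 0 ≤ ρ) (hm : n ^ 2 = δ ^ 2 * (1 + ρ - 1)) (b0 : |β₀| ≤ 2 * n)
    (b1 : |β₁| ≤ 2 * n) : 1 + (β₀ ^ 2 + β₁ ^ 2) / 2 ≤ C * (δ ^ 3 * (1 + ρ) ^ 3) := by
  have hτ : 0 < δ ^ 2 := by positivity
  have hn0 : 0 ≤ n := by linarith
  have n1 : n ≤ δ * (1 + ρ) := by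
    refine (pow_le_pow_iff_left₀ hn0 (by positivity) two_ne_zero).1 ?_
    linarith [mul_nonneg hτ.le (sq_nonneg ρ), mul_nonneg hτ.le hρ]
  have n3 := mul_le_mul_of_nonneg_left (pow_le_pow_left₀ hn0 n1 3) hC0.le
  have n4 : 1 + 4 * n ^ 2 ≤ C * n ^ 3 := by
    have a1 : r ^ 3 ≤ n ^ 3 := by gcongr
    have a2 : r ^ 3 * n ^ 2 ≤ n * n ^ 2 := mul_le_mul_of_nonneg_right
      ((pow_le_of_le_one hr.le hr1 (by norm_num)).trans hn) (sq_nonneg n)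
    refine le_of_mul_le_mul_left ?_ (pow_pos hr 3)
    linarith [mul_le_mul_of_nonneg_right hC (pow_nonneg hn0 3)]
  linarith [sq_le_sq' (abs_le.1 b0).1 (abs_le.1 b0).2, sq_le_sq' (abs_le.1 b1).1 (abs_le.1 b1).2]

theorem expand_pt {K r C δ : ℝ} (hK : 0 ≤ K) (hr : 0 < r) (hr1 : r ≤ 1) (hC0 : 0 < C)
    (hC1 : 2 * (K + 4) ^ 4 ≤ C) (hC2 : 5 ≤ C * r ^ 3) {U : E2 → ℝ} (hU : Sm U) (h0 : U 0 = 0)
    (h1 : fderiv ℝ U 0 = 0) (h3 : ∀ y : E2, ‖y‖ ≤ r → ‖iteratedFDeriv ℝ 3 U y‖ ≤ K)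
    (h2 : ∀ v w, |fderiv ℝ (fderiv ℝ U) 0 v w| ≤ 2 * ‖v‖ * ‖w‖) (hδ : 0 < δ) (hδ1 : δ ≤ 1) (y : E2) :
    qq (δ ^ 2) (hs U 0 0) (hs U 0 1) (hs U 1 1) y - C * (δ ^ 3 * (1 + ‖y‖ ^ 2 / δ ^ 2) ^ 3) ≤
      (ball (0 : E2) r).indicator (fun y => √(1 + ‖grad U y‖ ^ 2) *
        exp (-((U y - δ ^ 2 * (hs U 0 0 + hs U 1 1)) ^ 2 / (4 * δ ^ 2)))) y := by
  have hτ : 0 < δ ^ 2 := by positivity
  have hm : ‖y‖ ^ 2 = δ ^ 2 * (1 + ‖y‖ ^ 2 / δ ^ 2 - 1) := by field_simp; ring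
  have b0 := h2 y (EuclideanSpace.single 0 1)
  have b1 := h2 y (EuclideanSpace.single 1 1)
  simp only [PiLp.norm_single, norm_one, mul_one] at b0 b1
  have eq : qq (δ ^ 2) (hs U 0 0) (hs U 0 1) (hs U 1 1) y =
      1 + (fderiv ℝ (fderiv ℝ U) 0 y (EuclideanSpace.single 0 1) ^ 2 +
        fderiv ℝ (fderiv ℝ U) 0 y (EuclideanSpace.single 1 1) ^ 2) / 2 -
        (fderiv ℝ (fderiv ℝ U) 0 y y / 2 - δ ^ 2 * (hs U 0 0 + hs U 1 1)) ^ 2 / (4 * δ ^ 2) := by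
    rw [hess_apply, hess_apply, hess_apply_two, hs_symm hU, qq]
    ring
  rw [eq]
  by_cases hy : y ∈ ball (0 : E2) r
  · rw [indicator_of_mem hy, norm_grad_sq]
    have hy' := (mem_ball_zero_iff.1 hy).le
    obtain ⟨t1, t2⟩ := taylor hU h0 h1 hK h3 hy'
    have t3 : ∀ j : Fin 2, |fderiv ℝ U y (EuclideanSpace.single j 1) -
        fderiv ℝ (fderiv ℝ U) 0 y (EuclideanSpace.single j 1)| ≤ K * ‖y‖ ^ 2 := fun j => by
      simpa using (ContinuousLinearMap.le_of_opNorm_le _ t1 (EuclideanSpace.single j 1))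
    have g1 : |fderiv ℝ (fderiv ℝ U) 0 y y / 2 - δ ^ 2 * (hs U 0 0 + hs U 1 1)| ≤
        ‖y‖ ^ 2 + 4 * δ ^ 2 := by
      have a0 := abs_le.1 (h2 y y)
      have a1 := abs_le.1 (h2 (EuclideanSpace.single 0 1) (EuclideanSpace.single 0 1))
      have a2 := abs_le.1 (h2 (EuclideanSpace.single 1 1) (EuclideanSpace.single 1 1))
      simp only [PiLp.norm_single, norm_one, mul_one] at a1 a2
      have a3 := mul_le_mul_of_nonneg_left (add_le_add a1.1 a2.1) hτ.le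
      have a4 := mul_le_mul_of_nonneg_left (add_le_add a1.2 a2.2) hτ.le
      unfold hs
      rw [abs_le]
      constructor <;> linarith
    have := pt_alg hK hδ hδ1 (norm_nonneg y) (hy'.trans hr1) hm b0 b1 g1 (t3 0) (t3 1) t2
    rw [show ∀ a b c : ℝ, a - b + (c - a) = c - b from fun a b c => by ring] at this
    refine le_trans ?_ this
    gcongr
  · rw [indicator_of_notMem hy]
    have := out_alg hC0 hr hr1 hC2 hδ (by simpa using hy) (by positivity) hm b0 b1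
    have : 0 ≤ (fderiv ℝ (fderiv ℝ U) 0 y y / 2 - δ ^ 2 * (hs U 0 0 + hs U 1 1)) ^ 2 /
      (4 * δ ^ 2) := by positivity
    linarith

/-- **The expansion of the Gaussian area.** -/
theorem expand {K r : ℝ} (hK : 0 ≤ K) (hr : 0 < r) (hr1 : r ≤ 1) : ∃ C, 0 < C ∧ ∀ U : E2 → ℝ, Sm U →
    U 0 = 0 → fderiv ℝ U 0 = 0 → (∀ y : E2, ‖y‖ ≤ r → ‖iteratedFDeriv ℝ 3 U y‖ ≤ K) →
    (∀ v w, |fderiv ℝ (fderiv ℝ U) 0 v w| ≤ 2 * ‖v‖ * ‖w‖) → ∀ δ : ℝ, 0 < δ → δ ≤ 1 →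
      4 * π * δ ^ 2 * (1 + δ ^ 2 * (hs U 0 0 ^ 2 + 2 * hs U 0 1 ^ 2 + hs U 1 1 ^ 2) / 2 - C * δ ^ 3)
        ≤ ∫ y in ball 0 r, ga U 0 (δ ^ 2 * (hs U 0 0 + hs U 1 1)) (δ ^ 2) y := by
  obtain ⟨C, hC0, hC1, hC2⟩ : ∃ C, 0 < C ∧ 2 * (K + 4) ^ 4 ≤ C ∧ 5 ≤ C * r ^ 3 :=
    ⟨2 * (K + 4) ^ 4 + 5 / r ^ 3, by positivity, le_add_of_nonneg_right (by positivity), by
      rw [add_mul, div_mul_cancel₀ _ (by positivity)]
      exact le_add_of_nonneg_left (by positivity)⟩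
  refine ⟨2 * (C * (3072 * exp (1 / 8))), by positivity, fun U hU h0 h1 h3 h2 δ hδ hδ1 => ?_⟩
  have hτ : 0 < δ ^ 2 := by positivity
  obtain ⟨i1, e1⟩ := hi_qq hτ (hs U 0 0) (hs U 0 1) (hs U 1 1)
  obtain ⟨i2, e2⟩ := hi_const (b := (8 * δ ^ 2)⁻¹) (by positivity)
    (C * (3072 * exp (1 / 8)) * δ ^ 3)
  rw [← integral_indicator measurableSet_ball]
  refine le_trans (le_of_eq ?_) (integral_mono (i1.sub i2)
    ((integrableOn_ga hU _ _ _ _ _).integrable_indicator measurableSet_ball) fun y => ?_)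
  · rw [integral_sub' i1 i2, e1, e2]
    field_simp
    ring
  have k2 := mul_le_mul_of_nonneg_right (expand_pt hK hr hr1 hC0 hC1 hC2 hU h0 h1 h3 h2 hδ hδ1 y)
    (exp_pos (-(4 * δ ^ 2)⁻¹ * ‖y‖ ^ 2)).le
  have k3 : exp (‖y‖ ^ 2 / δ ^ 2 / 8) * exp (-(4 * δ ^ 2)⁻¹ * ‖y‖ ^ 2) =
      exp (-(8 * δ ^ 2)⁻¹ * ‖y‖ ^ 2) := by
    rw [← exp_add]
    congr 1
    field_simp
    ring
  have k4 := mul_le_mul_of_nonneg_right (mul_le_mul_of_nonneg_left (cube_le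
    (x := ‖y‖ ^ 2 / δ ^ 2) (by positivity)) (show 0 ≤ C * δ ^ 3 by positivity))
    (exp_pos (-(4 * δ ^ 2)⁻¹ * ‖y‖ ^ 2)).le
  refine le_trans ?_ (k2.trans_eq ?_)
  · simp only [Pi.sub_apply]
    rw [← k3]
    linarith
  · by_cases hy : y ∈ ball (0 : E2) r
    · rw [indicator_of_mem hy, indicator_of_mem hy, ga, mul_assoc, ← exp_add, sub_zero]
      congr 2
      field_simp
      ring
    · rw [indicator_of_notMem hy, indicator_of_notMem hy, zero_mul]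

/-- the Gaussian area of a sheet with small slope -/
theorem sheet_ge {U : E2 → ℝ} (hU : Sm U) {y₀ : E2} {a e r s : ℝ} (hs : 0 < s) (hr : 0 ≤ r)
    (hrs : 256 * s ≤ r ^ 2) (h : ∀ y ∈ ball y₀ r, |U y - a| ≤ ‖y - y₀‖ / 2 + e)
    (he : 10 * e ^ 2 ≤ s) : 4 * π * s * (3 / 5) ≤ ∫ y in ball y₀ r, ga U y₀ a s y := by
  have hb : 0 < 3 / (8 * s) := by positivity
  obtain ⟨i1, e1⟩ := hi_const hb (19 / 20)
  obtain ⟨i2, e2⟩ := hi_const (half_pos hb) (19 / 20 * (1 / 49))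
  rw [← integral_indicator measurableSet_ball, ← integral_add_right_eq_self _ y₀]
  refine le_trans ?_ (integral_mono (i1.sub i2) (((integrableOn_ga hU _ _ _ _ _).integrable_indicator
    measurableSet_ball).comp_add_right y₀) fun y => ?_)
  · rw [integral_sub' i1 i2, e1, e2]
    field_simp
    norm_num
  simp only [Pi.sub_apply]
  have p1 := exp_pos (-(3 / (8 * s) / 2) * ‖y‖ ^ 2)
  by_cases hy : y + y₀ ∈ ball y₀ r
  · rw [indicator_of_mem hy, ga, add_sub_cancel_right]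
    have h1 := h _ hy
    rw [add_sub_cancel_right] at h1
    have h2 : (U (y + y₀) - a) ^ 2 ≤ ‖y‖ ^ 2 / 2 + 2 * e ^ 2 := by
      linarith [sq_le_sq' (abs_le.1 h1).1 (abs_le.1 h1).2, sq_nonneg (‖y‖ / 2 - e)]
    have h3 : -(1 / 20) + -(3 / (8 * s)) * ‖y‖ ^ 2 ≤
        -(‖y‖ ^ 2 + (U (y + y₀) - a) ^ 2) / (4 * s) := by
      rw [le_div_iff₀ (by positivity)]
      field_simp
      linarith
    have h4 := exp_le_exp.2 h3
    rw [exp_add] at h4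
    have h5 := mul_le_mul_of_nonneg_right (add_one_le_exp (-(1 / 20)))
      (exp_pos (-(3 / (8 * s)) * ‖y‖ ^ 2)).le
    have h6 := mul_le_mul_of_nonneg_right (show 1 ≤ √(1 + ‖grad U (y + y₀)‖ ^ 2) from
      le_sqrt_of_sq_le (by linarith [sq_nonneg ‖grad U (y + y₀)‖]))
      (exp_pos (-(‖y‖ ^ 2 + (U (y + y₀) - a) ^ 2) / (4 * s))).le
    linarith
  · rw [indicator_of_notMem hy]
    have h1 : r ≤ ‖y‖ := by simpa [dist_eq_norm] using hy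
    have h2 : 48 ≤ 3 / (8 * s) / 2 * ‖y‖ ^ 2 := by
      have := pow_le_pow_left₀ hr h1 2
      rw [div_div, div_mul_eq_mul_div, le_div_iff₀ (by positivity)]
      linarith
    have h3 : 49 * exp (-(3 / (8 * s)) * ‖y‖ ^ 2) ≤ exp (-(3 / (8 * s) / 2) * ‖y‖ ^ 2) := by
      have := mul_le_mul_of_nonneg_right (add_one_le_exp (3 / (8 * s) / 2 * ‖y‖ ^ 2))
        (exp_pos (-(3 / (8 * s)) * ‖y‖ ^ 2)).le
      rw [← exp_add, show 3 / (8 * s) / 2 * ‖y‖ ^ 2 + -(3 / (8 * s)) * ‖y‖ ^ 2 =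
        -(3 / (8 * s) / 2) * ‖y‖ ^ 2 by ring] at this
      nlinarith [exp_pos (-(3 / (8 * s)) * ‖y‖ ^ 2)]
    linarith

end Vale.Agent.P218N.C5
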