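import Vale.Agent.P218N.C5.Bern

/-! Interior estimates of all derivatives for the graphical mean curvature flow. -/

open Set Filter Topology Metric
open scoped RealInnerProductSpace ContDiff Manifold

noncomputable section

namespace Vale.Agent.P218N.C5

variable {m : ℕ}

/-- the equation `u_t = A^{ij}(Du) u_ij` on `O` -/
def Pde (A : (Fin m → ℝ) → Fin m → Fin m → ℝ) (u : Sp m → ℝ) (O : Set (Sp m)) : Prop :=
  ∀ z ∈ O, D TT u z = ∑ i, ∑ j, A (gd u z) i j * D (ee i) (D (ee j) u) z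

section gen
variable {A : (Fin m → ℝ) → Fin m → Fin m → ℝ}

theorem exists_eqn (hA : ∀ i j, Sm fun p => A p i j) (α : List (Fin m)) :
    ∃ F, DP (α.length + 1) (α.length + 1) F ∧ ∀ (u : Sp m → ℝ) (O : Set (Sp m)), Sm u → IsOpen O →
      Pde A u O → ∀ z ∈ O, Lop (A (gd u z)) (pd α u) z = F (jet u z) := by
  induction α with
  | nil => exact ⟨_, DP.zero _, fun u O _ _ h z hz => sub_eq_zero.2 (h z hz)⟩
  | cons l α ih =>
    obtain ⟨F, h1, h2⟩ := ih
    obtain ⟨F', h3, h4⟩ := h1.deriv (by omega) l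
    choose G g1 g2 using fun i j => (DP.coef (M := 1) _ (hA i j)).deriv le_rfl l
    refine ⟨_, DP.add (DP.sum Finset.univ fun i => DP.sum Finset.univ fun j =>
      DP.mul (i :: j :: α) (by simp) (by simp) ((g1 i j).mono (by simp)) _ (by simp; omega)) h3,
      fun u O hu hO hP z hz => ?_⟩
    have sA : ∀ i j, Sm fun x => A (gd u x) i j := fun i j => (DP.coef (M := 1) _ (hA i j)).sm hu
    have s2 : ∀ i j, Sm fun x => A (gd u x) i j * pd (i :: j :: α) u x := fun i j =>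
      (sA i j).mul (hu.pd _)
    have s3 : ∀ i, Sm fun x => ∑ j, A (gd u x) i j * pd (i :: j :: α) u x := fun i =>
      ContDiff.sum fun j _ => s2 i j
    have e : D TT (pd α u) =ᶠ[𝓝 z] fun x =>
        (∑ i, ∑ j, A (gd u x) i j * pd (i :: j :: α) u x) + F (jet u x) := by
      filter_upwards [hO.mem_nhds hz] with x hx
      exact (sub_eq_iff_eq_add'.1 (h2 u O hu hO hP x hx))
    have e2 := (D_congr e (ee l)).self_of_nhds
    rw [D_add (ContDiff.sum fun i _ => s3 i) (h1.sm hu), D_sum _ s3, h4 u hu] at e2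
    simp only [D_sum _ (s2 _), D_mul (sA _ _) (hu.pd _)] at e2
    rw [Lop, sub_eq_iff_eq_add', pd, D_comm (hu.pd α), e2, ← add_assoc, ← Finset.sum_add_distrib]
    congr 1
    refine Finset.sum_congr rfl fun i _ => ?_
    rw [← Finset.sum_add_distrib]
    refine Finset.sum_congr rfl fun j _ => ?_
    have e3 : D (ee l) (fun x => A (gd u x) i j) z = G i j (jet u z) := congrFun (g2 i j u hu) z
    rw [e3, D_comm (hu.pd α) (ee j), D_comm ((hu.pd α).D (ee j)) (ee i), mul_comm (G i j _)]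
    rfl

theorem est_pd (hA : ∀ i j, Sm fun p => A p i j) {θ K : ℝ} (hθ : 0 < θ) (hK : 0 ≤ K)
    (hE : ∀ p : Fin m → ℝ, (∀ i, |p i| ≤ K) → Ell θ (A p)) (k : ℕ) {r : ℝ} (hr : 0 < r) :
    ∃ B, 0 ≤ B ∧ ∀ (u : Sp m → ℝ) (O : Set (Sp m)) (z₀ : Sp m), Sm u → IsOpen O → Pde A u O →
      Cyl z₀ r ⊆ O → (∀ z ∈ Cyl z₀ r, ∀ α : List (Fin m), 1 ≤ α.length → α.length ≤ 2 →
        |pd α u z| ≤ K) →
      ∀ α : List (Fin m), 1 ≤ α.length → α.length ≤ k + 2 → |pd α u z₀| ≤ B := by
  induction k generalizing r with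
  | zero => exact ⟨K, hK, fun u O z₀ _ _ _ _ h => h z₀ (self_mem_Cyl z₀ hr.le)⟩
  | succ k ih =>
    obtain ⟨B, hB0, hB⟩ := ih (half_pos hr)
    choose F f1 f2 using exists_eqn hA
    have c1 := fun n : List.Vector (Fin m) (k + 2) => (f1 n.1).bound (k := k + 2) (by omega)
      (by rw [n.2]; omega) (by rw [n.2]; omega) hB0
    have c2 := fun (n : List.Vector (Fin m) (k + 2)) (i : Fin m) => (f1 (i :: n.1)).bound
      (k := k + 2) (by omega) (by simp [n.2]) (by simp [n.2]) hB0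
    choose C c0 c1 using c1
    choose C' c0' c2 using c2
    have hC : 0 ≤ ∑ n, C n := Finset.sum_nonneg fun n _ => c0 n
    have hC' : 0 ≤ ∑ n, ∑ i, C' n i := Finset.sum_nonneg fun n _ => Finset.sum_nonneg fun i _ =>
      c0' n i
    obtain ⟨B', hB'⟩ := bern m (List.Vector (Fin m) (k + 2)) hθ hB0 (add_nonneg hC hC')
      (half_pos hr)
    refine ⟨max B B', le_max_of_le_left hB0, fun u O z₀ hu hO hP hs h α h1 h2 => ?_⟩
    have hsub : Cyl z₀ (r / 2) ⊆ Cyl z₀ r := Cyl_mono z₀ (half_pos hr).le (half_le_self hr.le)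
    have h3 : ∀ z ∈ Cyl z₀ (r / 2), ∀ α : List (Fin m), 1 ≤ α.length → α.length ≤ k + 2 →
        |pd α u z| ≤ B := fun z hz => by
      have h4 : Cyl z (r / 2) ⊆ Cyl z₀ r := by
        simpa using Cyl_subset hz (half_pos hr).le (half_pos hr).le
      exact hB u O z hu hO hP (h4.trans hs) fun x hx => h x (h4 hx)
    rcases Nat.lt_or_ge (k + 2) α.length with h4 | h4
    swap
    · exact (h3 z₀ (self_mem_Cyl _ (half_pos hr).le) α h1 h4).trans (le_max_left _ _)
    obtain ⟨i, β, rfl⟩ := List.exists_cons_of_length_pos h1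
    refine (hB' (fun z => A (gd u z)) (fun n => pd n.1 u) z₀ (fun n => hu.pd _)
      (fun z hz => hE _ fun i => h z (hsub hz) [i] le_rfl (by simp))
      (fun z hz n => h3 z hz _ (by rw [n.2]; omega) n.2.le) (fun z hz s y hs0 hy0 b1 b2 => ?_)
      ⟨β, by simp at h2 h4; omega⟩ i).trans (le_max_right _ _)
    have b1' : ∀ γ : List (Fin m), γ.length = k + 2 + 1 → |jet u z γ| ≤ s := fun γ hγ => by
      obtain ⟨i, β, rfl⟩ := List.exists_cons_of_length_eq_add_one hγ
      exact b1 ⟨β, by simpa using hγ⟩ i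
    have b2' : ∀ γ : List (Fin m), γ.length = k + 2 + 2 → |jet u z γ| ≤ y := fun γ hγ => by
      obtain ⟨j, β, rfl⟩ := List.exists_cons_of_length_eq_add_one hγ
      obtain ⟨i, β, rfl⟩ := List.exists_cons_of_length_eq_add_one (n := k + 2) (l := β)
        (by simpa using hγ)
      exact b2 ⟨β, by simpa using hγ⟩ i j
    refine ⟨fun n => ?_, fun n i => ?_⟩
    · have := c1 n (jet u z) s 0 hs0 le_rfl (h3 z hz) (fun γ h _ => b1' γ h)
        fun γ h h' => by rw [n.2] at h'; omega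
      rw [← f2 n.1 u O hu hO hP z (hs (hsub hz)), n.2, DP.bb, if_neg (by omega), if_neg (by omega),
        if_pos rfl, add_zero] at this
      refine this.trans (mul_le_mul_of_nonneg_right ?_ (by linarith))
      linarith [Finset.single_le_sum (fun n _ => c0 n) (Finset.mem_univ n)]
    · have := c2 n i (jet u z) s y hs0 hy0 (h3 z hz) (fun γ h _ => b1' γ h) fun γ h _ => b2' γ h
      rw [← f2 (i :: n.1) u O hu hO hP z (hs (hsub hz)), List.length_cons, n.2, DP.bb,
        if_neg (by omega), if_neg (by omega), if_neg (by omega)] at this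
      refine this.trans (mul_le_mul_of_nonneg_right ?_ (by positivity))
      linarith [Finset.single_le_sum (fun i _ => c0' n i) (Finset.mem_univ i),
        Finset.single_le_sum (f := fun n => ∑ i, C' n i)
          (fun n _ => Finset.sum_nonneg fun i _ => c0' n i) (Finset.mem_univ n)]

theorem pd_D {u : Sp m → ℝ} (hu : Sm u) (v : Sp m) : ∀ α, pd α (D v u) = D v (pd α u)
  | [] => rfl
  | i :: α => by rw [pd, pd, pd_D hu v α, D_comm (hu.pd α)]

theorem est_time (hA : ∀ i j, Sm fun p => A p i j) (k : ℕ) {B : ℝ} (hB : 0 ≤ B) :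
    ∃ B', 0 ≤ B' ∧ ∀ (u : Sp m → ℝ) (O : Set (Sp m)), Sm u → IsOpen O → Pde A u O → ∀ z ∈ O,
      (∀ α : List (Fin m), 1 ≤ α.length → α.length ≤ k + 2 → |pd α u z| ≤ B) →
      ∀ α : List (Fin m), α.length = k → |pd α (D TT u) z| ≤ B' := by
  choose F f1 f2 using exists_eqn hA
  have g : ∀ n : List.Vector (Fin m) k, DP (k + 2) (k + 1) fun j : List (Fin m) → ℝ =>
      (∑ i, ∑ i', A (fun i => j [i]) i i' * j (i :: i' :: n.1)) + F n.1 j := fun n =>
    DP.add (DP.sum _ fun i => DP.sum _ fun i' => DP.mul (i :: i' :: n.1) (by simp) (by simp [n.2])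
      (DP.coef _ (hA i i')) _ (by simp [n.2])) (by simpa [n.2] using (f1 n.1).mono (Nat.le_succ _))
  choose C c0 c1 using fun n => (g n).bound (k := k + 2) (by omega) (by omega) (by omega) hB
  refine ⟨∑ n, C n, Finset.sum_nonneg fun n _ => c0 n, fun u O hu hO hP z hz h α hα => ?_⟩
  have := c1 ⟨α, hα⟩ (jet u z) 0 0 le_rfl le_rfl h (fun γ h h' => by omega) fun γ h h' => by omega
  rw [DP.bb, if_pos (by omega), mul_one] at this
  rw [pd_D hu, sub_eq_iff_eq_add'.1 (f2 α u O hu hO hP z hz)]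
  exact this.trans (Finset.single_le_sum (fun n _ => c0 n) (Finset.mem_univ _))

end gen

/-! ### the coefficients of the mean curvature flow -/

/-- `δ_ij - p_i p_j / (1 + |p|²)` -/
def mA (p : Fin m → ℝ) (i j : Fin m) : ℝ :=
  (if i = j then 1 else 0) - p i * p j / (1 + ∑ k, p k ^ 2)

theorem sm_mA (i j : Fin m) : Sm fun p : Fin m → ℝ => mA p i j :=
  contDiff_const.sub (((contDiff_apply ℝ ℝ i).mul (contDiff_apply ℝ ℝ j)).div
    (contDiff_const.add (ContDiff.sum fun k _ => (contDiff_apply ℝ ℝ k).pow 2))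
    fun p => by positivity)

theorem qf_mA (p ξ : Fin m → ℝ) :
    qf (mA p) ξ ξ = ∑ i, ξ i ^ 2 - (∑ i, p i * ξ i) ^ 2 / (1 + ∑ k, p k ^ 2) := by
  simp only [qf, mA, sub_mul, Finset.sum_sub_distrib, ite_mul, one_mul, zero_mul,
    Finset.sum_ite_eq, Finset.mem_univ, if_true, pow_two (ξ _)]
  congr 1
  rw [pow_two, Finset.sum_mul_sum, Finset.sum_div]
  refine Finset.sum_congr rfl fun i _ => ?_
  rw [Finset.sum_div]
  exact Finset.sum_congr rfl fun j _ => by ring

theorem ell_mA {K : ℝ} (p : Fin m → ℝ) (hp : ∀ i, |p i| ≤ K) :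
    Ell (1 + m * (K * K))⁻¹ (mA p) := by
  have h0 : 0 ≤ ∑ k, p k ^ 2 := by positivity
  refine ⟨?_, fun ξ => ?_, fun ξ => ?_⟩
  · obtain ⟨W, hW0, hW⟩ : ∃ W : ℝ, 0 < W ∧ W ^ 2 = 1 + ∑ k, p k ^ 2 :=
      ⟨√(1 + ∑ k, p k ^ 2), by positivity, Real.sq_sqrt (by positivity)⟩
    refine ⟨fun k i => (if k = i then 1 else 0) - 1 / (W * (1 + W)) * (p k * p i), fun i j => ?_⟩
    have e : ∀ k, ((if k = i then 1 else 0) - 1 / (W * (1 + W)) * (p k * p i)) *
        ((if k = j then 1 else 0) - 1 / (W * (1 + W)) * (p k * p j)) =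
        (if k = i then (if k = j then 1 else 0) else 0) -
          (if k = i then 1 / (W * (1 + W)) * (p k * p j) else 0) -
          (if k = j then 1 / (W * (1 + W)) * (p k * p i) else 0) +
          (1 / (W * (1 + W))) ^ 2 * (p i * p j) * p k ^ 2 := fun k => by
      split_ifs <;> ring
    simp only [e, Finset.sum_add_distrib, Finset.sum_sub_distrib, Finset.sum_ite_eq',
      Finset.mem_univ, if_true, ← Finset.mul_sum]
    rw [mA, ← hW, show ∑ k, p k ^ 2 = W ^ 2 - 1 by linarith]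
    field_simp
    ring
  · rw [qf_mA]
    have h1 := Finset.sum_mul_sq_le_sq_mul_sq Finset.univ p ξ
    have h2 : ∑ k, p k ^ 2 ≤ m * (K * K) := by
      simpa [pow_two] using sum_mul_le hp hp
    have h3 : 0 ≤ ∑ i, ξ i ^ 2 := by positivity
    have h4 : (1 + m * (K * K))⁻¹ ≤ (1 + ∑ k, p k ^ 2)⁻¹ := by gcongr
    refine (mul_le_mul_of_nonneg_right h4 h3).trans ?_
    rw [le_sub_iff_add_le, inv_mul_eq_div, ← add_div, div_le_iff₀ (by positivity)]
    linarith
  · rw [qf_mA]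
    exact sub_le_self _ (by positivity)

/-! ### iterated derivatives of time slices -/

theorem fderiv_slice {u : Sp m → ℝ} {y : EuclideanSpace ℝ (Fin m)} {t : ℝ}
    (hu : DifferentiableAt ℝ u (y, t)) (v : EuclideanSpace ℝ (Fin m)) :
    fderiv ℝ (fun y => u (y, t)) y v = D (v, 0) u (y, t) := by
  have h : HasFDerivAt (fun y => u (y, t)) _ y :=
    hu.hasFDerivAt.comp y (hasFDerivAt_prodMk_left y t)
  rw [h.fderiv]
  rfl

theorem iteratedFDeriv_slice {u : Sp m → ℝ} (hu : Sm u) (t : ℝ) (k : ℕ) (n : Fin k → Fin m)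
    (y : EuclideanSpace ℝ (Fin m)) :
    iteratedFDeriv ℝ k (fun y => u (y, t)) y (fun i => EuclideanSpace.single (n i) 1) =
      pd (List.ofFn n) u (y, t) := by
  induction k generalizing y with
  | zero => simp [pd]
  | succ k ih =>
    have h1 : ContDiff ℝ ∞ fun y => u (y, t) := hu.comp (contDiff_prodMk_left t)
    rw [iteratedFDeriv_succ_apply_left, ← fderiv_continuousMultilinear_apply_const_apply
      (h1.differentiable_iteratedFDeriv (by exact_mod_cast ENat.natCast_lt_top k) y), List.ofFn_succ,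
      pd]
    have h2 : (fun y => iteratedFDeriv ℝ k (fun y => u (y, t)) y
        (Fin.tail fun i => EuclideanSpace.single (n i) 1)) =
        fun y => pd (List.ofFn fun i => n i.succ) u (y, t) := funext fun y => ih _ y
    rw [h2, fderiv_slice ((hu.pd _).diff _)]
    rfl

theorem norm_le_of_basis {k : ℕ}
    (M : ContinuousMultilinearMap ℝ (fun _ : Fin k => EuclideanSpace ℝ (Fin m)) ℝ) {B : ℝ}
    (hB : 0 ≤ B) (h : ∀ n : Fin k → Fin m, |M fun i => EuclideanSpace.single (n i) 1| ≤ B) :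
    ‖M‖ ≤ m ^ k * B := by
  refine ContinuousMultilinearMap.opNorm_le_bound (by positivity) fun v => ?_
  have e : v = fun i => ∑ j, v i j • EuclideanSpace.single j (1 : ℝ) := by
    funext i
    simpa using ((EuclideanSpace.basisFun (Fin m) ℝ).sum_repr (v i)).symm
  conv_lhs => rw [e, M.map_sum]
  refine (norm_sum_le_of_le _ (n := fun _ => B * ∏ i, ‖v i‖) fun n _ => ?_).trans_eq ?_
  · rw [M.map_smul_univ, norm_smul, mul_comm, norm_prod]
    exact mul_le_mul (h n) (Finset.prod_le_prod (fun _ _ => norm_nonneg _)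
      fun i _ => PiLp.norm_apply_le (v i) (n i)) (by positivity) hB
  · simp [mul_assoc]

/-- a function which is smooth near a closed set agrees near it with a smooth function -/
theorem exists_global_nhds {X : Type*} [NormedAddCommGroup X] [NormedSpace ℝ X]
    [FiniteDimensional ℝ X] {u : X → ℝ} {O S : Set X} (hO : IsOpen O) (hu : ContDiffOn ℝ ∞ u O)
    (hS : IsClosed S) (hSO : S ⊆ O) :
    ∃ (v : X → ℝ) (O' : Set X), Sm v ∧ IsOpen O' ∧ S ⊆ O' ∧ O' ⊆ O ∧ EqOn v u O' := by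
  obtain ⟨χ, h0, h1, -⟩ := exists_contMDiffMap_zero_one_nhds_of_isClosed 𝓘(ℝ, X) (n := ⊤)
    hO.isClosed_compl hS (disjoint_compl_left_iff_subset.2 hSO)
  obtain ⟨O', h2, h3, h4⟩ := eventually_nhdsSet_iff_exists.1 h1
  refine ⟨fun x => χ x * u x, O' ∩ O, contDiff_iff_contDiffAt.2 fun x => ?_, h2.inter hO,
    subset_inter h3 hSO, inter_subset_right, fun x hx => by simp [h4 x hx.1]⟩
  by_cases hx : x ∈ O
  · exact χ.contMDiff.contDiff.contDiffAt.mul (hu.contDiffAt (hO.mem_nhds hx))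
  · refine (contDiffAt_const (c := (0 : ℝ))).congr_of_eventuallyEq ?_
    filter_upwards [eventually_nhdsSet_iff_forall.1 h0 x hx] with y hy
    simp [hy]

/-- **Interior estimates for the graphical mean curvature flow.** -/
theorem mcf_est (m k : ℕ) {K r : ℝ} (hK : 0 ≤ K) (hr : 0 < r) :
    ∃ B, 0 ≤ B ∧ ∀ (u : Sp m → ℝ) (O : Set (Sp m)) (z₀ : Sp m), IsOpen O → ContDiffOn ℝ ∞ u O →
      Pde mA u O → Cyl z₀ r ⊆ O →
      (∀ z ∈ Cyl z₀ r, (∀ i, |D (ee i) u z| ≤ K) ∧ ∀ i j, |D (ee i) (D (ee j) u) z| ≤ K) →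
      ‖iteratedFDeriv ℝ (k + 1) (fun y => u (y, z₀.2)) z₀.1‖ ≤ B ∧
        ‖iteratedFDeriv ℝ k (fun y => D TT u (y, z₀.2)) z₀.1‖ ≤ B := by
  obtain ⟨B, hB0, hB⟩ := est_pd (m := m) sm_mA (by positivity) hK (fun p => ell_mA p) k hr
  obtain ⟨B', hB0', hB'⟩ := est_time (m := m) sm_mA k hB0
  refine ⟨m ^ (k + 1) * B + m ^ k * B', by positivity, fun u O z₀ hO hu hP hs h => ?_⟩
  obtain ⟨v, O', hv, hO', h1, h2, h3⟩ :=
    exists_global_nhds hO hu (isCompact_Cyl z₀ r).isClosed hs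
  have e : ∀ z ∈ O', v =ᶠ[𝓝 z] u := fun z hz => h3.eventuallyEq_of_mem (hO'.mem_nhds hz)
  have e1 : ∀ z ∈ O', ∀ w, D w v z = D w u z := fun z hz w => (D_congr (e z hz) w).self_of_nhds
  have e2 : ∀ z ∈ O', ∀ w w', D w (D w' v) z = D w (D w' u) z := fun z hz w w' =>
    (D_congr (D_congr (e z hz) w') w).self_of_nhds
  have hPv : Pde mA v O' := fun z hz => by
    have : gd v z = gd u z := funext fun i => e1 z hz _
    simp only [e1 z hz, e2 z hz, this]
    exact hP z (h2 hz)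
  have hz₀ := h1 (self_mem_Cyl z₀ hr.le)
  have h4 := hB v O' z₀ hv hO' hPv h1 fun z hz α a1 a2 => by
    obtain ⟨i, β, rfl⟩ := List.exists_cons_of_length_pos a1
    rcases β with _ | ⟨j, _ | _⟩
    · exact (congrArg abs (e1 z (h1 hz) _)).trans_le ((h z hz).1 i)
    · exact (congrArg abs (e2 z (h1 hz) _ _)).trans_le ((h z hz).2 i j)
    · simp at a2
  have h5 := hB' v O' hv hO' hPv z₀ hz₀ h4
  have t : Tendsto (fun y => (y, z₀.2)) (𝓝 z₀.1) (𝓝 z₀) := (Continuous.prodMk_left z₀.2).tendsto _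
  have g1 : (fun y => v (y, z₀.2)) =ᶠ[𝓝 z₀.1] fun y => u (y, z₀.2) := t.eventually (e z₀ hz₀)
  have g2 : (fun y => D TT v (y, z₀.2)) =ᶠ[𝓝 z₀.1] fun y => D TT u (y, z₀.2) :=
    t.eventually (D_congr (e z₀ hz₀) TT)
  rw [← (g1.iteratedFDeriv ℝ _).self_of_nhds, ← (g2.iteratedFDeriv ℝ _).self_of_nhds]
  constructor
  · refine (norm_le_of_basis _ hB0 fun n => ?_).trans (le_add_of_nonneg_right (by positivity))
    rw [iteratedFDeriv_slice hv]
    exact h4 _ (by simp) (by simp)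
  · refine (norm_le_of_basis _ hB0' fun n => ?_).trans (le_add_of_nonneg_left (by positivity))
    rw [iteratedFDeriv_slice (hv.D TT)]
    exact h5 _ (by simp)

end Vale.Agent.P218N.C5
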