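import Vale.Agent.P218N.H.Chart
import Vale.Agent.P218N.Defs
import Vale.Agent.P218N.C5.Reg

/-! Geometry of local graphs in a surface; lifting of paths through the projection to a plane. -/

open Set Filter Topology Metric
open scoped RealInnerProductSpace ContDiff

noncomputable section

namespace Vale.Agent.P218N.C5

open Vale.Agent.P218.H313 Vale.Agent.P218N.H

set_option linter.unusedSectionVars false

variable {E : Type*} [NormedAddCommGroup E] [InnerProductSpace ℝ E] [FiniteDimensional ℝ E]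
variable {m : ℕ}

/-- a smooth surface which satisfies the shrinker equation -/
structure IsShr (V : Set E) : Prop where
  surf : Surf V
  eq : ∀ x ∈ V, Hv V x + (1 / 2 : ℝ) • (x - PT V x x) = 0

theorem IsShr.tr_eq {V : Set E} (h : IsShr V) {x : E} (hx : x ∈ V) :
    tr (sff V x) = ⟪nu V x, x⟫ / 2 := by
  have h1 := congrArg (fun v => ⟪nu V x, v⟫) (h.eq x hx)
  simp only [Hv, PT_apply, sub_sub_cancel, inner_add_right, real_inner_smul_right,
    real_inner_self_eq_norm_sq, h.surf.norm_nu hx, inner_zero_right] at h1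
  linarith

theorem _root_.Vale.Agent.P218N.Shr.isShr {w : E3 → ℝ} (h : Shr w) : IsShr {x | w x = 0} := by
  refine ⟨surf_level h.smooth h.ne, fun x hx => ?_⟩
  have h1 := locDef_level h.smooth
  rw [h1.Hv_eq (h.ne x hx) hx, h1.PT_eq (h.ne x hx) hx, h.eq x hx, PW, perp_apply, sub_sub_cancel,
    smul_smul, ← add_smul, real_inner_comm]
  simp only [smul_eq_zero]
  left; ring

theorem _root_.Vale.Agent.P218N.Shr.isClosed {w : E3 → ℝ} (h : Shr w) : IsClosed {x | w x = 0} :=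
  isClosed_eq h.smooth.continuous continuous_const

/-- the normal component of the unit normal -/
def mu (V : Set E) (f : Frame m E) (x : E) : ℝ := ⟪nu V x, f.n⟫

/-- the slope of the tangent plane -/
def sl (V : Set E) (f : Frame m E) (x : E) : Em m := -(mu V f x)⁻¹ • f.π (nu V x)

variable {V : Set E} {f : Frame m E} {p x : E} {u : Em m → ℝ} {y : Em m}

theorem continuousOn_mu_sq (h : Surf V) (f : Frame m E) : ContinuousOn (fun x => mu V f x ^ 2) V := by
  have h1 : ContinuousOn (fun x => 1 - ⟪PT V x f.n, f.n⟫) V :=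
    continuousOn_const.sub ((h.continuousOn_PT.clm_apply continuousOn_const).inner
      continuousOn_const)
  refine h1.congr fun x _ => ?_
  simp only [PT_apply, inner_sub_left, f.inner_nn, real_inner_smul_left, mu]
  ring

theorem nu_eq (h0 : mu V f x ≠ 0) : nu V x = mu V f x • (f.n - f.ι (sl V f x)) := by
  rw [sl, map_smul, f.ι_π, real_inner_comm, ← mu, smul_sub, smul_smul, mul_neg,
    mul_inv_cancel₀ h0, neg_one_smul]
  abel

theorem mu_sq (h : Surf V) (hx : x ∈ V) (h0 : mu V f x ≠ 0) :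
    mu V f x ^ 2 * (1 + ‖sl V f x‖ ^ 2) = 1 := by
  have h1 := h.norm_nu hx
  rw [nu_eq h0, norm_smul] at h1
  rw [← f.norm_N_sq, ← sq_abs, ← Real.norm_eq_abs, ← mul_pow, h1, one_pow]

theorem lt_mu_sq (h : Surf V) (hx : x ∈ V) (h0 : mu V f x ≠ 0) {s : ℝ} :
    (1 + s)⁻¹ ≤ mu V f x ^ 2 ↔ ‖sl V f x‖ ^ 2 ≤ s ∨ 1 + s ≤ 0 := by
  have h1 := mu_sq h hx h0
  have h2 : 0 < mu V f x ^ 2 := by positivity
  rcases le_or_gt (1 + s) 0 with h3 | h3
  · exact ⟨fun _ => Or.inr h3, fun _ => (inv_nonpos.2 h3).trans h2.le⟩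
  · rw [inv_le_iff_one_le_mul₀ h3]
    constructor
    · exact fun h4 => Or.inl (by nlinarith)
    · exact fun h4 => by nlinarith [h4.resolve_right h3.not_ge]

theorem sl_of_eq (h : Surf V) (hx : x ∈ V) (hf : f.n = nu V x) : mu V f x = 1 ∧ sl V f x = 0 := by
  refine ⟨by rw [mu, hf, real_inner_self_eq_norm_sq, h.norm_nu hx, one_pow], ?_⟩
  rw [sl, ← hf, f.π_n, smul_zero]

section graph
variable (hV : Surf V) (hu : ContDiffAt ℝ 2 u y) (hev : ∀ᶠ y' in 𝓝 y, f.gr p u y' ∈ V)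
include hV hu hev

theorem graph_aux : ∃ U, f.gr p u y ∈ U ∧ LocDef V U (dfn V (f.gr p u y)) ∧
    ∀ᶠ y' in 𝓝 y, ∀ v, ⟪grad (dfn V (f.gr p u y)) (f.gr p u y'), f.dgr u y' v⟫ = 0 := by
  obtain ⟨U, h1, h2⟩ := hV.dfn_spec hev.self_of_nhds
  refine ⟨U, h1, h2, ?_⟩
  have hc := (f.hasFDerivAt_gr p (hu.differentiableAt (by simp))).continuousAt
  have h3 : ∀ᶠ y' in 𝓝 y, dfn V (f.gr p u y) (f.gr p u y') = 0 := by
    filter_upwards [hev, hc.eventually (h2.isOpen.mem_nhds h1)] with y' a1 a2 using h2.zero a2 a1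
  filter_upwards [h3.eventually_nhds, hu.eventually (by simp)] with y' a1 a2 v
  have h4 := (h2.smooth.differentiable (by simp) _).hasFDerivAt.comp y'
    (f.hasFDerivAt_gr p (a2.differentiableAt (by simp)))
  have h5 := (hasFDerivAt_const (𝕜 := ℝ) (0 : ℝ) y').congr_of_eventuallyEq a1
  rw [inner_grad]
  exact congrArg (fun L : Em m →L[ℝ] ℝ => L v) (h4.unique h5)

theorem inner_nu_dgr (v : Em m) : ⟪nu V (f.gr p u y), f.dgr u y v⟫ = 0 := by
  obtain ⟨U, -, -, h⟩ := graph_aux hV hu hev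
  rw [nu, nuW, real_inner_smul_left, h.self_of_nhds, mul_zero]

theorem pi_nu_gr : f.π (nu V (f.gr p u y)) = -mu V f (f.gr p u y) • grad u y := by
  refine ext_inner_right ℝ fun v => ?_
  have h := inner_nu_dgr hV hu hev v
  rw [f.dgr_apply, inner_add_right, real_inner_smul_right, real_inner_comm, f.adj, ← mu] at h
  rw [real_inner_smul_left, real_inner_comm]
  linarith

theorem mu_gr_ne : mu V f (f.gr p u y) ≠ 0 := fun h => by
  have h1 := hV.norm_nu hev.self_of_nhds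
  rw [f.decomp (nu V _), pi_nu_gr hV hu hev, real_inner_comm, ← mu, h] at h1
  simp at h1

theorem sl_gr : sl V f (f.gr p u y) = grad u y := by
  rw [sl, pi_nu_gr hV hu hev, smul_smul, neg_mul_neg, inv_mul_cancel₀ (mu_gr_ne hV hu hev),
    one_smul]

theorem sff_gr (v v' : Em m) : ⟪sff V (f.gr p u y) (f.dgr u y v), f.dgr u y v'⟫ =
    -mu V f (f.gr p u y) * fderiv ℝ (fderiv ℝ u) y v v' := by
  obtain ⟨U, h1, h2, h⟩ := graph_aux hV hu hev
  set w := dfn V (f.gr p u y) with hw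
  have h3 : HasFDerivAt (fun y' => grad w (f.gr p u y')) _ y :=
    ((contDiff_grad_top h2.smooth).differentiable (by simp) _).hasFDerivAt.comp y
      (f.hasFDerivAt_gr p (hu.differentiableAt (by simp)))
  have h4 : HasFDerivAt (fun y' => f.dgr u y' v') _ y :=
    (((((hu.fderiv_right (m := 1) (by norm_num)).differentiableAt (by simp)).hasFDerivAt.clm_apply
      (hasFDerivAt_const v' y)).smul_const f.n).const_add (f.ι v'))
  have h5 := (hasFDerivAt_const (𝕜 := ℝ) (0 : ℝ) y).congr_of_eventuallyEq (h.mono fun y' a => a v')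
  have h6 := congrArg (fun L : Em m →L[ℝ] ℝ => L v) ((h3.inner ℝ h4).unique h5)
  simp only [ContinuousLinearMap.comp_apply, ContinuousLinearMap.prod_apply, fderivInnerCLM_apply,
    ContinuousLinearMap.smulRight_apply, _root_.add_apply, ContinuousLinearMap.flip_apply,
    _root_.zero_apply, map_zero, zero_add, real_inner_smul_right] at h6
  rw [sff, ← hw, mu, nu, ← hw, AW, nuW]
  simp only [_root_.smul_apply, ContinuousLinearMap.comp_apply, real_inner_smul_left]
  rw [PW, inner_perp_left, ← PW, PW_of_inner (h.self_of_nhds v), PW_of_inner (h.self_of_nhds v')]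
  linear_combination ‖grad w (f.gr p u y)‖⁻¹ * h6

theorem PT_eq_dgr (v : E) : PT V (f.gr p u y) v = f.dgr u y (f.π (PT V (f.gr p u y) v)) := by
  have h0 := mu_gr_ne hV hu hev
  have h1 := hV.inner_nu_PT hev.self_of_nhds v
  set z := PT V (f.gr p u y) v
  rw [nu_eq h0, real_inner_smul_left, inner_sub_left, f.adj, sl_gr hV hu hev] at h1
  rw [f.dgr_apply, ← sub_eq_zero.1 ((mul_eq_zero.1 h1).resolve_left h0)]
  exact f.decomp z

theorem tr_sff_gr : tr (sff V (f.gr p u y)) = -mu V f (f.gr p u y) *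
    ∑ i, ∑ j, mA (fun i => grad u y i) i j *
      fderiv ℝ (fderiv ℝ u) y (EuclideanSpace.single i 1) (EuclideanSpace.single j 1) := by
  have hx := hev.self_of_nhds
  have h0 := mu_gr_ne hV hu hev
  set x := f.gr p u y with hxd
  have h1 : sff V x = ((sff V x).comp (f.dgr u y)).comp (f.π.comp (PT V x)) := by
    ext1 v
    simp only [ContinuousLinearMap.comp_apply]
    rw [← PT_eq_dgr hV hu hev, hV.sff_PT hx]
  have h2 : tr (sff V x) = tr ((f.π.comp (PT V x)).comp ((sff V x).comp (f.dgr u y))) := by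
    rw [← Frame.tr_comm', ← h1]
  have h3 := mu_sq hV hx h0
  rw [sl_gr hV hu hev, EuclideanSpace.real_norm_sq_eq] at h3
  have h4 : mu V f x ^ 2 = (1 + ∑ k, grad u y k ^ 2)⁻¹ := eq_inv_of_mul_eq_one_left h3
  rw [h2, tr, LinearMap.trace_eq_sum_inner _ (EuclideanSpace.basisFun (Fin m) ℝ), Finset.mul_sum]
  refine Finset.sum_congr rfl fun i _ => ?_
  simp only [ContinuousLinearMap.coe_coe, ContinuousLinearMap.comp_apply,
    EuclideanSpace.basisFun_apply]
  rw [← f.adj, ← PT_symm, PT_eq_dgr hV hu hev, real_inner_comm, sff_gr hV hu hev]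
  congr 1
  have h5 : f.π (PT V x (f.ι (EuclideanSpace.single i 1))) =
      ∑ j, mA (fun i => grad u y i) i j • EuclideanSpace.single j (1 : ℝ) := by
    rw [PT_apply, map_sub, map_smul, f.π_ι, real_inner_comm, f.adj, pi_nu_gr hV hu hev]
    ext j
    simp only [mA, Finset.sum_apply, WithLp.ofLp_sum, WithLp.ofLp_smul, Pi.smul_apply,
      PiLp.single_apply, smul_eq_mul, mul_ite, mul_one, mul_zero, Finset.sum_ite_eq',
      Finset.mem_univ, if_true, PiLp.sub_apply, PiLp.smul_apply,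
      EuclideanSpace.inner_single_left, map_one, one_mul, div_eq_mul_inv, ← h4, eq_comm (a := j)]
    ring
  rw [h5, map_sum]
  simp only [map_smul, smul_eq_mul]

theorem norm_dgr_le {W : ℝ} (hW0 : 0 ≤ W) (hW : 1 + ‖grad u y‖ ^ 2 ≤ W ^ 2) (v : Em m) :
    ‖f.dgr u y v‖ ≤ W * ‖v‖ := by
  refine le_of_sq_le_sq ?_ (by positivity)
  rw [f.dgr_apply, f.norm_sq, mul_pow]
  have h1 := abs_real_inner_le_norm (grad u y) v
  have h2 : ⟪grad u y, v⟫ ^ 2 ≤ (‖grad u y‖ * ‖v‖) ^ 2 := sq_le_sq' (abs_le.1 h1).1 (abs_le.1 h1).2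
  nlinarith [sq_nonneg ‖v‖]

theorem abs_hess_le {W : ℝ} (hW0 : 0 ≤ W) (hW : 1 + ‖grad u y‖ ^ 2 ≤ W ^ 2) (v v' : Em m) :
    |fderiv ℝ (fderiv ℝ u) y v v'| ≤ W ^ 3 * ‖sff V (f.gr p u y)‖ * ‖v‖ * ‖v'‖ := by
  have h1 := mu_sq hV hev.self_of_nhds (mu_gr_ne hV hu hev)
  rw [sl_gr hV hu hev] at h1
  have h2 : 1 ≤ W * |mu V f (f.gr p u y)| := by
    refine le_of_sq_le_sq ?_ (by positivity)
    rw [mul_pow, sq_abs]
    nlinarith [sq_nonneg (mu V f (f.gr p u y))]
  have h3 := abs_real_inner_le_norm (sff V (f.gr p u y) (f.dgr u y v)) (f.dgr u y v')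
  rw [sff_gr hV hu hev, abs_mul, abs_neg] at h3
  have h4 : ‖sff V (f.gr p u y) (f.dgr u y v)‖ * ‖f.dgr u y v'‖ ≤
      ‖sff V (f.gr p u y)‖ * (W * ‖v‖) * (W * ‖v'‖) := by
    gcongr
    · exact (ContinuousLinearMap.le_opNorm _ _).trans
        (mul_le_mul_of_nonneg_left (norm_dgr_le hV hu hev hW0 hW v) (norm_nonneg _))
    · exact norm_dgr_le hV hu hev hW0 hW v'
  calc _ ≤ W * |mu V f (f.gr p u y)| * |fderiv ℝ (fderiv ℝ u) y v v'| :=
        le_mul_of_one_le_left (abs_nonneg _) h2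
    _ ≤ W * (‖sff V (f.gr p u y)‖ * (W * ‖v‖) * (W * ‖v'‖)) := by
        rw [mul_assoc]; exact mul_le_mul_of_nonneg_left (h3.trans h4) hW0
    _ = _ := by ring

end graph

/-- `⟨ν, x⟩` in terms of the slope -/
theorem inner_nu_self (h0 : mu V f x ≠ 0) :
    ⟪nu V x, x⟫ = mu V f x * (⟪f.n, x⟫ - ⟪sl V f x, f.π x⟫) := by
  conv_lhs => rw [nu_eq h0]
  rw [real_inner_smul_left, inner_sub_left, f.adj]

/-- the shrinker equation for a graph over the plane through the origin -/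
theorem IsShr.graph_eq (h : IsShr V) (hu : ContDiffAt ℝ 2 u y)
    (hev : ∀ᶠ y' in 𝓝 y, f.gr 0 u y' ∈ V) :
    ∑ i, ∑ j, mA (fun i => grad u y i) i j *
      fderiv ℝ (fderiv ℝ u) y (EuclideanSpace.single i 1) (EuclideanSpace.single j 1) =
      (fderiv ℝ u y y - u y) / 2 := by
  have h0 := mu_gr_ne h.surf hu hev
  have h1 := h.tr_eq hev.self_of_nhds
  have h2 := f.π_gr 0 u y
  have h3 := f.inner_gr 0 u y
  rw [sub_zero] at h2 h3
  rw [tr_sff_gr h.surf hu hev, inner_nu_self h0, sl_gr h.surf hu hev, h2, h3, inner_grad] at h1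
  refine mul_left_cancel₀ h0 ?_
  linarith

/-! ### charts in absolute coordinates -/

/-- in `N` the set `V` is the graph of `U` over `B` -/
structure Ch (V : Set E) (f : Frame m E) (U : Em m → ℝ) (N : Set E) (B : Set (Em m)) : Prop where
  openN : IsOpen N
  openB : IsOpen B
  smooth : ContDiff ℝ ∞ U
  maps : ∀ x ∈ N, f.π x ∈ B
  eq : ∀ x ∈ N, x ∈ V → f.gr 0 U (f.π x) = x
  mem : ∀ y ∈ B, f.gr 0 U y ∈ V ∧ f.gr 0 U y ∈ N

theorem exists_ch (hV : Surf V) (hx : x ∈ V) (h0 : mu V f x ≠ 0) :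
    ∃ U N B, x ∈ N ∧ Ch V f U N B := by
  obtain ⟨u, r, h, c, -, -⟩ := hV.exists_gchart hx f h0 univ_mem
  have e : ∀ y, f.gr 0 (fun y => ⟪f.n, x⟫ + u (y - f.π x)) y = f.gr x u (y - f.π x) := fun y => by
    simp only [Frame.gr, map_sub, add_smul, zero_add]
    rw [f.ι_π]
    abel
  refine ⟨fun y => ⟪f.n, x⟫ + u (y - f.π x), f.cyl x r h, ball (f.π x) r,
    f.self_mem_cyl x c.r_pos c.h_pos, f.isOpen_cyl x r h, isOpen_ball,
    contDiff_const.add (c.smooth.comp (contDiff_id.sub contDiff_const)), fun z hz => ?_,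
    fun z hz hzV => ?_, fun y hy => ?_⟩
  · rw [mem_ball_iff_norm, ← map_sub]; exact hz.1
  · rw [e, ← map_sub]; exact f.gr_π ((c.mem_iff z hz).1 hzV)
  · rw [e]
    exact ⟨c.gr_mem (mem_ball_iff_norm.1 hy), c.gr_mem_cyl (mem_ball_iff_norm.1 hy)⟩

namespace Ch
variable {U : Em m → ℝ} {N : Set E} {B : Set (Em m)}

theorem two (c : Ch V f U N B) (y : Em m) : ContDiffAt ℝ 2 U y := (contDiff_two c.smooth).contDiffAt

theorem ev (c : Ch V f U N B) (hy : y ∈ B) : ∀ᶠ y' in 𝓝 y, f.gr 0 U y' ∈ V :=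
  (c.openB.eventually_mem hy).mono fun y' h => (c.mem y' h).1

theorem π_gr (_ : Ch V f U N B) (y : Em m) : f.π (f.gr 0 U y) = y := by
  simpa using f.π_gr 0 U y

theorem inner_eq (c : Ch V f U N B) (hN : x ∈ N) (hx : x ∈ V) : ⟪f.n, x⟫ = U (f.π x) := by
  have := f.inner_gr 0 U (f.π x)
  rwa [c.eq x hN hx, sub_zero] at this

theorem sl_eq (c : Ch V f U N B) (hV : Surf V) (hN : x ∈ N) (hx : x ∈ V) :
    sl V f x = grad U (f.π x) := by
  have := sl_gr hV (c.two _) (c.ev (c.maps x hN))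
  rwa [c.eq x hN hx] at this

end Ch

/-! ### lifting -/

section lift
variable {G B : Type*} [TopologicalSpace G] [TopologicalSpace B] [T2Space B] {q : G → B}

/-- Lifting of a path through a local homeomorphism, from an a priori bound. -/
theorem exists_path_lift (hq : IsLocalHomeomorph q) {γ : ℝ → B} (hγ : Continuous γ) {e : G}
    (he : q e = γ 0) {K : Set G} (hK : IsCompact K)
    (h : ∀ s ∈ Icc (0 : ℝ) 1, ∀ g : ℝ → G, ContinuousOn g (Icc 0 s) → g 0 = e →
      (∀ σ ∈ Icc 0 s, q (g σ) = γ σ) → g s ∈ K) :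
    ∃ g : ℝ → G, ContinuousOn g (Icc 0 1) ∧ g 0 = e ∧ ∀ σ ∈ Icc (0 : ℝ) 1, q (g σ) = γ σ := by
  classical
  set S : Set ℝ := {s | s ∈ Icc (0 : ℝ) 1 ∧ ∃ g : ℝ → G, ContinuousOn g (Icc 0 s) ∧ g 0 = e ∧
    ∀ σ ∈ Icc 0 s, q (g σ) = γ σ} with hS
  have h0 : (0 : ℝ) ∈ S := ⟨⟨le_rfl, zero_le_one⟩, fun _ => e, continuousOn_const, rfl,
    fun σ hσ => by rw [le_antisymm hσ.2 hσ.1, he]⟩
  have hb : BddAbove S := ⟨1, fun s hs => hs.1.2⟩
  have hcl : sSup S ∈ closure S := csSup_mem_closure ⟨0, h0⟩ hb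
  set T := sSup S with hT
  have hT0 : 0 ≤ T := le_csSup hb h0
  have : Nonempty G := ⟨e⟩
  choose! g g1 g2 g3 using fun s (hs : s ∈ S) => hs.2
  have := mem_closure_iff_nhdsWithin_neBot.1 hcl
  obtain ⟨e', -, h2⟩ := hK.exists_mapClusterPt (f := 𝓝[S] T) (u := fun s => g s s)
    (le_principal_iff.2 (eventually_mem_nhdsWithin.mono fun s hs =>
      h s hs.1 (g s) (g1 s hs) (g2 s hs) (g3 s hs)))
  have h3 : q e' = γ T := by
    have h4 := h2.continuousAt_comp hq.continuous.continuousAt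
    refine eq_of_nhds_neBot (h4.clusterPt.mono ?_).neBot
    refine Tendsto.congr' ?_ (hγ.continuousAt.tendsto.mono_left nhdsWithin_le_nhds)
    exact eventually_mem_nhdsWithin.mono fun s hs => (g3 s hs s ⟨hs.1.1, le_rfl⟩).symm
  obtain ⟨φ, h4, h5⟩ := hq e'
  have h6 : ∀ᶠ σ in 𝓝 T, γ σ ∈ φ.target := hγ.continuousAt.eventually
    (φ.open_target.mem_nhds (by rw [← h3, h5]; exact φ.map_source h4))
  obtain ⟨η, hη, h7⟩ := Metric.eventually_nhds_iff_ball.1 h6
  obtain ⟨s, h8, hs, h9⟩ := ((h2.frequently (φ.open_source.mem_nhds h4)).and_eventually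
    (eventually_mem_nhdsWithin.and (nhdsWithin_le_nhds (ball_mem_nhds T hη)))).exists
  have hsT : s ≤ T := le_csSup hb hs
  have h10 : ∀ σ ∈ Icc s (min 1 (T + η / 2)), γ σ ∈ φ.target := fun σ hσ => h7 σ (by
    have h11 : T - η < s := by
      have := abs_lt.1 (mem_ball_iff_norm.1 h9)
      linarith [this.1]
    rw [Real.ball_eq_Ioo]
    exact ⟨h11.trans_le hσ.1, by linarith [hσ.2, min_le_right 1 (T + η / 2)]⟩)
  have hs1 : s ≤ min 1 (T + η / 2) := le_min hs.1.2 (by linarith)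
  have h12 : φ.symm (γ s) = g s s := by
    rw [← g3 s hs s ⟨hs.1.1, le_rfl⟩, h5, φ.left_inv h8]
  have h13 : min 1 (T + η / 2) ∈ S := by
    refine ⟨⟨hs.1.1.trans hs1, min_le_left _ _⟩, fun σ => if σ ≤ s then g s σ else φ.symm (γ σ),
      ?_, (if_pos hs.1.1).trans (g2 s hs), fun σ hσ => ?_⟩
    · rw [← Icc_union_Icc_eq_Icc hs.1.1 hs1]
      refine ContinuousOn.union_of_isClosed ((g1 s hs).congr fun σ hσ => if_pos hσ.2)
        ((φ.continuousOn_symm.comp hγ.continuousOn h10).congr fun σ hσ => ?_) isClosed_Icc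
        isClosed_Icc
      split_ifs with h14
      · rw [le_antisymm h14 hσ.1, Function.comp_apply, h12]
      · rfl
    · dsimp only
      split_ifs with h14
      · exact g3 s hs σ ⟨hσ.1, h14⟩
      · rw [h5, φ.right_inv (h10 σ ⟨(not_le.1 h14).le, hσ.2⟩)]
  have h14 : min 1 (T + η / 2) ≤ T := le_csSup hb h13
  rw [min_eq_left (by
    by_contra h15
    rw [min_eq_right (not_le.1 h15).le] at h14
    linarith)] at h13
  exact h13.2

end lift

/-- the part of `V` where the normal is not too tilted -/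
def Gd (V : Set E) (f : Frame m E) (β : ℝ) : Set E := {x | x ∈ V ∧ β < mu V f x ^ 2}

theorem Gd.ne {β : ℝ} (hβ : 0 ≤ β) (hx : x ∈ Gd V f β) : mu V f x ≠ 0 := fun h => by
  have := hx.2
  rw [h] at this
  linarith

theorem isLocalHomeomorph_pi (hV : Surf V) (f : Frame m E) {β : ℝ} (hβ : 0 ≤ β) :
    IsLocalHomeomorph fun x : Gd V f β => f.π x := by
  classical
  refine IsLocalHomeomorph.mk _ fun z => ?_
  obtain ⟨U, N, B, hz, c⟩ := exists_ch hV z.2.1 (Gd.ne hβ z.2)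
  have hc : Continuous (f.gr 0 U) := (f.contDiff_gr 0 c.smooth).continuous
  refine ⟨⟨⟨⟨fun x => f.π x, fun y => if h : f.gr 0 U y ∈ Gd V f β then ⟨_, h⟩ else z,
    {x | x.1 ∈ N}, B ∩ (fun y => mu V f (f.gr 0 U y) ^ 2) ⁻¹' Ioi β, fun x hx => ?_,
    fun y hy => ?_, fun x hx => ?_, fun y hy => ?_⟩,
    (f.π.continuous.comp continuous_subtype_val).continuousOn, ?_⟩,
    c.openN.preimage continuous_subtype_val, ?_⟩, hz, fun _ _ => rfl⟩
  · exact ⟨c.maps _ hx, by simpa [c.eq _ hx x.2.1] using x.2.2⟩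
  · simp only [mem_ofPred_eq]
    rw [dif_pos ⟨(c.mem y hy.1).1, hy.2⟩]
    exact (c.mem y hy.1).2
  · simp only [c.eq _ hx x.2.1]
    rw [dif_pos x.2]
  · rw [dif_pos ⟨(c.mem y hy.1).1, hy.2⟩]
    exact c.π_gr y
  · refine Topology.IsInducing.subtypeVal.continuousOn_iff.2 (hc.continuousOn.congr fun y hy => ?_)
    simp only [Function.comp_apply]
    rw [dif_pos ⟨(c.mem y hy.1).1, hy.2⟩]
  · exact ((continuousOn_mu_sq hV f).comp hc.continuousOn fun y hy =>
      (c.mem y hy).1).isOpen_inter_preimage c.openB isOpen_Ioi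

/-- `g` is a lift of `γ` on `[0, s]` -/
structure Lf (V : Set E) (f : Frame m E) (β : ℝ) (γ : ℝ → Em m) (g : ℝ → E) (s : ℝ) : Prop where
  cont : ContinuousOn g (Icc 0 s)
  mem : ∀ σ ∈ Icc 0 s, g σ ∈ Gd V f β
  eq : ∀ σ ∈ Icc 0 s, f.π (g σ) = γ σ

theorem exists_lf (hV : Surf V) (hc : IsClosed V) {β β' R : ℝ} (hβ : 0 ≤ β) (hβ' : β < β')
    {γ : ℝ → Em m} (hγ : Continuous γ) (hx : x ∈ Gd V f β) (he : f.π x = γ 0)
    (h : ∀ s ∈ Icc (0 : ℝ) 1, ∀ g, Lf V f β γ g s → g 0 = x → ‖g s‖ ≤ R ∧ β' ≤ mu V f (g s) ^ 2) :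
    ∃ g, Lf V f β γ g 1 ∧ g 0 = x := by
  have h1 : IsCompact (V ∩ (fun x => mu V f x ^ 2) ⁻¹' Ici β' ∩ closedBall 0 R) :=
    (isCompact_closedBall 0 R).inter_left
      ((continuousOn_mu_sq hV f).preimage_isClosed_of_isClosed hc isClosed_Ici)
  have h2 := (Topology.IsInducing.subtypeVal (t := Gd V f β)).isCompact_preimage' h1
    (by rw [Subtype.range_coe_subtype]; exact fun z hz => ⟨hz.1.1, hβ'.trans_le hz.1.2⟩)
  obtain ⟨g, g1, g2, g3⟩ := exists_path_lift (isLocalHomeomorph_pi hV f hβ) hγ (e := ⟨x, hx⟩) he h2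
    fun s hs g g1 g2 g3 => by
      have := h s hs (fun σ => g σ) ⟨continuous_subtype_val.comp_continuousOn g1,
        fun σ _ => (g σ).2, g3⟩ (congrArg Subtype.val g2)
      exact ⟨⟨(g s).2.1, this.2⟩, mem_closedBall_zero_iff.2 this.1⟩
  exact ⟨fun σ => g σ, ⟨continuous_subtype_val.comp_continuousOn g1, fun σ _ => (g σ).2, g3⟩,
    congrArg Subtype.val g2⟩

/-- the end points of a family of lifts depend continuously on the parameter -/
theorem continuousOn_lf (hV : Surf V) {β : ℝ} (hβ : 0 ≤ β) {A : Type*} [TopologicalSpace A]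
    {S : Set A} {F : A → ℝ → Em m} (hF : ContinuousOn (fun z : A × ℝ => F z.1 z.2) (S ×ˢ Icc 0 1))
    {g : A → ℝ → E} (hg : ∀ a ∈ S, Lf V f β (F a) (g a) 1) (h0 : ContinuousOn (fun a => g a 0) S) :
    ContinuousOn (fun a => g a 1) S := by
  have h1 : Continuous fun z : unitInterval × S => F z.2 z.1 :=
    hF.comp_continuous (f := fun z : unitInterval × S => ((z.2 : A), (z.1 : ℝ))) (by fun_prop)
      fun z => ⟨z.2.2, z.1.2⟩
  have h2 := (isLocalHomeomorph_pi hV f hβ).continuous_lift (T2Space.isSeparatedMap _) ⟨_, h1⟩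
    (g := fun z : unitInterval × S => ⟨g z.2 z.1, (hg _ z.2.2).mem _ z.1.2⟩)
    (funext fun z => (hg _ z.2.2).eq _ z.1.2)
    (Continuous.subtype_mk (continuousOn_iff_continuous_domRestrict.1 h0) _)
    fun a => Continuous.subtype_mk (continuousOn_iff_continuous_domRestrict.1 (hg _ a.2).cont) _
  exact continuousOn_iff_continuous_domRestrict.2
    (continuous_subtype_val.comp (h2.comp (Continuous.prodMk_right 1)))

end Vale.Agent.P218N.C5
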