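import Vale.Agent.P218N.C5.Path

/-! The graph lemma: a shrinker flow with bounded curvature is a graphical mean curvature flow in a
parabolic cylinder of definite size. -/

open Set Filter Topology Metric
open scoped RealInnerProductSpace ContDiff

noncomputable section

namespace Vale.Agent.P218N.C5

open Vale.Agent.P218.H313 Vale.Agent.P218N.H

/-- the graph function of the flow, from the graph function of the shrinker -/
def mdl (U : Em 2 → ℝ) (q : Em 2) (c : ℝ) (z : Sp 2) : ℝ :=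
  lam z.2 * U ((lam z.2)⁻¹ • (q + z.1)) - c

section model
variable {U : Em 2 → ℝ} {q : Em 2} {c : ℝ} {z : Sp 2}

theorem hasFDerivAt_lam (ht : z.2 < 0) : HasFDerivAt (fun z : Sp 2 => lam z.2)
    ((-(2 * lam z.2)⁻¹) • ContinuousLinearMap.snd ℝ (Em 2) ℝ) z :=
  HasDerivAt.comp_hasFDerivAt (h₂ := lam) (f := Prod.snd) z (hasDerivAt_lam ht) hasFDerivAt_snd

theorem exists_psi (q : Em 2) (ht : z.2 < 0) : ∃ L : Sp 2 →L[ℝ] Em 2,
    HasFDerivAt (fun z : Sp 2 => (lam z.2)⁻¹ • (q + z.1)) L z ∧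
      (∀ v, L (v, 0) = (lam z.2)⁻¹ • v) ∧
      L TT = (2 * lam z.2 ^ 2)⁻¹ • (lam z.2)⁻¹ • (q + z.1) := by
  have h0 := lam_pos ht
  have h1 := HasDerivAt.comp_hasFDerivAt (h₂ := fun x : ℝ => x⁻¹) (f := fun z : Sp 2 => lam z.2) z
    (hasDerivAt_inv h0.ne') (hasFDerivAt_lam ht)
  refine ⟨_, h1.smul ((hasFDerivAt_fst (𝕜 := ℝ) (p := z)).const_add q), fun v => by simp, ?_⟩
  simp only [TT, _root_.add_apply, _root_.smul_apply, ContinuousLinearMap.coe_fst', smul_zero,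
    ContinuousLinearMap.smulRight_apply, ContinuousLinearMap.coe_snd', smul_eq_mul, zero_add,
    smul_smul]
  congr 1
  field_simp

theorem contDiffAt_mdl (hU : ContDiff ℝ ∞ U) (ht : z.2 < 0) : ContDiffAt ℝ ∞ (mdl U q c) z := by
  have h1 : ContDiffAt ℝ ∞ (fun z : Sp 2 => lam z.2) z :=
    ContDiffAt.comp (g := lam) z (contDiffAt_lam ht) contDiffAt_snd
  exact (h1.mul (hU.contDiffAt.comp z ((h1.inv (lam_pos ht).ne').smul
    (contDiffAt_const.add contDiffAt_fst)))).sub contDiffAt_const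

theorem D_mdl (hU : ContDiff ℝ ∞ U) (ht : z.2 < 0) :
    (∀ v, D (v, 0) (mdl U q c) z = fderiv ℝ U ((lam z.2)⁻¹ • (q + z.1)) v) ∧
    D TT (mdl U q c) z = -(2 * lam z.2)⁻¹ * (U ((lam z.2)⁻¹ • (q + z.1)) -
      fderiv ℝ U ((lam z.2)⁻¹ • (q + z.1)) ((lam z.2)⁻¹ • (q + z.1))) := by
  obtain ⟨L, h1, h2, h3⟩ := exists_psi q ht
  have h0 := lam_pos ht
  have h4 : HasFDerivAt (mdl U q c) _ z := ((hasFDerivAt_lam ht).mul
    ((hU.differentiable (by simp) _).hasFDerivAt.comp z h1)).sub_const c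
  refine ⟨fun v => ?_, ?_⟩
  · rw [D, h4.fderiv]
    simp [h2, mul_inv_cancel_left₀ h0.ne']
  · rw [D, h4.fderiv]
    simp only [_root_.add_apply, _root_.smul_apply, ContinuousLinearMap.comp_apply, h3,
      map_smul (fderiv ℝ U _) (2 * lam z.2 ^ 2)⁻¹, smul_eq_mul, Function.comp_apply]
    simp only [TT, ContinuousLinearMap.coe_snd']
    field_simp
    ring

theorem D_D_mdl (hU : ContDiff ℝ ∞ U) (ht : z.2 < 0) (v v' : Em 2) :
    D (v, 0) (D (v', 0) (mdl U q c)) z =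
      (lam z.2)⁻¹ * fderiv ℝ (fderiv ℝ U) ((lam z.2)⁻¹ • (q + z.1)) v v' := by
  obtain ⟨L, h1, h2, -⟩ := exists_psi q ht
  have h3 : D (v', 0) (mdl U q c) =ᶠ[𝓝 z] fun z => D v' U ((lam z.2)⁻¹ • (q + z.1)) :=
    (continuous_snd.continuousAt.eventually (gt_mem_nhds ht)).mono fun z hz => (D_mdl hU hz).1 v'
  have h4 : HasFDerivAt (fun z : Sp 2 => D v' U ((lam z.2)⁻¹ • (q + z.1))) _ z :=
    ((Sm.D hU v').diff _).hasFDerivAt.comp z h1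
  rw [(D_congr h3 _).self_of_nhds, D, h4.fderiv, ContinuousLinearMap.comp_apply, h2, map_smul,
    ← D_D hU]
  rfl

end model

/-- the domain of the graph function -/
def Om (a b : ℝ) : Set (Sp 2) := ball 0 (1 / 32) ×ˢ Ioo a b

theorem isOpen_Om (a b : ℝ) : IsOpen (Om a b) := isOpen_ball.prod isOpen_Ioo

/-- the point of the shrinker which corresponds to `z = (y, t)` -/
def pt (f : Frame 2 E3) (x₁ : E3) (u : Sp 2 → ℝ) (z : Sp 2) : E3 :=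
  (lam z.2)⁻¹ • f.gr x₁ (fun y => u (y, z.2)) z.1

/-- `u` is a graph function of the flow `√(-t) V` -/
structure FG (V : Set E3) (f : Frame 2 E3) (x₁ : E3) (a b : ℝ) (u : Sp 2 → ℝ) : Prop where
  smooth : ContDiffOn ℝ ∞ u (Om a b)
  mem : ∀ z ∈ Om a b, pt f x₁ u z ∈ V
  ne : ∀ z ∈ Om a b, mu V f (pt f x₁ u z) ≠ 0
  pde : Pde mA u (Om a b)
  bd0 : ∀ z ∈ Om a b, |u z| ≤ 7 / 90000 + ‖z.1‖ / 2
  d1 : ∀ z ∈ Om a b, ∀ v, D (v, 0) u z = ⟪sl V f (pt f x₁ u z), v⟫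
  bd1 : ∀ z ∈ Om a b, ‖sl V f (pt f x₁ u z)‖ ≤ 1 / 2
  d2 : ∀ z ∈ Om a b, ∀ v v', ⟪sff V (pt f x₁ u z) (f.ι v + D (v, 0) u z • f.n),
    f.ι v' + D (v', 0) u z • f.n⟫ = -mu V f (pt f x₁ u z) * (lam z.2 * D (v, 0) (D (v', 0) u) z)
  bd2 : ∀ z ∈ Om a b, ∀ v v', |D (v, 0) (D (v', 0) u) z| ≤ 2 * ‖v‖ * ‖v'‖
  bdt : ∀ z ∈ Om a b, |D TT u z| ≤ 6

variable {V : Set E3} {f : Frame 2 E3} {z₁ : E3} {a b t₁ : ℝ}

theorem Su.exists_lift (h : Su V f z₁ a b t₁) : ∃ Φ : Sp 2 → E3, ContinuousOn Φ (Om a b) ∧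
    Φ (0, t₁) = z₁ ∧ ∀ z ∈ Om a b, Φ z ∈ Gd V f (1 / 4) ∧
      f.π (Φ z) = (lam z.2)⁻¹ • (f.π (lam t₁ • z₁) + z.1) ∧ ‖sl V f (Φ z)‖ ≤ 1 / 2 ∧
      ‖sff V (Φ z)‖ ≤ lam z.2 ∧
      |lam z.2 * ⟪f.n, Φ z⟫ - ⟪f.n, lam t₁ • z₁⟫| ≤ 7 / 90000 + ‖z.1‖ / 2 := by
  have hV := h.shr.surf
  have h11 : (1 : ℝ) ∈ Icc (0 : ℝ) 1 := ⟨zero_le_one, le_rfl⟩
  choose! g g1 g2 using fun t (ht : t ∈ Ioo a b) => h.exists_time ht
  have e1 : ∀ t, t₁ + 1 * (t - t₁) = t := fun t => by ring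
  have c1 : ContinuousOn (fun t => g t 1) (Ioo a b) := by
    refine continuousOn_lf hV (by norm_num) ?_ g1 (continuousOn_const.congr g2)
    exact (h.continuousOn_inv.comp (f := fun z : ℝ × ℝ => t₁ + z.2 * (z.1 - t₁)) (by fun_prop)
      fun z hz => h.seg hz.1 hz.2).smul continuousOn_const
  have p1 : ∀ t ∈ Ioo a b, f.π (g t 1) = (lam t)⁻¹ • f.π (lam t₁ • z₁) := fun t ht => by
    simpa only [e1] using (g1 t ht).eq 1 h11
  have p2 : ∀ t ∈ Ioo a b, |lam t * ⟪f.n, g t 1⟫ - ⟪f.n, lam t₁ • z₁⟫| ≤ 7 / 90000 := fun t ht => by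
    simpa only [e1] using h.height ht (by norm_num) le_rfl (g1 t ht) (g2 t ht) h11
  have p3 : ∀ t ∈ Ioo a b, ‖sl V f (g t 1)‖ ≤ 1 / 8 := fun t ht => h.tilt ht h11 (g1 t ht) (g2 t ht)
  have p3' : ∀ t ∈ Ioo a b, ‖sl V f (g t 1)‖ ≤ 1 / 4 := fun t ht => by linarith [p3 t ht]
  have n1 : ∀ z ∈ Om a b, ‖z.1‖ ≤ 1 / 32 := fun z hz => (mem_ball_zero_iff.1 hz.1).le
  have cA : ∀ z ∈ Om a b, ∀ x ∈ V, ‖x - g z.2 1‖ ≤ 3 * ‖(lam z.2)⁻¹ • z.1‖ →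
      ‖sff V x‖ ≤ lam z.2 := fun z hz x hx hd => h.curv _ hz.2 x hx (h.curv' hz.2
    (by linarith [h.norm_eq hz.2 (p1 _ hz.2), p2 _ hz.2]) (n1 z hz) x hd)
  have n2 : ∀ z ∈ Om a b, lam z.2 * ‖(lam z.2)⁻¹ • z.1‖ ≤ 1 / 32 := fun z hz =>
    (h.mul_norm hz.2 z.1).trans_le (n1 z hz)
  choose! R R1 R2 using fun z (hz : z ∈ Om a b) => exists_ray hV h.closed ((g1 _ hz.2).mem 1 h11).1
    (Gd.ne (by norm_num) ((g1 _ hz.2).mem 1 h11)) (p3' _ hz.2) (n2 z hz) (cA z hz)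
  have c2 : ContinuousOn (fun z : Sp 2 => g z.2 1) (Om a b) :=
    c1.comp continuousOn_snd fun z hz => hz.2
  refine ⟨fun z => R z 1, continuousOn_lf hV (by norm_num) ?_ R1 (c2.congr R2), ?_,
    fun z hz => ?_⟩
  · exact ((f.π.continuous.comp_continuousOn c2).comp continuousOn_fst fun z hz => hz.1).add
      (continuousOn_snd.smul ((h.continuousOn_inv.comp continuousOn_fst.snd fun z hz =>
        hz.1.2).smul continuousOn_fst.fst))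
  · have hz : ((0, t₁) : Sp 2) ∈ Om a b := ⟨mem_ball_self (by norm_num), h.time⟩
    have h1 := (ray_est hV (cA _ hz) le_rfl (R1 _ hz) (R2 _ hz) h11).1
    simp only [smul_zero, norm_zero, mul_zero, norm_le_zero_iff, sub_eq_zero] at h1
    have h2 : ∀ σ ∈ Icc (0 : ℝ) 1, ‖g t₁ σ - z₁‖ ≤ 3 * ‖(0 : Em 2)‖ := fun σ hσ => by
      have hc : ContinuousOn (g t₁) (Icc 0 1) := (g1 _ h.time).cont
      refine (ray_est hV (κ := lam t₁) (fun x hx hd => h.curv _ h.time x hx ?_) le_rfl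
        ⟨hc, fun σ hσ => Gd.mono (by norm_num) ((g1 _ h.time).mem σ hσ), fun σ hσ => ?_⟩
        (g2 _ h.time) hσ).1
      · simp only [norm_zero, mul_zero, norm_le_zero_iff, sub_eq_zero] at hd
        simp [hd]
      · rw [(g1 _ h.time).eq σ hσ]
        simp [inv_smul_smul₀ (h.pos h.time).ne']
    have h3 := h2 1 h11
    simp only [norm_zero, mul_zero, norm_le_zero_iff, sub_eq_zero] at h3
    exact h1.trans h3
  · obtain ⟨r1, -, r3⟩ := ray_est hV (cA z hz) le_rfl (R1 z hz) (R2 z hz) h11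
    refine ⟨(R1 z hz).mem 1 h11, by rw [(R1 z hz).eq 1 h11, p1 _ hz.2, one_smul, smul_add],
      ray_sl hV (p3' _ hz.2) (n2 z hz) (cA z hz) le_rfl (R1 z hz) (R2 z hz) h11,
      cA z hz _ ((R1 z hz).mem 1 h11).1 r1, ?_⟩
    have h0 := h.pos hz.2
    have h2 := mul_le_mul_of_nonneg_left r3 h0.le
    have h3 := h.mul_norm hz.2 z.1
    rw [← abs_of_pos h0, ← abs_mul, abs_of_pos h0, one_mul, real_inner_smul_right, mul_sub, mul_sub,
      mul_inv_cancel_left₀ h0.ne'] at h2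
    have h4 : lam z.2 * (8 * lam z.2 * ‖(lam z.2)⁻¹ • z.1‖ * ‖(lam z.2)⁻¹ • z.1‖) =
        8 * ‖z.1‖ * ‖z.1‖ := by
      conv_rhs => rw [← h3]
      ring
    have h5 := _root_.abs_le.1 ((abs_real_inner_le_norm (sl V f (g z.2 1)) z.1).trans
      (mul_le_mul_of_nonneg_right (p3 _ hz.2) (norm_nonneg _)))
    have h6 := _root_.abs_le.1 (h2.trans_eq h4)
    have h7 := _root_.abs_le.1 (p2 _ hz.2)
    have h8 : 8 * ‖z.1‖ * ‖z.1‖ ≤ 8 * (1 / 32) * ‖z.1‖ := by gcongr; exact n1 z hz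
    have h9 := norm_nonneg z.1
    rw [_root_.abs_le]
    constructor <;> linarith [h5.1, h5.2, h6.1, h6.2, h7.1, h7.2]

/-- **The graph lemma.** -/
theorem Su.exists_fg (h : Su V f z₁ a b t₁) :
    ∃ u, FG V f (lam t₁ • z₁) a b u ∧ u (0, t₁) = 0 ∧ pt f (lam t₁ • z₁) u (0, t₁) = z₁ := by
  have hV := h.shr.surf
  obtain ⟨Φ, c1, c2, c3⟩ := h.exists_lift
  set x₁ := lam t₁ • z₁ with hx₁
  set u : Sp 2 → ℝ := fun z => lam z.2 * ⟪f.n, Φ z⟫ - ⟪f.n, x₁⟫ with hu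
  have e1 : ∀ z ∈ Om a b, pt f x₁ u z = Φ z := fun z hz => by
    have h0 := (h.pos hz.2).ne'
    rw [pt, inv_smul_eq_iff₀ h0, f.decomp (lam z.2 • Φ z), map_smul, (c3 z hz).2.1,
      smul_inv_smul₀ h0, map_add, f.ι_π, Frame.gr, real_inner_smul_right f.n (Φ z)]
    simp only [hu, sub_smul]
    abel
  have loc : ∀ z ∈ Om a b, ∃ U, ContDiff ℝ ∞ U ∧ u =ᶠ[𝓝 z] mdl U (f.π x₁) ⟪f.n, x₁⟫ ∧
      f.gr 0 U ((lam z.2)⁻¹ • (f.π x₁ + z.1)) = Φ z ∧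
      ∀ᶠ y in 𝓝 ((lam z.2)⁻¹ • (f.π x₁ + z.1)), f.gr 0 U y ∈ V := fun z hz => by
    obtain ⟨U, N, B, hN, c⟩ := exists_ch hV (c3 z hz).1.1 (Gd.ne (by norm_num) (c3 z hz).1)
    have h1 := (isOpen_Om a b).mem_nhds hz
    refine ⟨U, c.smooth, ?_, (c3 z hz).2.1 ▸ c.eq _ hN (c3 z hz).1.1,
      (c3 z hz).2.1 ▸ c.ev (c.maps _ hN)⟩
    filter_upwards [h1, (c1.continuousAt h1).eventually (c.openN.mem_nhds hN)] with w hw hw'
    rw [mdl, ← (c3 w hw).2.1, ← c.inner_eq hw' (c3 w hw).1.1]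
  have neg : ∀ z ∈ Om a b, z.2 < 0 := fun z hz => hz.2.2.trans_le h.neg
  have key : ∀ z ∈ Om a b, ∃ U Y, ContDiff ℝ ∞ U ∧ f.gr 0 U Y = Φ z ∧
      (∀ᶠ y in 𝓝 Y, f.gr 0 U y ∈ V) ∧ (∀ v, D (v, 0) u z = fderiv ℝ U Y v) ∧
      D TT u z = -(2 * lam z.2)⁻¹ * (U Y - fderiv ℝ U Y Y) ∧
      ∀ v v', D (v, 0) (D (v', 0) u) z = (lam z.2)⁻¹ * fderiv ℝ (fderiv ℝ U) Y v v' := fun z hz => by
    obtain ⟨U, h1, h2, h3, h4⟩ := loc z hz
    exact ⟨U, _, h1, h3, h4, fun v => (D_congr h2 _).self_of_nhds.trans ((D_mdl h1 (neg z hz)).1 v),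
      (D_congr h2 _).self_of_nhds.trans (D_mdl h1 (neg z hz)).2,
      fun v v' => (D_congr (D_congr h2 _) _).self_of_nhds.trans (D_D_mdl h1 (neg z hz) v v')⟩
  have hz₀ : ((0, t₁) : Sp 2) ∈ Om a b := ⟨mem_ball_self (by norm_num), h.time⟩
  refine ⟨u, ⟨fun z hz => ?_, fun z hz => (e1 z hz).symm ▸ (c3 z hz).1.1,
    fun z hz => (e1 z hz).symm ▸ Gd.ne (by norm_num) (c3 z hz).1, fun z hz => ?_,
    fun z hz => (c3 z hz).2.2.2.2, fun z hz v => ?_, fun z hz => (e1 z hz).symm ▸ (c3 z hz).2.2.1,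
    fun z hz v v' => ?_, fun z hz v v' => ?_, fun z hz => ?_⟩, ?_, (e1 _ hz₀).trans c2⟩
  · obtain ⟨U, h1, h2, -⟩ := loc z hz
    exact ((contDiffAt_mdl h1 (neg z hz)).congr_of_eventuallyEq h2).contDiffWithinAt
  · obtain ⟨U, Y, h1, -, h3, h4, h5, h6⟩ := key z hz
    have h7 := h.shr.graph_eq (contDiff_two h1).contDiffAt h3
    have h8 : gd u z = fun i => grad U Y i := funext fun i => by
      rw [gd, ee, h4, ← inner_grad, EuclideanSpace.inner_single_right]; simp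
    simp only [ee, h5, h6, h8, mul_left_comm _ (lam z.2)⁻¹, ← Finset.mul_sum, h7]
    ring
  · obtain ⟨U, Y, h1, h2, h3, h4, -⟩ := key z hz
    rw [e1 z hz, ← h2, sl_gr hV (contDiff_two h1).contDiffAt h3, inner_grad, h4]
  · obtain ⟨U, Y, h1, h2, h3, h4, -, h6⟩ := key z hz
    rw [e1 z hz, ← h2, h6, mul_inv_cancel_left₀ (h.pos hz.2).ne', h4, h4,
      ← sff_gr hV (contDiff_two h1).contDiffAt h3]
    rfl
  · obtain ⟨U, Y, h1, h2, h3, -, -, h6⟩ := key z hz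
    have h7 := (c3 z hz).2.2.1
    rw [← h2, sl_gr hV (contDiff_two h1).contDiffAt h3] at h7
    have h8 := abs_hess_le hV (contDiff_two h1).contDiffAt h3 (W := 9 / 8) (by norm_num)
      (by nlinarith [norm_nonneg (grad U Y)]) v v'
    have h0 := h.pos hz.2
    rw [h2] at h8
    rw [h6, abs_mul, abs_of_pos (inv_pos.2 h0), inv_mul_le_iff₀ h0]
    refine h8.trans ?_
    calc _ ≤ 2 * lam z.2 * ‖v‖ * ‖v'‖ := by
          gcongr
          · norm_num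
          · exact (c3 z hz).2.2.2.1
      _ = _ := by ring
  · obtain ⟨U, Y, h1, h2, h3, -, h5, -⟩ := key z hz
    have h7 := abs_ht_le h.shr (c3 z hz).1.1 (c3 z hz).1.2.le
    have h8 := f.π_gr 0 U Y
    have h9 := f.inner_gr 0 U Y
    have h10 := sl_gr hV (contDiff_two h1).contDiffAt h3
    rw [h2] at h10
    rw [h2, sub_zero] at h8 h9
    have h0 := h.pos hz.2
    rw [h8, h9, h10, inner_grad] at h7
    rw [h5, abs_mul, abs_neg, abs_of_pos (by positivity), inv_mul_le_iff₀ (by positivity)]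
    linarith [(c3 z hz).2.2.2.1]
  · simp [hu, c2, hx₁, real_inner_smul_right]

namespace FG
variable {x₁ : E3} {u : Sp 2 → ℝ}

theorem abs_D_le (h : FG V f x₁ a b u) {z : Sp 2} (hz : z ∈ Om a b) (v : Em 2) :
    |D (v, 0) u z| ≤ 1 / 2 * ‖v‖ := by
  rw [h.d1 z hz]
  exact (abs_real_inner_le_norm _ _).trans (mul_le_mul_of_nonneg_right (h.bd1 z hz) (norm_nonneg _))

theorem contDiffAt_slice (h : FG V f x₁ a b u) {y : Em 2} {t : ℝ} (hz : (y, t) ∈ Om a b) :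
    ContDiffAt ℝ ∞ (fun y => u (y, t)) y :=
  (h.smooth.contDiffAt ((isOpen_Om a b).mem_nhds hz)).comp y (contDiff_prodMk_left t).contDiffAt

theorem grad_slice (h : FG V f x₁ a b u) {y : Em 2} {t : ℝ} (hz : (y, t) ∈ Om a b) :
    grad (fun y => u (y, t)) y = sl V f (pt f x₁ u (y, t)) :=
  grad_unique fun v => (fderiv_slice ((h.smooth.contDiffAt
    ((isOpen_Om a b).mem_nhds hz)).differentiableAt (by simp)) v).trans (h.d1 _ hz v)

end FG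

/-- **Estimates of all derivatives** of the graph function. -/
theorem fg_est (k : ℕ) {θ : ℝ} (hθ : 0 < θ) (hθ' : θ < 1 / 64) :
    ∃ B, 0 ≤ B ∧ ∀ (V : Set E3) (f : Frame 2 E3) (x₁ : E3) (a b : ℝ) (u : Sp 2 → ℝ),
      FG V f x₁ a b u → ∀ (y : Em 2) (t : ℝ), ‖y‖ ≤ 1 / 64 → a + θ ^ 2 < t → t < b →
        ‖iteratedFDeriv ℝ k (fun y => u (y, t)) y‖ ≤ B ∧
          ‖iteratedFDeriv ℝ k (fun y => D TT u (y, t)) y‖ ≤ B := by
  obtain ⟨B, hB0, hB⟩ := mcf_est 2 k zero_le_two hθ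
  obtain ⟨B', hB0', hB'⟩ := mcf_est 2 (k - 1) zero_le_two hθ
  refine ⟨B + B' + 1, by positivity, fun V f x₁ a b u h y t hy h1 h2 => ?_⟩
  have hs : Cyl (y, t) θ ⊆ Om a b := fun z hz => by
    refine ⟨mem_ball_zero_iff.2 ?_, ?_, hz.2.2.trans_lt h2⟩
    · linarith [mem_closedBall_iff_norm.1 hz.1, norm_le_insert' z.1 y]
    · linarith [hz.2.1]
  have hb : ∀ z ∈ Cyl (y, t) θ, (∀ i, |D (ee i) u z| ≤ 2) ∧
      ∀ i j, |D (ee i) (D (ee j) u) z| ≤ 2 := fun z hz =>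
    ⟨fun i => (h.abs_D_le (hs hz) _).trans (by simp; norm_num),
      fun i j => (h.bd2 z (hs hz) _ _).trans (by simp)⟩
  refine ⟨?_, (hB u _ (y, t) (isOpen_Om a b) h.smooth h.pde hs hb).2.trans (by linarith)⟩
  rcases k with _ | k
  · rw [norm_iteratedFDeriv_zero, Real.norm_eq_abs]
    linarith [h.bd0 _ (hs (self_mem_Cyl _ hθ.le))]
  · exact (hB' u _ (y, t) (isOpen_Om a b) h.smooth h.pde hs hb).1.trans (by linarith)

end Vale.Agent.P218N.C5
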