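import Vale.Agent.P218N.C5.Geo

/-! A priori estimates along lifted paths: spatial rays and the time direction. -/

open Set Filter Topology Metric
open scoped RealInnerProductSpace ContDiff

noncomputable section

namespace Vale.Agent.P218N.C5

open Vale.Agent.P218.H313 Vale.Agent.P218N.H

set_option linter.unusedSectionVars false

section gen
variable {E : Type*} [NormedAddCommGroup E] [InnerProductSpace ℝ E] [FiniteDimensional ℝ E]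
variable {m : ℕ} {V : Set E} {f : Frame m E} {x z : E} {β s σ : ℝ} {γ : ℝ → Em m} {g : ℝ → E}

theorem Gd.sl_sq_lt (hV : Surf V) {b : ℝ} (hb : 0 ≤ b) (hx : x ∈ Gd V f (1 + b)⁻¹) :
    ‖sl V f x‖ ^ 2 < b := by
  have h1 := mu_sq hV hx.1 (Gd.ne (by positivity) hx)
  have h2 := hx.2
  rw [inv_lt_iff_one_lt_mul₀ (by positivity)] at h2
  nlinarith [sq_nonneg (mu V f x)]

theorem le_mu_sq (hV : Surf V) (hx : x ∈ V) (h0 : mu V f x ≠ 0) {b : ℝ} (h : ‖sl V f x‖ ≤ b) :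
    (1 + b ^ 2)⁻¹ ≤ mu V f x ^ 2 :=
  (lt_mu_sq hV hx h0).2 (Or.inl (by gcongr))

theorem Gd.mono {β' : ℝ} (h : β' ≤ β) (hx : x ∈ Gd V f β) : x ∈ Gd V f β' := ⟨hx.1, h.trans_lt hx.2⟩

theorem Lf.mono (h : Lf V f β γ g s) {s' : ℝ} (hs : s' ≤ s) : Lf V f β γ g s' :=
  ⟨h.cont.mono (Icc_subset_Icc_right hs), fun σ hσ => h.mem σ (Icc_subset_Icc_right hs hσ),
    fun σ hσ => h.eq σ (Icc_subset_Icc_right hs hσ)⟩

theorem Lf.hasDeriv (hV : Surf V) (hβ : 0 ≤ β) (h : Lf V f β γ g s) (hσ : σ ∈ Icc 0 s) {γ' : Em m}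
    (hγ : HasDerivAt γ γ' σ) :
    HasDerivWithinAt (fun σ => ⟪f.n, g σ⟫) ⟪sl V f (g σ), γ'⟫ (Icc 0 s) σ ∧
      ∃ d, HasDerivWithinAt (fun σ => sl V f (g σ)) d (Icc 0 s) σ ∧ ∀ W : ℝ, 0 ≤ W →
        1 + ‖sl V f (g σ)‖ ^ 2 ≤ W ^ 2 → ‖d‖ ≤ W ^ 3 * ‖sff V (g σ)‖ * ‖γ'‖ := by
  obtain ⟨U, N, B, hN, c⟩ := exists_ch hV (h.mem σ hσ).1 (Gd.ne hβ (h.mem σ hσ))
  have h1 : ∀ᶠ τ in 𝓝[Icc 0 s] σ, g τ ∈ N ∧ τ ∈ Icc 0 s :=
    Eventually.and ((h.cont σ hσ).eventually (c.openN.mem_nhds hN)) self_mem_nhdsWithin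
  have h2 := c.sl_eq hV hN (h.mem σ hσ).1
  have h3 := c.eq _ hN (h.mem σ hσ).1
  have h4 := c.ev (c.maps _ hN)
  rw [h.eq σ hσ] at h2 h3 h4
  refine ⟨?_, fderiv ℝ (grad U) (γ σ) γ', ?_, fun W hW0 hW => ?_⟩
  · rw [h2, inner_grad]
    refine ((c.smooth.differentiable (by simp) _).hasFDerivAt.comp_hasDerivAt σ
      hγ).hasDerivWithinAt.congr_of_eventuallyEq_of_mem (h1.mono fun τ hτ => ?_) hσ
    rw [Function.comp_apply, ← h.eq τ hτ.2]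
    exact c.inner_eq hτ.1 (h.mem τ hτ.2).1
  · refine (((contDiff_grad_top c.smooth).differentiable (by simp) _).hasFDerivAt.comp_hasDerivAt σ
      hγ).hasDerivWithinAt.congr_of_eventuallyEq_of_mem (h1.mono fun τ hτ => ?_) hσ
    rw [Function.comp_apply, ← h.eq τ hτ.2]
    exact c.sl_eq hV hτ.1 (h.mem τ hτ.2).1
  · rw [h2] at hW
    have h5 := abs_hess_le hV (c.two _) h4 hW0 hW γ' (fderiv ℝ (grad U) (γ σ) γ')
    rw [h3, ← inner_fderiv_grad (contDiff_two c.smooth), real_inner_self_eq_norm_mul_norm,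
      abs_of_nonneg (by positivity)] at h5
    rcases (norm_nonneg (fderiv ℝ (grad U) (γ σ) γ')).eq_or_lt with h6 | h6
    · rw [← h6]; positivity
    · exact le_of_mul_le_mul_right h5 h6

theorem norm_le_pi_add (f : Frame m E) (v : E) : ‖v‖ ≤ ‖f.π v‖ + |⟪f.n, v⟫| := by
  conv_lhs => rw [f.decomp v]
  refine (norm_add_le _ _).trans_eq ?_
  rw [f.norm_ι, norm_smul, f.norm_n, mul_one, Real.norm_eq_abs]

theorem hasDerivAt_ray (a y : Em m) (σ : ℝ) : HasDerivAt (fun σ : ℝ => a + σ • y) y σ := by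
  simpa using ((hasDerivAt_id σ).smul_const y).const_add a

/-- estimates along a lifted ray -/
theorem ray_est (hV : Surf V) {κ : ℝ} {y : Em m}
    (hA : ∀ x ∈ V, ‖x - z‖ ≤ 3 * ‖y‖ → ‖sff V x‖ ≤ κ) (hs : s ≤ 1)
    (h : Lf V f (1 / 4) (fun σ => f.π z + σ • y) g s) (h0 : g 0 = z) (hσ : σ ∈ Icc 0 s) :
    ‖g σ - z‖ ≤ 3 * ‖y‖ ∧ ‖sl V f (g σ) - sl V f z‖ ≤ 8 * κ * ‖y‖ ∧
      |⟪f.n, g σ⟫ - ⟪f.n, z⟫ - σ * ⟪sl V f z, y⟫| ≤ 8 * κ * ‖y‖ * ‖y‖ := by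
  have d := fun τ hτ => h.hasDeriv (σ := τ) hV (by norm_num) hτ (hasDerivAt_ray _ y τ)
  have b1 : ∀ τ ∈ Icc 0 s, ‖sl V f (g τ)‖ ^ 2 < 3 := fun τ hτ =>
    Gd.sl_sq_lt hV (by norm_num) (Gd.mono (by norm_num) (h.mem τ hτ))
  have m1 : ∀ {C τ : ℝ}, 0 ≤ C → τ ∈ Icc 0 s → C * (τ - 0) ≤ C := fun hC hτ =>
    mul_le_of_le_one_right hC (by linarith [hτ.2])
  have b2 : ∀ τ ∈ Icc 0 s, ‖g τ - z‖ ≤ 3 * ‖y‖ := fun τ hτ => by
    have h1 := norm_image_sub_le_of_norm_deriv_le_segment' (C := 2 * ‖y‖) (fun τ hτ => (d τ hτ).1)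
      (fun τ hτ => (norm_inner_le_norm _ _).trans (mul_le_mul_of_nonneg_right
        (le_of_sq_le_sq (by linarith [b1 τ (Ico_subset_Icc_self hτ)]) zero_le_two)
        (norm_nonneg _))) τ hτ
    have h2 := norm_le_pi_add f (g τ - z)
    rw [map_sub, h.eq τ hτ, add_sub_cancel_left, norm_smul, Real.norm_of_nonneg hτ.1,
      inner_sub_right] at h2
    rw [h0, Real.norm_eq_abs] at h1
    linarith [m1 (by positivity : 0 ≤ 2 * ‖y‖) hτ,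
      mul_le_of_le_one_left (norm_nonneg y) (hτ.2.trans hs)]
  have hκ : 0 ≤ κ := (norm_nonneg _).trans (hA _ (h.mem σ hσ).1 (b2 σ hσ))
  have b3 : ∀ τ ∈ Icc 0 s, ‖sl V f (g τ) - sl V f z‖ ≤ 8 * κ * ‖y‖ := fun τ hτ => by
    choose! dd d1 d2 using fun τ hτ => (d τ hτ).2
    have h1 := norm_image_sub_le_of_norm_deriv_le_segment' (C := 8 * κ * ‖y‖) d1
      (fun τ hτ => (d2 τ (Ico_subset_Icc_self hτ) 2 zero_le_two
        (by linarith [b1 τ (Ico_subset_Icc_self hτ)])).trans (by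
          have := hA _ (h.mem τ (Ico_subset_Icc_self hτ)).1 (b2 τ (Ico_subset_Icc_self hτ))
          norm_num
          gcongr)) τ hτ
    rw [h0] at h1
    exact h1.trans (m1 (by positivity) hτ)
  refine ⟨b2 σ hσ, b3 σ hσ, ?_⟩
  have h1 := norm_image_sub_le_of_norm_deriv_le_segment' (C := 8 * κ * ‖y‖ * ‖y‖)
    (f := fun τ => ⟪f.n, g τ⟫ - τ * ⟪sl V f z, y⟫)
    (fun τ hτ => (d τ hτ).1.sub ((hasDerivAt_id τ).mul_const _).hasDerivWithinAt)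
    (fun τ hτ => by
      rw [one_mul, ← inner_sub_left]
      exact (norm_inner_le_norm _ _).trans (mul_le_mul_of_nonneg_right
        (b3 τ (Ico_subset_Icc_self hτ)) (norm_nonneg _))) σ hσ
  rw [h0, zero_mul, sub_zero, Real.norm_eq_abs, sub_right_comm] at h1
  exact h1.trans (m1 (by positivity) hσ)

theorem ray_sl (hV : Surf V) {κ : ℝ} {y : Em m} (hz : ‖sl V f z‖ ≤ 1 / 4) (hy : κ * ‖y‖ ≤ 1 / 32)
    (hA : ∀ x ∈ V, ‖x - z‖ ≤ 3 * ‖y‖ → ‖sff V x‖ ≤ κ) (hs : s ≤ 1)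
    (h : Lf V f (1 / 4) (fun σ => f.π z + σ • y) g s) (h0 : g 0 = z) (hσ : σ ∈ Icc 0 s) :
    ‖sl V f (g σ)‖ ≤ 1 / 2 := by
  linarith [(ray_est hV hA hs h h0 hσ).2.1, norm_le_insert' (sl V f (g σ)) (sl V f z)]

theorem exists_ray (hV : Surf V) (hc : IsClosed V) {κ : ℝ} {y : Em m} (hzV : z ∈ V)
    (h0 : mu V f z ≠ 0) (hz : ‖sl V f z‖ ≤ 1 / 4) (hy : κ * ‖y‖ ≤ 1 / 32)
    (hA : ∀ x ∈ V, ‖x - z‖ ≤ 3 * ‖y‖ → ‖sff V x‖ ≤ κ) :
    ∃ g, Lf V f (1 / 4) (fun σ => f.π z + σ • y) g 1 ∧ g 0 = z := by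
  refine exists_lf hV hc (β' := (1 + (1 / 2) ^ 2)⁻¹) (R := ‖z‖ + 3 * ‖y‖) (by norm_num)
    (by norm_num) (by fun_prop) ⟨hzV, lt_of_lt_of_le (by norm_num) (le_mu_sq hV hzV h0 hz)⟩
    (by simp) fun s hs g h h1 => ⟨?_, ?_⟩
  · linarith [(ray_est hV hA hs.2 h h1 ⟨hs.1, le_rfl⟩).1, norm_le_insert' (g s) z]
  · have h2 := h.mem s ⟨hs.1, le_rfl⟩
    exact le_mu_sq hV h2.1 (Gd.ne (by norm_num) h2) (ray_sl hV hz hy hA hs.2 h h1 ⟨hs.1, le_rfl⟩)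

end gen

/-- `√(-t)` -/
def lam (t : ℝ) : ℝ := √(-t)

theorem lam_pos {t : ℝ} (ht : t < 0) : 0 < lam t := Real.sqrt_pos.2 (neg_pos.2 ht)

theorem lam_sq {t : ℝ} (ht : t ≤ 0) : lam t ^ 2 = -t := Real.sq_sqrt (neg_nonneg.2 ht)

theorem continuous_lam : Continuous lam := Real.continuous_sqrt.comp continuous_neg

theorem hasDerivAt_lam {t : ℝ} (ht : t < 0) : HasDerivAt lam (-(2 * lam t)⁻¹) t := by
  have := (hasDerivAt_neg t).sqrt (neg_pos.2 ht).ne'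
  rwa [neg_div, one_div] at this

theorem contDiffAt_lam {t : ℝ} (ht : t < 0) : ContDiffAt ℝ ∞ lam t :=
  contDiff_neg.contDiffAt.sqrt (neg_pos.2 ht).ne'

variable {V : Set E3} {f : Frame 2 E3} {z₁ : E3} {a b t₁ t β s σ : ℝ} {g : ℝ → E3}

theorem abs_ht_le (hV : IsShr V) {x : E3} (hx : x ∈ V) (hm : 1 / 4 ≤ mu V f x ^ 2) :
    |⟪f.n, x⟫ - ⟪sl V f x, f.π x⟫| ≤ 12 * ‖sff V x‖ := by
  have h0 : mu V f x ≠ 0 := fun h => by rw [h] at hm; norm_num at hm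
  have h1 := abs_tr_le (sff V x)
  rw [hV.tr_eq hx, inner_nu_self h0, finrank_euclideanSpace_fin, abs_div, abs_mul, abs_two] at h1
  have h2 : 1 / 2 ≤ |mu V f x| := le_of_sq_le_sq (by rw [sq_abs]; linarith) (abs_nonneg _)
  push_cast at h1
  nlinarith [abs_nonneg (⟪f.n, x⟫ - ⟪sl V f x, f.π x⟫)]

/-- the time derivative of the height -/
theorem time_deriv (hV : IsShr V) (hβ : 1 / 4 ≤ β) {q : Em 2} {Δ : ℝ}
    (h : Lf V f β (fun σ => (lam (t₁ + σ * Δ))⁻¹ • q) g s) (hσ : σ ∈ Icc 0 s)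
    (ht : t₁ + σ * Δ < 0) :
    ∃ d, HasDerivWithinAt (fun σ => lam (t₁ + σ * Δ) * ⟪f.n, g σ⟫) d (Icc 0 s) σ ∧
      (‖sff V (g σ)‖ ≤ lam (t₁ + σ * Δ) → |d| ≤ 6 * |Δ|) := by
  have h0 := lam_pos ht
  have h1 : HasDerivAt (fun σ => lam (t₁ + σ * Δ)) (-(2 * lam (t₁ + σ * Δ))⁻¹ * (1 * Δ)) σ :=
    HasDerivAt.comp (h₂ := lam) (h := fun σ => t₁ + σ * Δ) σ (hasDerivAt_lam ht)
      (((hasDerivAt_id σ).mul_const Δ).const_add t₁)
  have h2 := (h.hasDeriv hV.surf (by linarith) hσ ((h1.fun_inv h0.ne').smul_const q)).1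
  refine ⟨_, h1.hasDerivWithinAt.fun_mul h2, fun hA => ?_⟩
  have h3 := abs_ht_le hV (h.mem σ hσ).1 (hβ.trans (h.mem σ hσ).2.le)
  rw [h.eq σ hσ] at h3
  simp only [real_inner_smul_right] at h3 ⊢
  set l := lam (t₁ + σ * Δ)
  have e : -(2 * l)⁻¹ * (1 * Δ) * ⟪f.n, g σ⟫ +
      l * (-(-(2 * l)⁻¹ * (1 * Δ)) / l ^ 2 * ⟪sl V f (g σ), q⟫) =
      -(Δ / (2 * l)) * (⟪f.n, g σ⟫ - l⁻¹ * ⟪sl V f (g σ), q⟫) := by field_simp; ring
  rw [e, abs_mul, abs_neg, abs_div, abs_of_pos (by positivity : 0 < 2 * l)]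
  calc _ ≤ |Δ| / (2 * l) * (12 * l) := by gcongr; linarith
    _ = 6 * |Δ| := by field_simp; ring

/-- The setting of the graph lemma: curvature at most one in the unit ball about
`x₁ = √(-t₁) z₁`, for the flow `√(-t) V` at times in `(a, b)`. -/
structure Su (V : Set E3) (f : Frame 2 E3) (z₁ : E3) (a b t₁ : ℝ) : Prop where
  shr : IsShr V
  closed : IsClosed V
  mem : z₁ ∈ V
  frame : f.n = nu V z₁
  time : t₁ ∈ Ioo a b
  neg : b ≤ 0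
  short : b - a ≤ 1 / 90000
  curv : ∀ t ∈ Ioo a b, ∀ z ∈ V, ‖lam t • z - lam t₁ • z₁‖ ≤ 1 → ‖sff V z‖ ≤ lam t

namespace Su

theorem seg (h : Su V f z₁ a b t₁) (ht : t ∈ Ioo a b) (hσ : σ ∈ Icc (0 : ℝ) 1) :
    t₁ + σ * (t - t₁) ∈ Ioo a b := (convex_Ioo a b).add_smul_sub_mem h.time ht hσ

theorem pos (h : Su V f z₁ a b t₁) (ht : t ∈ Ioo a b) : 0 < lam t := lam_pos (ht.2.trans_le h.neg)

theorem abs_le (h : Su V f z₁ a b t₁) (ht : t ∈ Ioo a b) : |t - t₁| ≤ 1 / 90000 := by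
  rw [_root_.abs_le]
  constructor <;> linarith [h.short, ht.1, ht.2, h.time.1, h.time.2]

/-- curvature bounds near a point over the centre -/
theorem curv' (h : Su V f z₁ a b t₁) (ht : t ∈ Ioo a b) {z : E3}
    (hz : ‖lam t • z - lam t₁ • z₁‖ ≤ 1 / 2) {y : Em 2} (hy : ‖y‖ ≤ 1 / 32) (x : E3)
    (hd : ‖x - z‖ ≤ 3 * ‖(lam t)⁻¹ • y‖) : ‖lam t • x - lam t₁ • z₁‖ ≤ 1 := by
  have h0 := h.pos ht
  rw [norm_smul, Real.norm_of_nonneg (inv_pos.2 h0).le] at hd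
  have h1 : ‖lam t • x - lam t • z‖ ≤ 3 * ‖y‖ := by
    rw [← smul_sub, norm_smul, Real.norm_of_nonneg h0.le]
    refine (mul_le_mul_of_nonneg_left hd h0.le).trans_eq ?_
    field_simp
  linarith [norm_sub_le_norm_sub_add_norm_sub (lam t • x) (lam t • z) (lam t₁ • z₁)]

theorem mul_norm (h : Su V f z₁ a b t₁) (ht : t ∈ Ioo a b) (y : Em 2) :
    lam t * ‖(lam t)⁻¹ • y‖ = ‖y‖ := by
  rw [norm_smul, Real.norm_of_nonneg (inv_pos.2 (h.pos ht)).le, mul_inv_cancel_left₀ (h.pos ht).ne']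

theorem norm_eq (h : Su V f z₁ a b t₁) (ht : t ∈ Ioo a b) {z : E3}
    (hz : f.π z = (lam t)⁻¹ • f.π (lam t₁ • z₁)) :
    ‖lam t • z - lam t₁ • z₁‖ ≤ |lam t * ⟪f.n, z⟫ - ⟪f.n, lam t₁ • z₁⟫| := by
  refine (norm_le_pi_add f _).trans_eq ?_
  rw [map_sub, map_smul, hz, smul_inv_smul₀ (h.pos ht).ne', sub_self, norm_zero, zero_add,
    inner_sub_right, real_inner_smul_right]

theorem height (h : Su V f z₁ a b t₁) (ht : t ∈ Ioo a b) (hβ : 1 / 4 ≤ β) (hs : s ≤ 1)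
    (hg : Lf V f β (fun σ => (lam (t₁ + σ * (t - t₁)))⁻¹ • f.π (lam t₁ • z₁)) g s) (h0 : g 0 = z₁)
    (hσ : σ ∈ Icc 0 s) :
    |lam (t₁ + σ * (t - t₁)) * ⟪f.n, g σ⟫ - ⟪f.n, lam t₁ • z₁⟫| ≤ 7 / 90000 := by
  have m : ∀ σ ∈ Icc 0 s, t₁ + σ * (t - t₁) ∈ Ioo a b := fun σ hσ => h.seg ht ⟨hσ.1, hσ.2.trans hs⟩
  choose! d d1 d2 using fun σ hσ => time_deriv (σ := σ) h.shr hβ hg hσ ((m σ hσ).2.trans_le h.neg)
  have h1 := image_norm_le_of_norm_deriv_right_lt_deriv_boundary (a := 0) (b := s) (f' := d)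
    (f := fun σ => lam (t₁ + σ * (t - t₁)) * ⟪f.n, g σ⟫ - ⟪f.n, lam t₁ • z₁⟫)
    (fun σ hσ => ((d1 σ hσ).sub_const _).continuousWithinAt)
    (fun σ hσ => ((d1 σ (Ico_subset_Icc_self hσ)).sub_const _).mono_of_mem_nhdsWithin
      (Icc_mem_nhdsGE_of_mem hσ)) (B := fun σ => σ * (7 / 90000)) (B' := fun _ => 1 * (7 / 90000))
    (by simp [h0, real_inner_smul_right]) (fun σ => (hasDerivAt_id σ).mul_const _)
    (fun σ hσ' he => by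
      have hσ := Ico_subset_Icc_self hσ'
      have h2 := h.norm_eq (m σ hσ) (hg.eq σ hσ)
      rw [← Real.norm_eq_abs, he] at h2
      have h3 := d2 σ hσ (h.curv _ (m σ hσ) _ (hg.mem σ hσ).1 (by linarith [hσ.2]))
      rw [Real.norm_eq_abs]
      linarith [h.abs_le ht]) hσ
  rw [Real.norm_eq_abs] at h1
  linarith [hσ.2]

theorem continuousOn_inv (h : Su V f z₁ a b t₁) :
    ContinuousOn (fun t => (lam t)⁻¹) (Ioo a b) :=
  continuous_lam.continuousOn.inv₀ fun _ ht => (h.pos ht).ne'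

/-- the tilt of the tangent plane stays small -/
theorem tilt (h : Su V f z₁ a b t₁) (ht : t ∈ Ioo a b) (hs : s ∈ Icc (0 : ℝ) 1)
    (hg : Lf V f (1 + 1 / 16)⁻¹ (fun σ => (lam (t₁ + σ * (t - t₁)))⁻¹ • f.π (lam t₁ • z₁)) g s)
    (h0 : g 0 = z₁) : ‖sl V f (g s)‖ ≤ 1 / 8 := by
  have hV := h.shr.surf
  have m : ∀ σ ∈ Icc 0 s, t₁ + σ * (t - t₁) ∈ Ioo a b := fun σ hσ =>
    h.seg ht ⟨hσ.1, hσ.2.trans hs.2⟩
  have b1 : ∀ σ ∈ Icc 0 s, ‖sl V f (g σ)‖ ≤ 1 / 4 := fun σ hσ =>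
    le_of_sq_le_sq (by linarith [Gd.sl_sq_lt hV (by norm_num) (hg.mem σ hσ)]) (by norm_num)
  have b2 := fun σ hσ => h.height (σ := σ) ht (by norm_num) hs.2 hg h0 hσ
  have b3 : ∀ σ ∈ Icc 0 s, ‖lam (t₁ + σ * (t - t₁)) • g σ - lam t₁ • z₁‖ ≤ 1 / 2 := fun σ hσ => by
    linarith [h.norm_eq (m σ hσ) (hg.eq σ hσ), b2 σ hσ]
  have hss : s ∈ Icc 0 s := ⟨hs.1, le_rfl⟩
  have h0s : (0 : ℝ) ∈ Icc 0 s := ⟨le_rfl, hs.1⟩
  obtain ⟨y, hy⟩ : ∃ y, y = (1 / 64 : ℝ) • sl V f (g s) := ⟨_, rfl⟩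
  have hyn : ‖y‖ = 1 / 64 * ‖sl V f (g s)‖ := by rw [hy, norm_smul]; norm_num
  have hy1 : ‖y‖ ≤ 1 / 32 := by linarith [b1 s hss]
  have cA : ∀ σ ∈ Icc 0 s, ∀ x ∈ V, ‖x - g σ‖ ≤ 3 * ‖(lam (t₁ + σ * (t - t₁)))⁻¹ • y‖ →
      ‖sff V x‖ ≤ lam (t₁ + σ * (t - t₁)) := fun σ hσ x hx hd =>
    h.curv _ (m σ hσ) x hx (h.curv' (m σ hσ) (b3 σ hσ) hy1 x hd)
  choose! R R1 R2 using fun σ hσ => exists_ray hV h.closed (hg.mem σ hσ).1
    (Gd.ne (by norm_num) (hg.mem σ hσ)) (b1 σ hσ) ((h.mul_norm (m σ hσ) y).trans_le hy1) (cA σ hσ)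
  have e := fun σ hσ => ray_est hV (cA σ hσ) le_rfl (R1 σ hσ) (R2 σ hσ) ⟨zero_le_one, le_rfl⟩
  have ci : ContinuousOn (fun σ => (lam (t₁ + σ * (t - t₁)))⁻¹) (Icc 0 s) :=
    h.continuousOn_inv.comp (by fun_prop) m
  have hG : Lf V f (1 / 4) (fun σ => (lam (t₁ + σ * (t - t₁)))⁻¹ • (f.π (lam t₁ • z₁) + y))
      (fun σ => R σ 1) s := by
    refine ⟨continuousOn_lf hV (by norm_num) ?_ R1 (hg.cont.congr R2),
      fun σ hσ => (R1 σ hσ).mem 1 ⟨zero_le_one, le_rfl⟩, fun σ hσ => ?_⟩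
    · exact ((f.π.continuous.comp_continuousOn hg.cont).comp continuousOn_fst fun z hz => hz.1).add
        (continuousOn_snd.smul ((ci.comp continuousOn_fst fun z hz => hz.1).smul continuousOn_const))
    · rw [(R1 σ hσ).eq 1 ⟨zero_le_one, le_rfl⟩, hg.eq σ hσ, one_smul, smul_add]
  choose! d d1 d2 using fun σ hσ => time_deriv (σ := σ) h.shr le_rfl hG hσ
    ((m σ hσ).2.trans_le h.neg)
  have h1 := norm_image_sub_le_of_norm_deriv_le_segment' (C := 6 / 90000) d1 (fun σ hσ' => by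
    have hσ := Ico_subset_Icc_self hσ'
    have := d2 σ hσ (cA σ hσ _ (hG.mem σ hσ).1 (e σ hσ).1)
    rw [Real.norm_eq_abs]
    linarith [h.abs_le ht]) s hss
  have e2 : ∀ σ ∈ Icc 0 s, |lam (t₁ + σ * (t - t₁)) * ⟪f.n, R σ 1⟫ -
      lam (t₁ + σ * (t - t₁)) * ⟪f.n, g σ⟫ - ⟪sl V f (g σ), y⟫| ≤ 8 * ‖y‖ ^ 2 := fun σ hσ => by
    have h2 := mul_le_mul_of_nonneg_left (e σ hσ).2.2 (h.pos (m σ hσ)).le
    have h3 := h.mul_norm (m σ hσ) y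
    rw [← abs_of_pos (h.pos (m σ hσ)), ← abs_mul, abs_of_pos (h.pos (m σ hσ)), one_mul,
      real_inner_smul_right, mul_sub, mul_sub, mul_inv_cancel_left₀ (h.pos (m σ hσ)).ne'] at h2
    refine h2.trans_eq ?_
    rw [← h3]
    ring
  have h2 := e2 0 h0s
  have h3 := e2 s hss
  have h4 := b2 s hss
  rw [h0, (sl_of_eq hV h.mem h.frame).2, inner_zero_left] at h2
  rw [hy, real_inner_smul_right, real_inner_self_eq_norm_sq, ← hy] at h3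
  rw [real_inner_smul_right] at h4
  simp only [zero_mul, add_zero, Real.norm_eq_abs] at h1 h2
  rw [hyn] at h2 h3
  have h5 := _root_.abs_le.1 h1
  have h6 := _root_.abs_le.1 h2
  have h7 := _root_.abs_le.1 h3
  have h8 := _root_.abs_le.1 h4
  refine le_of_sq_le_sq ?_ (by norm_num)
  linarith [h5.1, h5.2, h6.1, h6.2, h7.1, h7.2, h8.1, h8.2, hs.2]

theorem exists_time (h : Su V f z₁ a b t₁) (ht : t ∈ Ioo a b) :
    ∃ g, Lf V f (1 + 1 / 16)⁻¹ (fun σ => (lam (t₁ + σ * (t - t₁)))⁻¹ • f.π (lam t₁ • z₁)) g 1 ∧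
      g 0 = z₁ := by
  have hV := h.shr.surf
  have ci : ContinuousOn (fun σ => (lam (t₁ + σ * (t - t₁)))⁻¹) (Icc 0 1) :=
    h.continuousOn_inv.comp (by fun_prop) fun σ hσ => h.seg ht hσ
  obtain ⟨M, hM⟩ := isCompact_Icc.exists_bound_of_continuousOn ci
  have hp : ∀ σ : ℝ, (projIcc 0 1 zero_le_one σ : ℝ) ∈ Icc (0 : ℝ) 1 := fun σ => Subtype.prop _
  obtain ⟨g, g1, g2⟩ := exists_lf hV h.closed (β := (1 + 1 / 16)⁻¹) (β' := (1 + (1 / 8) ^ 2)⁻¹)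
    (R := M * (‖lam t₁ • z₁‖ + 1)) (by norm_num) (by norm_num)
    (γ := fun σ => (lam (t₁ + projIcc 0 1 zero_le_one σ * (t - t₁)))⁻¹ • f.π (lam t₁ • z₁))
    ((ci.comp_continuous (continuous_subtype_val.comp continuous_projIcc) hp).smul continuous_const)
    (x := z₁) ⟨h.mem, by rw [(sl_of_eq hV h.mem h.frame).1]; norm_num⟩
    (by simp [inv_smul_smul₀ (h.pos h.time).ne']) fun s hs g hg' h0 => by
      have hg : Lf V f (1 + 1 / 16)⁻¹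
          (fun σ => (lam (t₁ + σ * (t - t₁)))⁻¹ • f.π (lam t₁ • z₁)) g s :=
        ⟨hg'.cont, hg'.mem, fun σ hσ => by
          rw [hg'.eq σ hσ, projIcc_of_mem _ ⟨hσ.1, hσ.2.trans hs.2⟩]⟩
      have hss : s ∈ Icc 0 s := ⟨hs.1, le_rfl⟩
      refine ⟨?_, le_mu_sq hV (hg.mem s hss).1 (Gd.ne (by norm_num) (hg.mem s hss))
        (h.tilt ht hs hg h0)⟩
      have h1 := (h.norm_eq (h.seg ht hs) (hg.eq s hss)).trans
        (h.height ht (by norm_num) hs.2 hg h0 hss)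
      rw [← inv_smul_smul₀ (h.pos (h.seg ht hs)).ne' (g s), norm_smul]
      refine mul_le_mul (hM s hs) ?_ (norm_nonneg _) ((norm_nonneg _).trans (hM s hs))
      linarith [norm_le_insert' (lam (t₁ + s * (t - t₁)) • g s) (lam t₁ • z₁)]
  exact ⟨g, ⟨g1.cont, g1.mem, fun σ hσ => by rw [g1.eq σ hσ, projIcc_of_mem _ hσ]⟩, g2⟩

end Su

end Vale.Agent.P218N.C5
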