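import Vale.Agent.P218N.C5.Gauss
import Vale.Agent.P218N.C.Stmt

/-! White's local regularity theorem for the flow of a shrinker. -/

open MeasureTheory Set Filter Topology Metric Real
open scoped RealInnerProductSpace ContDiff

noncomputable section

namespace Vale.Agent.P218N.C5

open Vale.Agent.P218.H313 Vale.Agent.P218N.H Vale.Agent.P218N.C
open Vale.Agent.P218GA (cH cH_pos')

/-- closed shrinkers with finite Gaussian areas -/
structure SV (V : Set E3) : Prop where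
  shr : IsShr V
  closed : IsClosed V
  int : ∀ (c : E3) (s : ℝ), 0 < s → Integrable (fun x => exp (-‖x - c‖ ^ 2 / (4 * s))) (B.mu V)

/-- the Gaussian ratio of `√(-t) V` with centre `c` and scale `s` -/
def Th (V : Set E3) (c : E3) (t s : ℝ) : ℝ := Gm (B.mu V) ((lam t)⁻¹ • c) (s / lam t ^ 2)

theorem lam_mul {ρ : ℝ} (hρ : 0 ≤ ρ) (t : ℝ) : lam (ρ ^ 2 * t) = ρ * lam t := by
  rw [lam, lam, ← mul_neg, sqrt_mul (sq_nonneg _), sqrt_sq hρ]

theorem lam_anti {t t' : ℝ} (h : t ≤ t') : lam t' ≤ lam t := sqrt_le_sqrt (neg_le_neg h)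

theorem Th_mul (V : Set E3) {ρ : ℝ} (hρ : 0 < ρ) (c : E3) (t s : ℝ) :
    Th V (ρ • c) (ρ ^ 2 * t) (ρ ^ 2 * s) = Th V c t s := by
  rw [Th, Th, lam_mul hρ.le, smul_smul, mul_pow, mul_div_mul_left _ _ (by positivity), mul_inv,
    mul_right_comm, inv_mul_cancel₀ hρ.ne', one_mul]

/-- a sheet: the graph of `U` over `D`, scaled by `l⁻¹` -/
def sh (f : Frame 2 E3) (p : E3) (U : E2 → ℝ) (l : ℝ) (D : Set E2) : Set E3 :=
  (fun y => l⁻¹ • f.gr p U y) '' D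

variable {V : Set E3} {f : Frame 2 E3} {p : E3} {U : E2 → ℝ} {l : ℝ} {A : Set E2}

theorem measurableSet_sh (hU : Sm U) (hl : 0 < l) (hA : MeasurableSet A) :
    MeasurableSet (sh f p U l A) :=
  hA.image_of_continuousOn_injOn ((f.contDiff_gr p hU).continuous.fun_const_smul _).continuousOn
    fun _ _ _ _ h => f.gr_injective p U (smul_right_injective _ (inv_pos.2 hl).ne' h)

theorem norm_gr_sub_sq (c : E3) (y : E2) :
    ‖f.gr p U y - c‖ ^ 2 = ‖y - f.π (c - p)‖ ^ 2 + (U y - ⟪f.n, c - p⟫) ^ 2 := by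
  rw [← f.norm_sq, map_sub f.ι, f.ι_π, Frame.gr, sub_smul]
  congr 2
  abel

theorem integral_sh (hU : Sm U) (hl : 0 < l) (hA : MeasurableSet A) (c : E3) {s : ℝ} (hs : 0 < s) :
    (4 * π * (s / l ^ 2) * cH 2)⁻¹ * ∫ x in sh f p U l A,
      exp (-‖x - l⁻¹ • c‖ ^ 2 / (4 * (s / l ^ 2))) ∂μH[((2 : ℕ) : ℝ)] =
      (4 * π * s)⁻¹ * ∫ y in A, ga U (f.π (c - p)) ⟪f.n, c - p⟫ s y := by
  have e : sim 0 l⁻¹ (LinearIsometryEquiv.refl ℝ E3) ⁻¹' sh f p U l A = f.gr p U '' A := by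
    rw [← preimage_image_eq (f.gr p U '' A) (simH 0 (inv_pos.2 hl).ne'
      (LinearIsometryEquiv.refl ℝ E3)).injective, simH_coe, image_image]
    simp [sh, sim]
  have e2 : ∀ y, gJ U y • exp (-‖sim 0 l⁻¹ (LinearIsometryEquiv.refl ℝ E3) (f.gr p U y) -
      l⁻¹ • c‖ ^ 2 / (4 * (s / l ^ 2))) = cH 2 * ga U (f.π (c - p)) ⟪f.n, c - p⟫ s y := fun y => by
    rw [gJ, ga, smul_eq_mul, mul_assoc, ← norm_gr_sub_sq]
    simp only [sim, zero_add, LinearIsometryEquiv.coe_refl, id, ← smul_sub, norm_smul,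
      norm_of_nonneg (inv_pos.2 hl).le]
    congr 3
    field_simp
  rw [integral_sim (x₀ := 0) (Q := LinearIsometryEquiv.refl ℝ E3) (inv_pos.2 hl), e,
    integral_gr (contDiff_one' hU) hA]
  simp only [e2]
  rw [integral_const_mul, smul_eq_mul]
  have := cH_pos' 2
  field_simp

theorem SV.le_Th (h : SV V) {t s : ℝ} (ht : t < 0) (hs : 0 < s) (c : E3) {S : Set E3} (hS : S ⊆ V) :
    (4 * π * (s / lam t ^ 2) * cH 2)⁻¹ * ∫ x in S,
      exp (-‖x - (lam t)⁻¹ • c‖ ^ 2 / (4 * (s / lam t ^ 2))) ∂μH[((2 : ℕ) : ℝ)] ≤ Th V c t s := by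
  have := lam_pos ht
  have := cH_pos' 2
  exact mul_le_mul_of_nonneg_left (setIntegral_mono_set (h.int _ _ (by positivity))
    (ae_of_all _ fun x => (exp_pos _).le) hS.eventuallyLE) (by positivity)

theorem SV.one_sheet (h : SV V) {t s : ℝ} (ht : t < 0) (hs : 0 < s) (c : E3) (hU : Sm U)
    (hA : MeasurableSet A) (hS : sh f p U (lam t) A ⊆ V) :
    (4 * π * s)⁻¹ * ∫ y in A, ga U (f.π (c - p)) ⟪f.n, c - p⟫ s y ≤ Th V c t s :=
  (integral_sh hU (lam_pos ht) hA c hs).ge.trans (h.le_Th ht hs c hS)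

theorem SV.two_sheets (h : SV V) {t s : ℝ} (ht : t < 0) (hs : 0 < s) (c : E3) (hU : Sm U)
    (hA : MeasurableSet A) (hS : sh f p U (lam t) A ⊆ V) {f' : Frame 2 E3} {p' : E3} {U' : E2 → ℝ}
    {A' : Set E2} (hU' : Sm U') (hA' : MeasurableSet A') (hS' : sh f' p' U' (lam t) A' ⊆ V)
    (hd : Disjoint (sh f p U (lam t) A) (sh f' p' U' (lam t) A')) :
    (4 * π * s)⁻¹ * (∫ y in A, ga U (f.π (c - p)) ⟪f.n, c - p⟫ s y) +
      (4 * π * s)⁻¹ * ∫ y in A', ga U' (f'.π (c - p')) ⟪f'.n, c - p'⟫ s y ≤ Th V c t s := by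
  have h0 := lam_pos ht
  have i : IntegrableOn _ V _ := h.int ((lam t)⁻¹ • c) (s / lam t ^ 2) (by positivity)
  rw [← integral_sh hU h0 hA c hs, ← integral_sh hU' h0 hA' c hs, ← mul_add, ← setIntegral_union hd
    (measurableSet_sh hU' h0 hA') (i.mono_set hS) (i.mono_set hS')]
  exact h.le_Th ht hs c (union_subset hS hS')

/-! ### time slices of the graph function -/

namespace FG
variable {x₁ : E3} {a b t : ℝ} {u : Sp 2 → ℝ}

theorem exists_ext (h : FG V f x₁ a b u) (ht : t ∈ Ioo a b) {r : ℝ} (hr : r < 1 / 32) :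
    ∃ U : E2 → ℝ, Sm U ∧ ∀ y : E2, ‖y‖ ≤ r → U =ᶠ[𝓝 y] fun y => u (y, t) := by
  obtain ⟨U, O, h1, h2, h3, -, h4⟩ := exists_global_nhds (u := fun y : E2 => u (y, t))
    (isOpen_ball (x := 0) (ε := 1 / 32))
    (fun y hy => (h.contDiffAt_slice ⟨hy, ht⟩).contDiffWithinAt) (isClosed_closedBall (x := 0))
    (closedBall_subset_ball hr)
  exact ⟨U, h1, fun y hy => h4.eventuallyEq_of_mem (h2.mem_nhds (h3 (mem_closedBall_zero_iff.2 hy)))⟩

theorem sh_subset (h : FG V f x₁ a b u) (ht : t ∈ Ioo a b) {r : ℝ} (hr : r < 1 / 32)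
    (hU : ∀ y : E2, ‖y‖ ≤ r → U =ᶠ[𝓝 y] fun y => u (y, t)) (hA : ∀ y ∈ A, ‖y‖ ≤ r) :
    sh f x₁ U (lam t) A ⊆ V := by
  rintro _ ⟨y, hy, rfl⟩
  have := h.mem (y, t) ⟨mem_ball_zero_iff.2 ((hA y hy).trans_lt hr), ht⟩
  simpa only [pt, Frame.gr, (hU y (hA y hy)).self_of_nhds] using this

theorem hess_slice (h : FG V f x₁ a b u) {y : E2} (hz : (y, t) ∈ Om a b) (hU : Sm U)
    (he : U =ᶠ[𝓝 y] fun y => u (y, t)) (v w : E2) :
    fderiv ℝ (fderiv ℝ U) y v w = D (v, 0) (D (w, 0) u) (y, t) := by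
  have h1 : D w U =ᶠ[𝓝 y] fun y => D (w, 0) u (y, t) := by
    filter_upwards [D_congr he w, (Continuous.prodMk_left t).continuousAt.eventually
      ((isOpen_Om a b).mem_nhds hz)] with y' h1 h2
    rw [h1]
    exact fderiv_slice ((h.smooth.contDiffAt ((isOpen_Om a b).mem_nhds h2)).differentiableAt
      (by simp)) w
  rw [← D_D hU, (D_congr h1 v).self_of_nhds]
  exact fderiv_slice ((((h.smooth.contDiffAt ((isOpen_Om a b).mem_nhds hz)).fderiv_right (m := ∞)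
    (by simp)).clm_apply contDiffAt_const).differentiableAt (by simp)) v

theorem lip (h : FG V f x₁ a b u) (ht : t ∈ Ioo a b) {y y' : E2} (hy : ‖y‖ < 1 / 32)
    (hy' : ‖y'‖ < 1 / 32) : |u (y, t) - u (y', t)| ≤ ‖y - y'‖ / 2 := by
  have := (convex_ball (0 : E2) (1 / 32)).norm_image_sub_le_of_norm_fderiv_le
    (f := fun y => u (y, t)) (C := 1 / 2)
    (fun x hx => (h.contDiffAt_slice ⟨hx, ht⟩).differentiableAt (by simp))
    (fun x hx => by rw [← norm_grad, h.grad_slice ⟨hx, ht⟩]; exact h.bd1 _ ⟨hx, ht⟩)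
    (mem_ball_zero_iff.2 hy') (mem_ball_zero_iff.2 hy)
  rw [norm_eq_abs] at this
  linarith

end FG

theorem norm_sff_sq_le_hs (hV : Surf V) {x : E3} (hx : x ∈ V) (hf : f.n = nu V x) {q : Fin 2 → Fin 2 → ℝ}
    (hq : ∀ i j, ⟪sff V x (f.ι (EuclideanSpace.single i 1)), f.ι (EuclideanSpace.single j 1)⟫ = q i j) :
    ‖sff V x‖ ^ 2 ≤ q 0 0 ^ 2 + q 0 1 ^ 2 + q 1 0 ^ 2 + q 1 1 ^ 2 := by
  have e : ∀ v, PT V x v = f.ι (f.π v) := fun v => by rw [f.ι_π, hf, PT_apply]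
  rw [← le_sqrt (norm_nonneg _) (by positivity)]
  refine ContinuousLinearMap.opNorm_le_bound _ (sqrt_nonneg _) fun v => ?_
  have h1 : ‖sff V x v‖ = ‖f.π (sff V x v)‖ := by rw [← f.norm_ι, ← e, hV.PT_sff hx]
  have h2 : ∀ j, f.π (sff V x v) j = f.π v 0 * q 0 j + f.π v 1 * q 1 j := fun j => by
    have h3 : f.π (sff V x v) j = ⟪sff V x v, f.ι (EuclideanSpace.single j 1)⟫ := by
      rw [real_inner_comm, f.adj]
      simp [EuclideanSpace.inner_single_left]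
    rw [h3, ← hV.sff_PT hx, e, ← hq, ← hq]
    conv_lhs => rw [decomp_two (f.π v)]
    simp only [map_add, map_smul, inner_add_left, real_inner_smul_left]
  refine le_trans ?_ (mul_le_mul_of_nonneg_left (f.norm_π_le v) (sqrt_nonneg _))
  refine (pow_le_pow_iff_left₀ (norm_nonneg _) (by positivity) two_ne_zero).1 ?_
  rw [h1, mul_pow, sq_sqrt (by positivity), norm_sq_two, norm_sq_two, h2, h2]
  linarith [sq_nonneg (f.π v 0 * q 1 0 - f.π v 1 * q 0 0), sq_nonneg (f.π v 0 * q 1 1 - f.π v 1 * q 0 1)]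

/-- **Curvature forces a large Gaussian ratio.** -/
theorem core : ∃ ε : ℝ, 0 < ε ∧ ε ≤ 1 / 10 ∧ ∀ (V : Set E3) (f : Frame 2 E3) (z₁ : E3) (a b t₁ : ℝ),
    SV V → Su V f z₁ a b t₁ → a + (1 / 600) ^ 2 < t₁ → lam t₁ ≤ 4 * ‖sff V z₁‖ →
      ∃ (c : E3) (s : ℝ), ‖c - lam t₁ • z₁‖ ≤ 1 ∧ 0 < s ∧ s ≤ 1 ∧ 1 + ε < Th V c t₁ s := by
  obtain ⟨K, hK0, hK⟩ := fg_est 3 (θ := 1 / 600) (by norm_num) (by norm_num)
  obtain ⟨C, hC0, hC⟩ := expand hK0 (r := 1 / 64) (by norm_num) (by norm_num)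
  obtain ⟨δ, hδ, hδ1, hδ2⟩ : ∃ δ : ℝ, 0 < δ ∧ δ ≤ 1 / 2 ∧ C * δ ≤ 1 / 64 :=
    ⟨min (1 / 2) (1 / 64 / C), by positivity, min_le_left _ _, by
      rw [mul_comm, ← le_div_iff₀ hC0]; exact min_le_right _ _⟩
  have hτ : 0 < δ ^ 2 := by positivity
  have hτ1 : δ ^ 2 ≤ 1 / 4 := by nlinarith
  refine ⟨δ ^ 2 / 128, by positivity, by linarith, fun V f z₁ a b t₁ hV h h1 h2 => ?_⟩
  obtain ⟨u, hu, u0, u1⟩ := h.exists_fg
  obtain ⟨U, hU, he⟩ := hu.exists_ext h.time (r := 1 / 64) (by norm_num)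
  have hz : ((0, t₁) : Sp 2) ∈ Om a b := ⟨mem_ball_self (by norm_num), h.time⟩
  have e0 := he 0 (by simp)
  obtain ⟨m1, m2⟩ := sl_of_eq h.shr.surf h.mem h.frame
  have d0 : ∀ v, D (v, 0) u (0, t₁) = 0 := fun v => by rw [hu.d1 _ hz, u1, m2, inner_zero_left]
  have hb : ∀ v w, |fderiv ℝ (fderiv ℝ U) 0 v w| ≤ 2 * ‖v‖ * ‖w‖ := fun v w => by
    rw [hu.hess_slice hz hU e0]; exact hu.bd2 _ hz v w
  have k := hC U hU (e0.self_of_nhds.trans u0) (by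
    ext v
    rw [e0.fderiv_eq, fderiv_slice ((hu.smooth.contDiffAt
      ((isOpen_Om a b).mem_nhds hz)).differentiableAt (by simp)), d0]
    rfl) (fun y hy => by
      rw [((he y hy).iteratedFDeriv ℝ 3).self_of_nhds]
      exact (hK V f _ a b u hu y t₁ hy h1 h.time.2).1) hb δ hδ (by linarith)
  have h0 := h.pos h.time
  have s1 := norm_sff_sq_le_hs h.shr.surf h.mem h.frame (q := fun i j => -(lam t₁ * hs U i j))
    fun i j => by
      have := hu.d2 _ hz (EuclideanSpace.single i 1) (EuclideanSpace.single j 1)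
      rw [d0, d0, u1, m1, ← hu.hess_slice hz hU e0] at this
      simpa [hs] using this
  have s2 : 1 / 16 ≤ hs U 0 0 ^ 2 + 2 * hs U 0 1 ^ 2 + hs U 1 1 ^ 2 := by
    rw [hs_symm hU] at s1
    refine le_of_mul_le_mul_left ?_ (pow_pos h0 2)
    linarith [pow_le_pow_left₀ h0.le h2 2]
  have s3 : |hs U 0 0 + hs U 1 1| ≤ 4 := by
    have a1 := hb (EuclideanSpace.single 0 1) (EuclideanSpace.single 0 1)
    have a2 := hb (EuclideanSpace.single 1 1) (EuclideanSpace.single 1 1)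
    simp only [PiLp.norm_single, norm_one, mul_one] at a1 a2
    exact (abs_add_le _ _).trans (by unfold hs; linarith)
  refine ⟨lam t₁ • z₁ + (δ ^ 2 * (hs U 0 0 + hs U 1 1)) • f.n, δ ^ 2, ?_, hτ, by linarith, ?_⟩
  · rw [add_sub_cancel_left, norm_smul, f.norm_n, mul_one, norm_eq_abs, abs_mul, abs_of_pos hτ]
    nlinarith
  · refine lt_of_lt_of_le ?_ (hV.one_sheet (h.time.2.trans_le h.neg) hτ _ hU measurableSet_ball
      (hu.sh_subset h.time (by norm_num) he fun y hy => (mem_ball_zero_iff.1 hy).le))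
    rw [add_sub_cancel_left, map_smul, f.π_n, smul_zero, real_inner_smul_right, f.inner_nn, mul_one,
      lt_inv_mul_iff₀ (by positivity)]
    refine lt_of_lt_of_le (mul_lt_mul_of_pos_left ?_ (by positivity)) k
    nlinarith [mul_le_mul_of_nonneg_left s2 hτ.le, mul_le_mul_of_nonneg_left hδ2 hτ.le]

/-- Gaussian ratios are at most `1 + ε` for centres in the ball of radius `r` about `x`, times in
`[a, b)` and scales at most `r²` -/
def RB (V : Set E3) (ε : ℝ) (x : E3) (a b r : ℝ) : Prop :=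
  ∀ (t : ℝ) (c : E3) (s : ℝ), a ≤ t → t < b → ‖c - x‖ ≤ r → 0 < s → s ≤ r ^ 2 → Th V c t s ≤ 1 + ε

theorem RB.mono {ε a b r a' b' r' : ℝ} {x x' : E3} (h : RB V ε x a b r) (ha : a ≤ a') (hb : b' ≤ b)
    (hr' : 0 ≤ r') (hr : ‖x' - x‖ + r' ≤ r) : RB V ε x' a' b' r' := fun t c s h1 h2 h3 h4 h5 =>
  h t c s (ha.trans h1) (h2.trans_le hb) (by linarith [norm_sub_le_norm_sub_add_norm_sub c x' x]) h4
    (h5.trans (pow_le_pow_left₀ hr' (by linarith [norm_nonneg (x' - x)]) 2))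

theorem RB.scale {ε a b r ρ : ℝ} {x : E3} (hρ : 0 < ρ)
    (h : RB V ε (ρ • x) (ρ ^ 2 * a) (ρ ^ 2 * b) (ρ * r)) : RB V ε x a b r :=
  fun t c s h1 h2 h3 h4 h5 => by
    rw [← Th_mul V hρ]
    refine h _ _ _ (by gcongr) (by gcongr) ?_ (by positivity) (by rw [mul_pow]; gcongr)
    rw [← smul_sub, norm_smul, norm_of_nonneg hρ.le]
    gcongr

theorem core' : ∃ ε : ℝ, 0 < ε ∧ ε ≤ 1 / 10 ∧ ∀ (V : Set E3) (z₁ : E3) (b : ℝ), SV V → z₁ ∈ V →
    b < 0 → (∀ t ∈ Ioo (b - 1) b, ∀ z ∈ V, ‖lam t • z - lam b • z₁‖ ≤ 2 → ‖sff V z‖ ≤ lam t) →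
    RB V ε (lam b • z₁) (b - 1) b 2 → 2 * ‖sff V z₁‖ < lam b := by
  obtain ⟨ε, hε, hε1, h⟩ := core
  refine ⟨ε, hε, hε1, fun V z₁ b hV hz hb hc hR => lt_of_not_ge fun h1 => ?_⟩
  have h0 := lam_pos hb
  have e1 : ∀ᶠ t in 𝓝 b, lam t < 4 * ‖sff V z₁‖ :=
    continuous_lam.continuousAt.eventually (gt_mem_nhds (by linarith))
  have e2 : ∀ᶠ t in 𝓝 b, ‖lam t • z₁ - lam b • z₁‖ < 1 :=
    ((continuous_lam.smul continuous_const).sub continuous_const).norm.continuousAt.eventually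
      (gt_mem_nhds (by simp))
  have e3 : ∀ᶠ t in 𝓝 b, b - 1 / 90000 + (1 / 600) ^ 2 < t := lt_mem_nhds (by linarith)
  obtain ⟨t, ⟨t1, t2, t3⟩, t4⟩ :=
    (((e1.and (e2.and e3)).filter_mono nhdsWithin_le_nhds).and (self_mem_nhdsWithin (s := Iio b))).exists
  have t5 : t < b := t4
  obtain ⟨f, hf⟩ := exists_frame (m := 2) (E := E3) (by simp) (hV.shr.surf.norm_nu hz)
  obtain ⟨c, s, c1, c2, c3, c4⟩ := h V f z₁ (b - 1 / 90000) b t hV ⟨hV.shr, hV.closed, hz, hf,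
    ⟨by linarith, t5⟩, hb.le, by linarith, fun t' ht' z hz' hd => hc t' ⟨by linarith [ht'.1], ht'.2⟩
      z hz' (by linarith [norm_sub_le_norm_sub_add_norm_sub (lam t' • z) (lam t • z₁) (lam b • z₁)])⟩
    t3 t1.le
  exact c4.not_ge (hR t c s (by linarith) t5
    (by linarith [norm_sub_le_norm_sub_add_norm_sub c (lam t • z₁) (lam b • z₁)]) c2 (by linarith))

/-- **White's local regularity theorem.** -/
theorem white : ∃ ε : ℝ, 0 < ε ∧ ε ≤ 1 / 10 ∧ ∀ (V : Set E3) (z₀ : E3) (t₀ r : ℝ), SV V → z₀ ∈ V →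
    t₀ < 0 → 0 < r → RB V ε (lam t₀ • z₀) (t₀ - r ^ 2) t₀ r → r * ‖sff V z₀‖ ≤ 2 * lam t₀ := by
  obtain ⟨ε, hε, hε1, h⟩ := core'
  refine ⟨ε, hε, hε1, fun V z₀ t₀ r hV hz ht hr hR => ?_⟩
  have h0 := lam_pos ht
  set x₀ := lam t₀ • z₀ with hx₀
  set K : Set (E3 × ℝ) := {q | q.1 ∈ V ∧ q.2 ∈ Icc (t₀ - r ^ 2) t₀ ∧ ‖lam q.2 • q.1 - x₀‖ ≤ r}
  have lp : ∀ q ∈ K, 0 < lam q.2 := fun q hq => h0.trans_le (lam_anti hq.2.1.2)
  have c0 : Continuous fun q : E3 × ℝ => ‖lam q.2 • q.1 - x₀‖ := by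
    have := continuous_lam
    fun_prop
  have hK : IsCompact K := by
    refine ((isCompact_closedBall (0 : E3) ((‖x₀‖ + r) / lam t₀)).prod
      (isCompact_Icc (a := t₀ - r ^ 2) (b := t₀))).of_isClosed_subset
      ((hV.closed.preimage continuous_fst).inter ((isClosed_Icc.preimage continuous_snd).inter
        (isClosed_le c0 continuous_const))) fun q hq => ⟨mem_closedBall_zero_iff.2 ?_, hq.2.1⟩
    have h1 := norm_le_insert' (lam q.2 • q.1) x₀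
    rw [norm_smul, norm_of_nonneg (lp q hq).le] at h1
    rw [le_div_iff₀ h0]
    linarith [hq.2.2, mul_le_mul_of_nonneg_left (lam_anti hq.2.1.2) (norm_nonneg q.1)]
  set d : E3 × ℝ → ℝ := fun q => min (r - ‖lam q.2 • q.1 - x₀‖) √(q.2 - t₀ + r ^ 2) with hd
  have c1 : Continuous d := (continuous_const.sub c0).min (by fun_prop)
  have z0 : (z₀, t₀) ∈ K := ⟨hz, ⟨by linarith [sq_nonneg r], le_rfl⟩, by simp [hx₀, hr.le]⟩
  obtain ⟨⟨z₁, t₁⟩, q1, q2⟩ := hK.exists_isMaxOn ⟨_, z0⟩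
    (f := fun q => d q * (‖sff V q.1‖ / lam q.2)) (c1.continuousOn.mul
      ((hV.shr.surf.continuousOn_norm_sff.comp continuousOn_fst fun q hq => hq.1).div
        (continuous_lam.comp continuous_snd).continuousOn fun q hq => (lp q hq).ne'))
  have m0 : r * (‖sff V z₀‖ / lam t₀) ≤ d (z₁, t₁) * (‖sff V z₁‖ / lam t₁) := by
    simpa [hd, hx₀, sqrt_sq hr.le] using isMaxOn_iff.1 q2 _ z0
  rw [← div_le_iff₀ h0, mul_div_assoc]
  refine m0.trans (le_of_not_gt fun m1 => ?_)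
  have l1 : 0 < lam t₁ := lp _ q1
  have a0 : 0 ≤ ‖sff V z₁‖ / lam t₁ := by positivity
  have d0 : 0 < d (z₁, t₁) := pos_of_mul_pos_left (by linarith) a0
  have a1 : 0 < ‖sff V z₁‖ / lam t₁ := pos_of_mul_pos_right (by linarith) d0.le
  obtain ⟨ρ, hρ, r1⟩ : ∃ ρ, 0 < ρ ∧ 2 * ρ * (‖sff V z₁‖ / lam t₁) = 1 :=
    ⟨(2 * (‖sff V z₁‖ / lam t₁))⁻¹, by positivity, by
      rw [mul_right_comm, mul_inv_cancel₀ (by positivity)]⟩
  have r2 : 4 * ρ < d (z₁, t₁) := lt_of_mul_lt_mul_right (by linarith) a0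
  have d1 : d (z₁, t₁) ≤ r - ‖lam t₁ • z₁ - x₀‖ := min_le_left _ _
  have d2 : d (z₁, t₁) ^ 2 ≤ t₁ - t₀ + r ^ 2 :=
    (le_sqrt' d0).1 (min_le_right _ _)
  have r3 : 16 * ρ ^ 2 ≤ d (z₁, t₁) ^ 2 := by nlinarith
  have hτ : 0 < ρ ^ 2 := by positivity
  obtain ⟨b, rfl⟩ : ∃ b, t₁ = ρ ^ 2 * b := ⟨t₁ / ρ ^ 2, by field_simp⟩
  have hb : b < 0 := neg_of_mul_neg_right (q1.2.1.2.trans_lt ht) hτ.le
  have tb : ρ ^ 2 * b ≤ t₀ := q1.2.1.2
  have k := h V z₁ b hV q1.1 hb (fun t ht z hz hn => ?_) (RB.scale hρ (hR.mono (by linarith) tb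
    (by positivity) (by rw [smul_smul, ← lam_mul hρ.le]; linarith)))
  · rw [lam_mul hρ.le] at r1
    have := lam_pos hb
    field_simp at r1
    linarith
  have n1 : ‖lam (ρ ^ 2 * t) • z - lam (ρ ^ 2 * b) • z₁‖ ≤ ρ * 2 := by
    rw [lam_mul hρ.le, lam_mul hρ.le, mul_smul, mul_smul, ← smul_sub, norm_smul,
      norm_of_nonneg hρ.le]
    gcongr
  have n2 := norm_sub_le_norm_sub_add_norm_sub (lam (ρ ^ 2 * t) • z) (lam (ρ ^ 2 * b) • z₁) x₀
  have n3 := mul_lt_mul_of_pos_left ht.1 hτ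
  have n4 := mul_lt_mul_of_pos_left ht.2 hτ
  have n5 : (z, ρ ^ 2 * t) ∈ K := ⟨hz, ⟨by linarith, by linarith⟩, by linarith⟩
  have n6 : d (z₁, ρ ^ 2 * b) / 2 ≤ d (z, ρ ^ 2 * t) :=
    le_min (by linarith) (le_sqrt_of_sq_le (by linarith))
  have n7 : d (z, ρ ^ 2 * t) * (‖sff V z‖ / lam (ρ ^ 2 * t)) ≤ _ := isMaxOn_iff.1 q2 _ n5
  have n8 : 0 < lam (ρ ^ 2 * t) := lp _ n5
  have n9 : ‖sff V z‖ / lam (ρ ^ 2 * t) ≤ 2 * (‖sff V z₁‖ / lam (ρ ^ 2 * b)) :=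
    le_of_mul_le_mul_left
      (by linarith [mul_le_mul_of_nonneg_right n6 (div_nonneg (norm_nonneg (sff V z)) n8.le)]) d0
  have n10 := mul_le_mul_of_nonneg_left n9 hρ.le
  rw [← mul_div_assoc, div_le_iff₀ n8, lam_mul hρ.le t] at n10
  refine le_of_mul_le_mul_left ?_ hρ
  calc ρ * ‖sff V z‖ ≤ _ := n10
    _ = 2 * ρ * (‖sff V z₁‖ / lam (ρ ^ 2 * b)) * (ρ * lam t) := by ring
    _ = _ := by rw [r1, one_mul]

end Vale.Agent.P218N.C5
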